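import Mathlib

/-!
Row 56 (S0077), outer layer, part 2: the logit differential inequality.
-/

set_option autoImplicit false

namespace Crest.Agent.BKO

/-- If `μ' ≥ c μ (1-μ)` on `[a,b]` then the logit of `μ` grows at least linearly with slope `c`. -/
theorem logit_growth (μ μ' : ℝ → ℝ) (a b c : ℝ) (hab : a ≤ b)
    (hd : ∀ t ∈ Set.Icc a b, HasDerivAt μ (μ' t) t)
    (h01 : ∀ t ∈ Set.Icc a b, 0 < μ t ∧ μ t < 1)
    (hineq : ∀ t ∈ Set.Icc a b, c * (μ t * (1 - μ t)) ≤ μ' t) :
    c * (b - a) ≤ Real.log (μ b / (1 - μ b)) - Real.log (μ a / (1 - μ a)) := by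
  set g : ℝ → ℝ := fun t => Real.log (μ t) - Real.log (1 - μ t) with hg
  have hgd : ∀ t ∈ Set.Icc a b, HasDerivAt g (μ' t / μ t - (-μ' t) / (1 - μ t)) t := by
    intro t ht
    obtain ⟨h0, h1⟩ := h01 t ht
    have e1 := (hd t ht).log h0.ne'
    have e2 := ((hd t ht).const_sub 1).log (by linarith : (1 - μ t) ≠ 0)
    exact e1.sub e2
  have hcont : ContinuousOn g (Set.Icc a b) :=
    fun t ht => (hgd t ht).continuousAt.continuousWithinAt
  have hdiff : DifferentiableOn ℝ g (interior (Set.Icc a b)) :=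
    fun t ht => (hgd t (interior_subset ht)).differentiableAt.differentiableWithinAt
  have hder : ∀ t ∈ interior (Set.Icc a b), c ≤ deriv g t := by
    intro t ht
    have ht' := interior_subset ht
    rw [(hgd t ht').deriv]
    obtain ⟨h0, h1⟩ := h01 t ht'
    have h1' : 0 < 1 - μ t := by linarith
    have : μ' t / μ t - (-μ' t) / (1 - μ t) = μ' t / (μ t * (1 - μ t)) := by
      field_simp
      ring
    rw [this, le_div_iff₀ (mul_pos h0 h1')]
    exact hineq t ht'
  have key := Convex.mul_sub_le_image_sub_of_le_deriv (convex_Icc a b) hcont hdiff hder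
    a (Set.left_mem_Icc.2 hab) b (Set.right_mem_Icc.2 hab) hab
  have hl : ∀ t ∈ Set.Icc a b, Real.log (μ t / (1 - μ t)) = g t := by
    intro t ht
    obtain ⟨h0, h1⟩ := h01 t ht
    rw [Real.log_div h0.ne' (by linarith : (1 - μ t) ≠ 0)]
  rw [hl a (Set.left_mem_Icc.2 hab), hl b (Set.right_mem_Icc.2 hab)]
  exact key

/-- From logit growth `≥ 4 log (1/(2ε))` to the threshold statement. -/
theorem threshold_of_logit (x y ε : ℝ) (hε0 : 0 < ε) (hε : ε < 1 / 2) (hx : ε ≤ x) (hx1 : x < 1)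
    (hy0 : 0 < y) (hy1 : y < 1)
    (h : 4 * Real.log (1 / (2 * ε)) ≤ Real.log (y / (1 - y)) - Real.log (x / (1 - x))) :
    1 - ε ≤ y := by
  by_contra hcon
  have hcon := not_le.1 hcon
  have hx0 : 0 < x := lt_of_lt_of_le hε0 hx
  have h1ε : 0 < 1 - ε := by linarith
  -- upper bound for logit y
  have hy : Real.log (y / (1 - y)) < Real.log ((1 - ε) / ε) := by
    apply Real.log_lt_log (div_pos hy0 (by linarith))
    rw [div_lt_div_iff₀ (by linarith) hε0]
    nlinarith
  have hxl : Real.log (ε / (1 - ε)) ≤ Real.log (x / (1 - x)) := by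
    apply Real.log_le_log (div_pos hε0 h1ε)
    rw [div_le_div_iff₀ h1ε (by linarith)]
    nlinarith
  have hinv : Real.log (ε / (1 - ε)) = - Real.log ((1 - ε) / ε) := by
    rw [← Real.log_inv, inv_div]
  have hsq : Real.log ((1 - ε) / ε) ≤ 2 * Real.log (1 / (2 * ε)) := by
    have : (2 : ℝ) * Real.log (1 / (2 * ε)) = Real.log ((1 / (2 * ε)) ^ 2) := by
      rw [Real.log_pow]; norm_num
    rw [this]
    apply Real.log_le_log (div_pos h1ε hε0)
    rw [div_pow, one_pow, div_le_div_iff₀ hε0 (by positivity)]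
    nlinarith [sq_nonneg (1 - 2 * ε), mul_pos hε0 hε0]
  linarith

end Crest.Agent.BKO
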