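import Mathlib
import Crest.Prelude.Def_FinProb

/-!
Row 56 (S0077), outer layer, part 1: the Margulis--Russo formula for the exact finite-sum
probabilities `Crest.FinProb.bernoulliProb`.
-/

set_option autoImplicit false
set_option linter.unusedSectionVars false

namespace Crest.Agent.BKO

open Crest.FinProb Finset

variable {ι : Type*} [Fintype ι] [DecidableEq ι]

/-- one-coin weight -/
noncomputable def coin (t : ℝ) (b : Bool) : ℝ := if b then t else 1 - t

/-- derivative of the one-coin weight -/
def coinSign (b : Bool) : ℝ := if b then 1 else -1

theorem bernoulliWeight_eq (t : ℝ) (ω : ι → Bool) :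
    bernoulliWeight t ω = ∏ i, coin t (ω i) := rfl

theorem bernoulliProb_setOf (t : ℝ) (P : (ι → Bool) → Prop) [DecidablePred P] :
    bernoulliProb t {x | P x} = ∑ ω, if P ω then bernoulliWeight t ω else 0 := by
  unfold bernoulliProb
  rw [Finset.sum_filter]
  refine Finset.sum_congr rfl fun ω _ => ?_
  by_cases h : P ω <;> simp [h]

theorem hasDerivAt_coin (t : ℝ) (b : Bool) :
    HasDerivAt (fun s => coin s b) (coinSign b) t := by
  cases b
  · simpa [coin, coinSign] using (hasDerivAt_id' t).const_sub 1
  · simpa [coin, coinSign] using hasDerivAt_id' t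

theorem hasDerivAt_bernoulliWeight (t : ℝ) (ω : ι → Bool) :
    HasDerivAt (fun s => bernoulliWeight s ω)
      (∑ i, (∏ j ∈ univ.erase i, coin t (ω j)) * coinSign (ω i)) t := by
  have := HasDerivAt.fun_finsetProd (u := (univ : Finset ι)) (x := t)
    (f := fun i s => coin s (ω i)) (f' := fun i => coinSign (ω i))
    (fun i _ => hasDerivAt_coin t (ω i))
  simpa [bernoulliWeight_eq, smul_eq_mul] using this

/-- monotone Boolean functions of coins -/
def MonoB (f : (ι → Bool) → Bool) : Prop :=
  ∀ x y : ι → Bool, (∀ i, x i = true → y i = true) → f x = true → f y = true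

/-- The flip of coordinate `i`. -/
def flipAt (i : ι) (ω : ι → Bool) : ι → Bool := Function.update ω i (!ω i)

theorem flipAt_flipAt (i : ι) (ω : ι → Bool) : flipAt i (flipAt i ω) = ω := by
  funext j
  by_cases h : j = i
  · subst h; simp [flipAt]
  · simp [flipAt, h]

theorem flipAt_ne (i : ι) (ω : ι → Bool) : flipAt i ω ≠ ω := by
  intro h
  have := congrFun h i
  simp [flipAt] at this

theorem prod_erase_flipAt (t : ℝ) (i : ι) (ω : ι → Bool) :
    ∏ j ∈ univ.erase i, coin t (flipAt i ω j) = ∏ j ∈ univ.erase i, coin t (ω j) := by
  refine Finset.prod_congr rfl fun j hj => ?_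
  have : j ≠ i := (Finset.mem_erase.1 hj).1
  simp [flipAt, this]

theorem weight_eq_mul_erase (t : ℝ) (i : ι) (ω : ι → Bool) :
    bernoulliWeight t ω = coin t (ω i) * ∏ j ∈ univ.erase i, coin t (ω j) := by
  rw [bernoulliWeight_eq, Finset.mul_prod_erase univ (fun j => coin t (ω j)) (Finset.mem_univ i)]

/-- pointwise cancellation used in `russo_coord` -/
theorem russo_aux (a b : Bool) (hab : a = true → b = true) (t R : ℝ) :
    ((if a = true then R * coinSign false else 0) - (if b ≠ a then coin t false * R else 0))
      + ((if b = true then R * coinSign true else 0) - (if b ≠ a then coin t true * R else 0))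
      = 0 := by
  cases a <;> cases b <;> simp_all [coin, coinSign]
  ring

/-- the one-coordinate Russo identity -/
theorem russo_coord (f : (ι → Bool) → Bool) (hf : MonoB f) (t : ℝ) (i : ι) :
    (∑ ω, if f ω = true then (∏ j ∈ univ.erase i, coin t (ω j)) * coinSign (ω i) else 0)
      = ∑ ω, if f (Function.update ω i true) ≠ f (Function.update ω i false)
          then bernoulliWeight t ω else 0 := by
  rw [← sub_eq_zero, ← Finset.sum_sub_distrib]
  refine Finset.sum_ninvolution (flipAt i) ?_ (fun a _ => flipAt_ne i a) (fun a => Finset.mem_univ _)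
    (flipAt_flipAt i)
  intro ω
  have hmono : f (Function.update ω i false) = true → f (Function.update ω i true) = true := by
    apply hf
    intro j hj
    by_cases h : j = i
    · subst h; simp
    · simpa [h] using hj
  have hu1 : ∀ b c : Bool, Function.update (Function.update ω i b) i c = Function.update ω i c :=
    fun b c => by simp
  rw [weight_eq_mul_erase t i ω, weight_eq_mul_erase t i (flipAt i ω), prod_erase_flipAt]
  generalize (∏ j ∈ univ.erase i, coin t (ω j)) = R
  cases hωi : ω i
  · have h0 : ω = Function.update ω i false := by
      rw [← hωi]; simp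
    have h1 : flipAt i ω = Function.update ω i true := by
      simp [flipAt, hωi]
    have e1 : Function.update ω i true i = true := by simp
    rw [h1, hu1, hu1, e1]
    have hfω : f ω = f (Function.update ω i false) := congrArg f h0
    rw [hfω]
    exact russo_aux _ _ hmono t R
  · have h0 : ω = Function.update ω i true := by
      rw [← hωi]; simp
    have h1 : flipAt i ω = Function.update ω i false := by
      simp [flipAt, hωi]
    have e1 : Function.update ω i false i = false := by simp
    rw [h1, hu1, hu1, e1]
    have hfω : f ω = f (Function.update ω i true) := congrArg f h0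
    rw [hfω, add_comm]
    exact russo_aux _ _ hmono t R

/-- **Margulis--Russo formula** for monotone Boolean functions of finitely many coins. -/
theorem russo (f : (ι → Bool) → Bool) (hf : MonoB f) (t : ℝ) :
    HasDerivAt (fun s => bernoulliProb s {x | f x = true})
      (∑ e, bernoulliProb t
        {x | f (Function.update x e true) ≠ f (Function.update x e false)}) t := by
  have h1 : (fun s => bernoulliProb s {x | f x = true})
      = fun s => ∑ ω, if f ω = true then bernoulliWeight s ω else 0 := by
    funext s
    rw [bernoulliProb_setOf]
  rw [h1]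
  have h2 : HasDerivAt (fun s => ∑ ω, if f ω = true then bernoulliWeight s ω else 0)
      (∑ ω, if f ω = true then
        (∑ i, (∏ j ∈ univ.erase i, coin t (ω j)) * coinSign (ω i)) else 0) t := by
    refine HasDerivAt.fun_sum fun ω _ => ?_
    by_cases h : f ω = true
    · simpa [h] using hasDerivAt_bernoulliWeight t ω
    · simpa [h] using hasDerivAt_const t (0 : ℝ)
  convert h2 using 1
  have h3 : ∀ e, bernoulliProb t
        {x | f (Function.update x e true) ≠ f (Function.update x e false)}
      = ∑ ω, if f ω = true then (∏ j ∈ univ.erase e, coin t (ω j)) * coinSign (ω e) else 0 := by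
    intro e
    rw [russo_coord f hf t e, bernoulliProb_setOf]
  simp_rw [h3]
  rw [Finset.sum_comm]
  refine Finset.sum_congr rfl fun ω _ => ?_
  by_cases h : f ω = true
  · simp [h]
  · simp [h]

end Crest.Agent.BKO
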