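import Mathlib
import Crest.Prelude.Def_FinProb
import Crest.Agent.BKO_Russo

/-!
Row 56 (S0077), outer layer, part 3: elementary facts on `bernoulliProb` (total mass, positivity,
end points, reindexing along an equivalence of the index types).
-/

set_option autoImplicit false
set_option linter.unusedSectionVars false

namespace Crest.Agent.BKO

open Crest.FinProb Finset

variable {ι : Type*} [Fintype ι] [DecidableEq ι]

theorem sum_bernoulliWeight (t : ℝ) : ∑ ω : ι → Bool, bernoulliWeight t ω = 1 := by
  have h := (Fintype.prod_sum (fun (_ : ι) (b : Bool) => coin t b)).symm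
  simp only [bernoulliWeight_eq]
  rw [h]
  simp [coin]

theorem coin_pos {t : ℝ} (h0 : 0 < t) (h1 : t < 1) (b : Bool) : 0 < coin t b := by
  cases b <;> simp [coin] <;> linarith

theorem bernoulliWeight_pos {t : ℝ} (h0 : 0 < t) (h1 : t < 1) (ω : ι → Bool) :
    0 < bernoulliWeight t ω := by
  rw [bernoulliWeight_eq]
  exact Finset.prod_pos fun i _ => coin_pos h0 h1 _

theorem prob_pos {t : ℝ} (h0 : 0 < t) (h1 : t < 1) (f : (ι → Bool) → Bool) (x₀ : ι → Bool)
    (hx : f x₀ = true) : 0 < bernoulliProb t {x | f x = true} := by
  rw [bernoulliProb_setOf]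
  refine Finset.sum_pos' (fun ω _ => ?_) ⟨x₀, Finset.mem_univ _, ?_⟩
  · split_ifs
    · exact (bernoulliWeight_pos h0 h1 ω).le
    · exact le_rfl
  · simpa [hx] using bernoulliWeight_pos h0 h1 x₀

theorem prob_add_compl (t : ℝ) (f : (ι → Bool) → Bool) :
    bernoulliProb t {x | f x = true} + bernoulliProb t {x | f x = false} = 1 := by
  rw [bernoulliProb_setOf, bernoulliProb_setOf, ← Finset.sum_add_distrib,
    ← sum_bernoulliWeight (ι := ι) t]
  refine Finset.sum_congr rfl fun ω _ => ?_
  cases f ω <;> simp

theorem prob_lt_one {t : ℝ} (h0 : 0 < t) (h1 : t < 1) (f : (ι → Bool) → Bool) (x₁ : ι → Bool)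
    (hx : f x₁ = false) : bernoulliProb t {x | f x = true} < 1 := by
  have h := prob_add_compl t f
  have h2 : 0 < bernoulliProb t {x | f x = false} := by
    have := prob_pos h0 h1 (fun x => !f x) x₁ (by simp [hx])
    simpa using this
  linarith

theorem prob_zero (f : (ι → Bool) → Bool) (hf : f (fun _ => false) = false) :
    bernoulliProb 0 {x | f x = true} = 0 := by
  rw [bernoulliProb_setOf]
  refine Finset.sum_eq_zero fun ω _ => ?_
  split_ifs with h
  · have : ∃ i, ω i = true := by
      by_contra hcon
      have hω : ω = fun _ => false := by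
        funext i
        by_contra hi
        exact hcon ⟨i, by simpa using hi⟩
      rw [hω, hf] at h
      exact absurd h (by simp)
    obtain ⟨i, hi⟩ := this
    rw [bernoulliWeight_eq]
    exact Finset.prod_eq_zero (Finset.mem_univ i) (by simp [coin, hi])
  · rfl

theorem prob_one (f : (ι → Bool) → Bool) (hf : f (fun _ => true) = true) :
    bernoulliProb 1 {x | f x = true} = 1 := by
  have h := prob_add_compl 1 f
  have h2 : bernoulliProb 1 {x | f x = false} = 0 := by
    rw [bernoulliProb_setOf]
    refine Finset.sum_eq_zero fun ω _ => ?_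
    split_ifs with h
    · have : ∃ i, ω i = false := by
        by_contra hcon
        have hω : ω = fun _ => true := by
          funext i
          by_contra hi
          exact hcon ⟨i, by simpa using hi⟩
        rw [hω, hf] at h
        exact absurd h (by simp)
      obtain ⟨i, hi⟩ := this
      rw [bernoulliWeight_eq]
      exact Finset.prod_eq_zero (Finset.mem_univ i) (by simp [coin, hi])
    · rfl
  linarith

/-- Reindexing of the coins along an equivalence. -/
theorem bernoulliProb_reindex {κ : Type*} [Fintype κ] [DecidableEq κ] (e : ι ≃ κ) (t : ℝ)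
    (Q : (ι → Bool) → Prop) :
    bernoulliProb t {x : κ → Bool | Q (fun i => x (e i))} = bernoulliProb t {ω : ι → Bool | Q ω} := by
  classical
  rw [bernoulliProb_setOf, bernoulliProb_setOf]
  refine Fintype.sum_equiv (Equiv.arrowCongr e.symm (Equiv.refl Bool)) _ _ fun x => ?_
  have h1 : (Equiv.arrowCongr e.symm (Equiv.refl Bool)) x = fun i => x (e i) := by
    funext i
    simp [Equiv.arrowCongr]
  rw [h1]
  have h2 : bernoulliWeight t (fun i => x (e i)) = bernoulliWeight t x := by
    rw [bernoulliWeight_eq, bernoulliWeight_eq]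
    exact Equiv.prod_comp e (fun k => coin t (x k))
  rw [h2]

end Crest.Agent.BKO
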