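import Mathlib
import Crest.Prelude.Def_FinProb
import Crest.Prelude.Def_RandomGraph
import Crest.Prelude.Def_HypergraphCube
import Crest.Agent.BKO_Prob

/-!
Row 56 (S0077), outer layer, part 4: transfer between graph properties (`gnpProb`) and Boolean
functions on `HyperedgeSlot n 2` (`probTrue`, `totalInfluence`).
-/

set_option autoImplicit false

namespace Crest.Agent.BKO

open Crest.FinProb Crest.CombinatoricsR.RandomGraph Crest.CombinatoricsR.HypergraphCube

variable {n : ℕ}

/-- edge slot -> 2-subset -/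
def slotMap (z : EdgeSlot n) : HyperedgeSlot n 2 :=
  ⟨z.1.toFinset, Sym2.card_toFinset_of_not_isDiag z.1 z.2⟩

theorem slotMap_bijective : Function.Bijective (slotMap (n := n)) := by
  constructor
  · rintro ⟨z, hz⟩ ⟨w, hw⟩ h
    have h' : z.toFinset = w.toFinset := congrArg Subtype.val h
    apply Subtype.ext
    apply Sym2.ext
    intro x
    rw [← Sym2.mem_toFinset, ← Sym2.mem_toFinset, h']
  · rintro ⟨s, hs⟩
    obtain ⟨a, b, hab, rfl⟩ := Finset.card_eq_two.1 hs
    refine ⟨⟨s(a, b), by simpa using hab⟩, ?_⟩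
    apply Subtype.ext
    simp [slotMap, Sym2.toFinset_mk_eq]

/-- the equivalence of the two index types -/
noncomputable def slotEquiv : EdgeSlot n ≃ HyperedgeSlot n 2 :=
  Equiv.ofBijective slotMap slotMap_bijective

/-- the graph of a 2-uniform hypergraph -/
noncomputable def graphOf2 (x : HyperedgeSlot n 2 → Bool) : SimpleGraph (Fin n) :=
  graphOf (fun z => x (slotEquiv z))

theorem graphOf2_adj (x : HyperedgeSlot n 2 → Bool) (i j : Fin n) :
    (graphOf2 x).Adj i j ↔ ∃ h : i ≠ j, x ⟨{i, j}, Finset.card_pair h⟩ = true := by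
  unfold graphOf2 graphOf
  rw [SimpleGraph.fromEdgeSet_adj]
  constructor
  · rintro ⟨⟨h, hx⟩, hij⟩
    refine ⟨hij, ?_⟩
    convert hx using 2
    apply Subtype.ext
    simp [slotEquiv, slotMap, Sym2.toFinset_mk_eq]
  · rintro ⟨hij, hx⟩
    refine ⟨⟨by simpa using hij, ?_⟩, hij⟩
    convert hx using 2
    apply Subtype.ext
    simp [slotEquiv, slotMap, Sym2.toFinset_mk_eq]

open Classical in
/-- the Boolean function of a graph property -/
noncomputable def boolOf (P : Set (SimpleGraph (Fin n))) (x : HyperedgeSlot n 2 → Bool) : Bool :=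
  decide (graphOf2 x ∈ P)

theorem boolOf_eq_true (P : Set (SimpleGraph (Fin n))) (x : HyperedgeSlot n 2 → Bool) :
    boolOf P x = true ↔ graphOf2 x ∈ P := by
  simp [boolOf]

theorem probTrue_boolOf (P : Set (SimpleGraph (Fin n))) (t : ℝ) :
    probTrue t (boolOf P) = gnpProb n t P := by
  unfold probTrue gnpProb
  have h := bernoulliProb_reindex (slotEquiv (n := n)) t (fun ω => graphOf ω ∈ P)
  rw [← h]
  congr 1
  ext x
  exact boolOf_eq_true P x

theorem graphOf2_relabel (σ : Equiv.Perm (Fin n)) (x : HyperedgeSlot n 2 → Bool) :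
    graphOf2 (relabel σ x) = (graphOf2 x).comap σ.toEmbedding := by
  ext i j
  rw [SimpleGraph.comap_adj, graphOf2_adj, graphOf2_adj]
  constructor
  · rintro ⟨h, hx⟩
    refine ⟨fun h' => h (σ.injective h'), ?_⟩
    rw [← hx]
    unfold relabel
    congr 1
    apply Subtype.ext
    simp [relabelSlot, Finset.map_insert]
  · rintro ⟨h, hx⟩
    refine ⟨fun h' => h (congrArg σ h'), ?_⟩
    rw [← hx]
    unfold relabel
    congr 1
    apply Subtype.ext
    simp [relabelSlot, Finset.map_insert]

theorem isSymmetric_boolOf (P : Set (SimpleGraph (Fin n)))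
    (hsymm : ∀ σ : Equiv.Perm (Fin n), ∀ G : SimpleGraph (Fin n), G ∈ P → G.map σ.toEmbedding ∈ P) :
    IsSymmetric (boolOf P) := by
  intro σ x
  have key : graphOf2 (relabel σ x) ∈ P ↔ graphOf2 x ∈ P := by
    rw [graphOf2_relabel]
    constructor
    · intro h
      have h2 := hsymm σ _ h
      have h3 : ((graphOf2 x).comap σ.toEmbedding).map σ.toEmbedding = graphOf2 x := by
        rw [← SimpleGraph.map_symm, ← SimpleGraph.comap_symm]
        have : (σ.symm.toEmbedding : Fin n → Fin n) = σ.symm.toEmbedding := rfl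
        exact SimpleGraph.comap_map_eq _ _
      rwa [h3] at h2
    · intro h
      rw [← SimpleGraph.map_symm]
      exact hsymm σ.symm _ h
  by_cases h : graphOf2 x ∈ P
  · rw [(boolOf_eq_true P x).2 h, (boolOf_eq_true P _).2 (key.2 h)]
  · have h1 : boolOf P x = false := by
      rw [← Bool.not_eq_true, boolOf_eq_true]; exact h
    have h2 : boolOf P (relabel σ x) = false := by
      rw [← Bool.not_eq_true, boolOf_eq_true]; exact fun h' => h (key.1 h')
    rw [h1, h2]

theorem monoB_boolOf (P : Set (SimpleGraph (Fin n)))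
    (hmono : ∀ G G' : SimpleGraph (Fin n), G ≤ G' → G ∈ P → G' ∈ P) : MonoB (boolOf P) := by
  intro x y hxy hx
  rw [boolOf_eq_true] at hx ⊢
  refine hmono _ _ ?_ hx
  intro i j hij
  rw [graphOf2_adj] at hij ⊢
  obtain ⟨h, hx⟩ := hij
  exact ⟨h, hxy _ hx⟩

theorem boolOf_top (P : Set (SimpleGraph (Fin n)))
    (hmono : ∀ G G' : SimpleGraph (Fin n), G ≤ G' → G ∈ P → G' ∈ P) (hne : P.Nonempty) :
    boolOf P (fun _ => true) = true := by
  obtain ⟨G, hG⟩ := hne
  rw [boolOf_eq_true]
  refine hmono G _ ?_ hG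
  intro i j hij
  rw [graphOf2_adj]
  exact ⟨hij.ne, rfl⟩

theorem boolOf_bot (P : Set (SimpleGraph (Fin n)))
    (hmono : ∀ G G' : SimpleGraph (Fin n), G ≤ G' → G ∈ P → G' ∈ P) (hnu : P ≠ Set.univ) :
    boolOf P (fun _ => false) = false := by
  rw [← Bool.not_eq_true, boolOf_eq_true]
  intro h
  apply hnu
  ext G
  simp only [Set.mem_univ, iff_true]
  refine hmono _ G ?_ h
  intro i j hij
  rw [graphOf2_adj] at hij
  obtain ⟨_, hx⟩ := hij
  exact absurd hx (by simp)

end Crest.Agent.BKO
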