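import Mathlib
import Crest.Prelude.Def_FinProb
import Crest.Prelude.Def_RandomGraph
import Crest.Prelude.Def_HypergraphCube
import Crest.Agent.BKO_Logit
import Crest.Agent.BKO_Transfer

/-!
Row 56 (S0077), outer layer, part 5: S0077 from the `r = 2` sharp Bourgain--Kalai inequality
`Var f ≤ 2^17 / (log n)^2 * I_p(f)` for symmetric Boolean functions on `HyperedgeSlot n 2`.
-/

set_option autoImplicit false

namespace Crest.Agent.BKO

open Crest.FinProb Crest.CombinatoricsR.RandomGraph Crest.CombinatoricsR.HypergraphCube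

/-- The interface between the inner part (sharp Bourgain--Kalai for `r = 2`) and S0077. -/
def MainTwo : Prop :=
  ∀ n : ℕ, 2 ≤ n → ∀ p : ℝ, 0 < p → p < 1 →
    ∀ f : (HyperedgeSlot n 2 → Bool) → Bool, IsSymmetric f →
      probTrue p f * (1 - probTrue p f) ≤ 2 ^ 17 / Real.log n ^ 2 * totalInfluence p f

theorem S0077_of_mainTwo (hmain : MainTwo) (n : ℕ) (hn : 2 ≤ n)
    (P : Set (SimpleGraph (Fin n)))
    (hsymm : ∀ σ : Equiv.Perm (Fin n), ∀ G : SimpleGraph (Fin n), G ∈ P → G.map σ.toEmbedding ∈ P)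
    (hmono : ∀ G G' : SimpleGraph (Fin n), G ≤ G' → G ∈ P → G' ∈ P)
    (hne : P.Nonempty) (hnu : P ≠ Set.univ) (ε : ℝ) (hε0 : 0 < ε) (hε : ε < 1 / 2)
    (p q : ℝ) (hp0 : 0 ≤ p) (_hp1 : p ≤ 1) (_hq0 : 0 ≤ q) (hq1 : q ≤ 1)
    (hp : ε ≤ gnpProb n p P)
    (hq : p + 2 ^ 19 / Real.log n ^ 2 * Real.log (1 / (2 * ε)) ≤ q) :
    1 - ε ≤ gnpProb n q P := by
  set f := boolOf P with hf
  have hfs : IsSymmetric f := isSymmetric_boolOf P hsymm
  have hfm : MonoB f := monoB_boolOf P hmono
  have htop : f (fun _ => true) = true := boolOf_top P hmono hne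
  have hbot : f (fun _ => false) = false := boolOf_bot P hmono hnu
  rw [← probTrue_boolOf] at hp ⊢
  -- `p > 0`
  have hp0' : 0 < p := by
    rcases hp0.lt_or_eq with h | h
    · exact h
    · exfalso
      rw [← h] at hp
      have : probTrue 0 f = 0 := prob_zero f hbot
      rw [this] at hp
      linarith
  have hL : 0 < Real.log n := Real.log_pos (by exact_mod_cast (by omega : 1 < n))
  have hlg : 0 < Real.log (1 / (2 * ε)) := by
    apply Real.log_pos
    rw [lt_div_iff₀ (by positivity)]
    linarith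
  have hgap : 0 < 2 ^ 19 / Real.log n ^ 2 * Real.log (1 / (2 * ε)) := by positivity
  have hpq : p ≤ q := by linarith
  rcases hq1.lt_or_eq with hq1' | hq1'
  · have hrange : ∀ t ∈ Set.Icc p q, 0 < t ∧ t < 1 := fun t ht =>
      ⟨lt_of_lt_of_le hp0' ht.1, lt_of_le_of_lt ht.2 hq1'⟩
    have h01 : ∀ t ∈ Set.Icc p q, 0 < probTrue t f ∧ probTrue t f < 1 := fun t ht =>
      ⟨prob_pos (hrange t ht).1 (hrange t ht).2 f _ htop,
        prob_lt_one (hrange t ht).1 (hrange t ht).2 f _ hbot⟩
    have hgrow := logit_growth (fun t => probTrue t f) (fun t => totalInfluence t f) p q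
      (Real.log n ^ 2 / 2 ^ 17) hpq (fun t _ => russo f hfm t) h01 (by
        intro t ht
        have h := hmain n hn t (hrange t ht).1 (hrange t ht).2 f hfs
        have hL2 : 0 < Real.log n ^ 2 := by positivity
        calc Real.log n ^ 2 / 2 ^ 17 * (probTrue t f * (1 - probTrue t f))
            ≤ Real.log n ^ 2 / 2 ^ 17 * (2 ^ 17 / Real.log n ^ 2 * totalInfluence t f) := by
              apply mul_le_mul_of_nonneg_left h (by positivity)
          _ = totalInfluence t f := by
              field_simp)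
    refine threshold_of_logit (probTrue p f) (probTrue q f) ε hε0 hε hp
      (h01 p (Set.left_mem_Icc.2 hpq)).2 (h01 q (Set.right_mem_Icc.2 hpq)).1
      (h01 q (Set.right_mem_Icc.2 hpq)).2 (le_trans ?_ hgrow)
    have hL2 : 0 < Real.log n ^ 2 := by positivity
    calc 4 * Real.log (1 / (2 * ε))
        = Real.log n ^ 2 / 2 ^ 17 * (2 ^ 19 / Real.log n ^ 2 * Real.log (1 / (2 * ε))) := by
          field_simp
          norm_num
      _ ≤ Real.log n ^ 2 / 2 ^ 17 * (q - p) := by
          apply mul_le_mul_of_nonneg_left _ (by positivity)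
          linarith
  · rw [hq1']
    have : probTrue 1 f = 1 := prob_one f htop
    rw [this]
    linarith

end Crest.Agent.BKO
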