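import Crest.Agent.BK_Basic

/-!
# BK task A12: Margulis-Russo formula for monotone `f` (all real `p`)
`ex t (ind f) = ∑_x (∏_i if x i then t else 1-t) * ind f x` is a polynomial in `t`.
`HasDerivAt.finset_prod` / `HasDerivAt.sum`: derivative at `p` is
`∑_x ∑_e (if x e then 1 else -1) * (∏_{i ≠ e} ..) * ind f x`. For fixed `e` pair `x` with the flip of `e`
(or use `ex_split`-like splitting): it equals `∑_x wt p x * (ind f (update x e true) - ind f (update x e false))`
[because `(∏_{i≠e} ..)` summed against `p + (1-p) = 1`], and for monotone `f` the difference is `piv f e x`.
An alternative: induction-free proof via `ex_split`: for every `e`, `ex t h = t * a_e(t) + (1-t) * b_e(t)`.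
-/

set_option autoImplicit false
open Finset

namespace Crest.Agent.BK
variable {ι : Type*} [Fintype ι] [DecidableEq ι]

omit [Fintype ι] in
/-- flipping the coordinate `e` is an involution. -/
private theorem russo_flip_invol (e : ι) :
    Function.Involutive (fun x : ι → Bool => Function.update x e (!x e)) := by
  intro x
  simp

/-- two sums over the cube agree as soon as they agree after pairing `x[e:=1]` with `x[e:=0]`. -/
private theorem russo_sum_pair (e : ι) (g g' : (ι → Bool) → ℝ)
    (h : ∀ x, g (Function.update x e true) + g (Function.update x e false)
      = g' (Function.update x e true) + g' (Function.update x e false)) :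
    ∑ x, g x = ∑ x, g' x := by
  have key : ∀ k : (ι → Bool) → ℝ,
      2 * ∑ x, k x = ∑ x, (k (Function.update x e true) + k (Function.update x e false)) := by
    intro k
    have h1 : ∑ x, k (Function.update x e (!x e)) = ∑ x, k x :=
      Equiv.sum_comp (russo_flip_invol e).toPerm k
    have h2 : ∀ x, k (Function.update x e true) + k (Function.update x e false)
        = k x + k (Function.update x e (!x e)) := by
      intro x
      cases hx : x e
      · have : Function.update x e false = x := by rw [← hx]; exact Function.update_eq_self e x
        rw [this]; simp [add_comm]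
      · have : Function.update x e true = x := by rw [← hx]; exact Function.update_eq_self e x
        rw [this]; simp
    rw [Finset.sum_congr rfl (fun x _ => h2 x), Finset.sum_add_distrib, h1]
    ring
  have := key g
  have h' := key g'
  rw [Finset.sum_congr rfl (fun x _ => h x)] at this
  linarith

/-- the partial product does not see the coordinate `e`. -/
private theorem russo_prod_erase_update (p : ℝ) (e : ι) (x : ι → Bool) (b : Bool) :
    (∏ j ∈ (univ : Finset ι).erase e, (if Function.update x e b j then p else 1 - p))
      = ∏ j ∈ (univ : Finset ι).erase e, (if x j then p else 1 - p) := by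
  refine Finset.prod_congr rfl (fun j hj => ?_)
  rw [Function.update_of_ne (Finset.ne_of_mem_erase hj)]

/-- General Russo formula (no monotonicity): derivative of `t ↦ ex t h`. -/
theorem russo_general (h : (ι → Bool) → ℝ) (p : ℝ) :
    HasDerivAt (fun t : ℝ => ex t h)
      (∑ e, ex p (fun x => h (Function.update x e true) - h (Function.update x e false))) p := by
  have hc : ∀ b : Bool, HasDerivAt (fun t : ℝ => if b then t else 1 - t)
      (if b then 1 else -1) p := by
    intro b
    cases b
    · simpa using (hasDerivAt_id' p).const_sub 1
    · simpa using hasDerivAt_id' p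
  have hw : ∀ x : ι → Bool, HasDerivAt (fun t : ℝ => wt t x)
      (∑ e, (∏ j ∈ (univ : Finset ι).erase e, (if x j then p else 1 - p))
        * (if x e then 1 else -1)) p := by
    intro x
    have := HasDerivAt.fun_finsetProd (u := (univ : Finset ι))
      (f := fun i (t : ℝ) => if x i then t else 1 - t)
      (f' := fun i => if x i then (1 : ℝ) else -1) (x := p) (fun i _ => hc (x i))
    simpa [wt, smul_eq_mul] using this
  have hs : HasDerivAt (fun t : ℝ => ex t h)
      (∑ x, (∑ e, (∏ j ∈ (univ : Finset ι).erase e, (if x j then p else 1 - p))
        * (if x e then 1 else -1)) * h x) p := by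
    have := HasDerivAt.fun_sum (u := (univ : Finset (ι → Bool)))
      (A := fun x (t : ℝ) => wt t x * h x)
      (A' := fun x => (∑ e, (∏ j ∈ (univ : Finset ι).erase e, (if x j then p else 1 - p))
        * (if x e then 1 else -1)) * h x) (x := p)
      (fun x _ => (hw x).mul_const (h x))
    simpa [ex] using this
  convert hs using 1
  simp_rw [Finset.sum_mul]
  rw [Finset.sum_comm]
  refine Finset.sum_congr rfl (fun e _ => ?_)
  unfold ex
  refine russo_sum_pair e _ _ (fun x => ?_)
  have hwt : ∀ y : ι → Bool, wt p y = (if y e then p else 1 - p)
      * ∏ j ∈ (univ : Finset ι).erase e, (if y j then p else 1 - p) := by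
    intro y
    exact (Finset.mul_prod_erase univ (fun j => if y j then p else 1 - p) (Finset.mem_univ e)).symm
  simp only [hwt, russo_prod_erase_update, Function.update_self, Function.update_idem]
  simp
  ring

theorem russo (f : (ι → Bool) → Bool)
    (hmono : ∀ x y : ι → Bool, (∀ i, x i ≤ y i) → f x ≤ f y) (p : ℝ) :
    HasDerivAt (fun t : ℝ => ex t (ind f)) (infl p f) p := by
  have h := russo_general (ind f) p
  convert h using 1
  unfold infl
  refine Finset.sum_congr rfl (fun e _ => ?_)
  congr 1
  funext x
  have hle : f (Function.update x e false) ≤ f (Function.update x e true) := by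
    apply hmono
    intro i
    by_cases hi : i = e
    · subst hi; simp
    · simp [Function.update_of_ne hi]
  unfold piv ind
  cases h0 : f (Function.update x e false) <;> cases h1 : f (Function.update x e true) <;>
    simp_all
  exact absurd hle (by decide)

end Crest.Agent.BK
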