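/-
ROW 19 / S0025 (Egyptian fractions with O(log log b) terms).  Project "EG".  Architect: helper44.
Blueprint: notes/eg_plan_S0025.md.   This file: shared definitions only (no task here).
-/
import Mathlib

set_option autoImplicit false

namespace Crest.Agent.EG

open Finset

/-- subset product `∏_{i ∈ T} r i`. -/
def sprod {ι : Type*} (r : ι → ℕ) (T : Finset ι) : ℕ := ∏ i ∈ T, r i

/-- number of ordered pairs `(a, a')` (diagonal included) with `α a ≡ α a' [MOD n]`. -/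
def coll {A : Type*} [Fintype A] (α : A → ℕ) (n : ℕ) : ℕ :=
  (Finset.univ.filter (fun p : A × A => α p.1 ≡ α p.2 [MOD n])).card

/-- `Pl^w` as a finset of functions. -/
def tuples (Pl : Finset ℕ) (ι : Type*) [Fintype ι] [DecidableEq ι] : Finset (ι → ℕ) :=
  Fintype.piFinset (fun _ : ι => Pl)

/-- A "copy" is a pair `(rA, rB)` of `w`-tuples.  It is *bad at `n`* if all its entries are coprime
to `n` and nevertheless the product of the two collision numbers is large. -/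
def Bad (w n : ℕ) (x : (Fin w → ℕ) × (Fin w → ℕ)) : Prop :=
  (∀ i, Nat.Coprime (x.1 i) n) ∧ (∀ i, Nat.Coprime (x.2 i) n) ∧
    16 ^ w < coll (sprod x.1) n * coll (sprod x.2) n * n * Nat.sqrt n

/-- The abstract output of Part A (the "rich number" `V`) = the abstract input of Part B. -/
structure RichData where
  /-- the rich number -/
  V : ℕ
  /-- the marker prime `π₁` -/
  p : ℕ
  /-- digit freedom -/
  H : ℕ
  /-- window length -/
  W : ℕ
  /-- numerators `< P` are handled -/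
  P : ℕ
  /-- number of unit fractions per numerator -/
  t : ℕ
  /-- obstacle moduli -/
  Obs : Finset ℕ
  hp : p.Prime
  hpV : ¬ p ∣ V
  hV : 1 ≤ V
  hW : 2 ≤ W
  hObsH : ∀ o ∈ Obs, H ≤ o
  hObsp : ∀ o ∈ Obs, Nat.Coprime p o
  hcard : 2 * Obs.card + 2 ≤ H
  window : ∀ y : ℕ, ∃ γ, y ≤ γ ∧ γ < y + W ∧ ∀ o ∈ Obs, Nat.Coprime γ o
  rich : ∀ ρ, 1 ≤ ρ → ρ < P → (∀ o ∈ Obs, ¬ o ∣ ρ) →
    ∃ D : Finset ℕ, D.card ≤ t ∧ (∀ d ∈ D, d ∣ V) ∧ ∃ κ, κ % p = 1 ∧ ∑ d ∈ D, d = κ * ρ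

/-- good numerators -/
def RichData.Good (R : RichData) (ρ : ℕ) : Prop :=
  1 ≤ ρ ∧ ρ < R.P ∧ ∀ o ∈ R.Obs, ¬ o ∣ ρ

/-- `x = x' + ∑_{n ∈ S} 1/n` with the bookkeeping that makes such representations composable:
the remainder `x'` is `≥ 0` and smaller than every unit fraction already used. -/
structure Rep (x x' : ℚ) (S : Finset ℕ) : Prop where
  sum_eq : x = x' + ∑ n ∈ S, (1 : ℚ) / (n : ℚ)
  nonneg : 0 ≤ x'
  two_le : ∀ n ∈ S, 2 ≤ n
  lt : ∀ n ∈ S, x' < 1 / (n : ℚ)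

/-! ### concrete parameters (functions of `h`) -/

/-- `ω = 2^h` : number of primes in a tuple -/
def ww (h : ℕ) : ℕ := 2 ^ h
/-- primes of the pool are `≤ Z = 2^(20h)` -/
def ZZ (h : ℕ) : ℕ := 2 ^ (20 * h)
/-- `Z ≤ κ₀ * |pool|` -/
def kap (h : ℕ) : ℕ := 40 * h
/-- all moduli are `n₁`-rough -/
def n1 (h : ℕ) : ℕ := 4 * (3 + 2 * kap h) ^ 8
/-- `Q = n₁#` -/
def QQ (h : ℕ) : ℕ := primorial (n1 h)
/-- digit freedom -/
def HH (h : ℕ) : ℕ := 2 * (n1 h + 24 * ww h + 1) + 2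
/-- `V₀ = Q^e` -/
def ee (h : ℕ) : ℕ := h + 5
/-- the pool of primes -/
def pool (h : ℕ) : Finset ℕ := (Finset.Ioc (HH h) (ZZ h)).filter Nat.Prime
/-- window length -/
def WW (h : ℕ) : ℕ := QQ h * (24 * ww h + 3)
/-- numerator bound -/
def PP (h : ℕ) : ℕ := 2 ^ (2 ^ h - h)

/-- all entries of a family of 12 copies -/
def fvals {w : ℕ} (f : Fin 12 → (Fin w → ℕ) × (Fin w → ℕ)) : Finset ℕ :=
  Finset.univ.biUnion fun m => (Finset.univ.image (f m).1) ∪ (Finset.univ.image (f m).2)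

/-- product of all entries of a family of 12 copies -/
def fprod {w : ℕ} (f : Fin 12 → (Fin w → ℕ) × (Fin w → ℕ)) : ℕ :=
  ∏ m, ((∏ i, (f m).1 i) * (∏ i, (f m).2 i))

/-- obstacles: `q^(e+1)` for primes `q ≤ n₁`, the chosen primes, the marker `μ`. -/
def obs (n₁ e : ℕ) {w : ℕ} (f : Fin 12 → (Fin w → ℕ) × (Fin w → ℕ)) (μ : ℕ) : Finset ℕ :=
  ((Finset.range (n₁ + 1)).filter Nat.Prime).image (fun q => q ^ (e + 1)) ∪ fvals f ∪ {μ}

/-- the rich number -/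
def richV (n₁ e : ℕ) {w : ℕ} (f : Fin 12 → (Fin w → ℕ) × (Fin w → ℕ)) (μ : ℕ) : ℕ :=
  primorial n₁ ^ e * fprod f * μ ^ 143

/-- numbering of the 144 summands -/
def idx (l : Fin 12 × Fin 12) : ℕ := 12 * l.1.val + l.2.val

end Crest.Agent.EG
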