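/-
ROW 19 / S0025, project EG.  TASK I2 (file EG_Bilinear.lean).  Needs only EG_Defs (`coll`).
-/
import Crest.Agent.EG_Defs

set_option autoImplicit false

namespace Crest.Agent.EG

open Finset

/-- multiplying by a unit does not change the additive order. -/
theorem addOrderOf_mul_natCast {N : ℕ} [NeZero N] (ξ : ZMod N) (u : ℕ) (hu : Nat.Coprime u N) :
    addOrderOf (ξ * (u : ZMod N)) = addOrderOf ξ := by
  have hU : IsUnit (u : ZMod N) := (ZMod.isUnit_iff_coprime u N).2 hu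
  exact addOrderOf_injective (AddMonoidHom.mulRight (u : ZMod N)) hU.mul_left_injective ξ

/-- `∑_r c_r² = coll` -/
private theorem sum_sq_fibre {A : Type*} [Fintype A] (α : A → ℕ) {m : ℕ} (hm : 0 < m) :
    ∑ r ∈ range m, ((univ.filter (fun a => α a % m = r)).card) ^ 2 = coll α m := by
  classical
  unfold coll
  rw [Finset.card_filter, Fintype.sum_prod_type]
  have h1 : ∀ a : A, (∑ a' : A, if α a ≡ α a' [MOD m] then 1 else 0)
      = (univ.filter (fun a' => α a' % m = α a % m)).card := by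
    intro a
    rw [Finset.card_filter]
    apply Finset.sum_congr rfl
    intro a' _
    by_cases h : α a ≡ α a' [MOD m]
    · have h2 : α a' % m = α a % m := h.symm
      rw [if_pos h, if_pos h2]
    · rw [if_neg h, if_neg (fun h' => h (Eq.symm h'))]
  simp only [h1]
  rw [← Finset.sum_fiberwise_of_maps_to (s := univ) (t := range m) (g := fun a => α a % m)
    (fun a _ => Finset.mem_range.2 (Nat.mod_lt _ hm))]
  apply Finset.sum_congr rfl
  intro r _
  rw [sq, Finset.card_eq_sum_ones, Finset.sum_mul]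
  apply Finset.sum_congr rfl
  intro a ha
  rw [(Finset.mem_filter.1 ha).2, one_mul, Finset.card_eq_sum_ones]

/-- geometric sum of a root of unity -/
private theorem geom_root (ζ : ℂ) (m : ℕ) (h : ζ ^ m = 1) :
    ∑ r ∈ range m, ζ ^ r = if ζ = 1 then (m : ℂ) else 0 := by
  split_ifs with h1
  · simp [h1]
  · rw [geom_sum_eq h1, h, sub_self, zero_div]

private theorem mul_cast_eq_iff {N : ℕ} [NeZero N] (ξ : ZMod N) (z z' : ℕ) :
    ξ * (z : ZMod N) = ξ * (z' : ZMod N) ↔ z ≡ z' [MOD addOrderOf ξ] := by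
  rw [mul_comm ξ, mul_comm ξ, ← nsmul_eq_mul, ← nsmul_eq_mul, nsmul_eq_nsmul_iff_modEq]

/-- second moment of `T` -/
private theorem sum_normSq_T {N : ℕ} [NeZero N] {B : Type*} [Fintype B] (β : B → ℕ) (ξ : ZMod N) :
    ∑ r ∈ range (addOrderOf ξ), ‖∑ b, (ZMod.stdAddChar (ξ * ((r * β b : ℕ) : ZMod N)) : ℂ)‖ ^ 2
      = (addOrderOf ξ : ℝ) * (coll β (addOrderOf ξ) : ℝ) := by
  classical
  set m := addOrderOf ξ with hm
  have key : ∀ (r : ℕ) (b : B), (ZMod.stdAddChar (ξ * ((r * β b : ℕ) : ZMod N)) : ℂ)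
      = (ZMod.stdAddChar (ξ * (β b : ZMod N)) : ℂ) ^ r := by
    intro r b
    rw [← AddChar.map_nsmul_eq_pow, nsmul_eq_mul]
    congr 1
    push_cast
    ring
  have hC : ((∑ r ∈ range m, ‖∑ b, (ZMod.stdAddChar (ξ * ((r * β b : ℕ) : ZMod N)) : ℂ)‖ ^ 2 : ℝ) : ℂ)
      = ((m : ℝ) * (coll β m : ℝ) : ℝ) := by
    rw [Complex.ofReal_sum]
    simp only [Complex.ofReal_pow]
    have h1 : ∀ r : ℕ, ((‖∑ b, (ZMod.stdAddChar (ξ * ((r * β b : ℕ) : ZMod N)) : ℂ)‖ : ℂ)) ^ 2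
        = ∑ b, ∑ b', ((ZMod.stdAddChar (ξ * (β b : ZMod N) - ξ * (β b' : ZMod N)) : ℂ)) ^ r := by
      intro r
      rw [← Complex.mul_conj', map_sum, Finset.sum_mul_sum]
      apply Finset.sum_congr rfl
      intro b _
      apply Finset.sum_congr rfl
      intro b' _
      rw [key, key, map_pow, ← AddChar.map_neg_eq_conj, ← mul_pow, ← AddChar.map_add_eq_mul,
        sub_eq_add_neg]
    simp only [h1]
    rw [Finset.sum_comm]
    have h2 : ∀ b : B, ∑ r ∈ range m, ∑ b', ((ZMod.stdAddChar (ξ * (β b : ZMod N) - ξ * (β b' : ZMod N)) : ℂ)) ^ r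
        = ∑ b', if β b ≡ β b' [MOD m] then (m : ℂ) else 0 := by
      intro b
      rw [Finset.sum_comm]
      apply Finset.sum_congr rfl
      intro b' _
      rw [geom_root]
      · have : ((ZMod.stdAddChar (ξ * (β b : ZMod N) - ξ * (β b' : ZMod N)) : ℂ) = 1)
            ↔ β b ≡ β b' [MOD m] := by
          rw [← mul_cast_eq_iff, ← sub_eq_zero (a := ξ * (β b : ZMod N))]
          constructor
          · intro h
            apply ZMod.injective_stdAddChar
            rw [h, AddChar.map_zero_eq_one]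
          · intro h
            rw [h, AddChar.map_zero_eq_one]
        simp only [this]
      · rw [← AddChar.map_nsmul_eq_pow, smul_sub, nsmul_eq_mul, nsmul_eq_mul, ← mul_assoc, ← mul_assoc,
          ← nsmul_eq_mul, hm, addOrderOf_nsmul_eq_zero]
        simp
    simp only [h2]
    unfold coll
    rw [Finset.card_filter, Fintype.sum_prod_type]
    push_cast
    rw [Finset.mul_sum]
    apply Finset.sum_congr rfl
    intro b _
    rw [Finset.mul_sum]
    apply Finset.sum_congr rfl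
    intro b' _
    split_ifs <;> simp
  exact_mod_cast hC

/-- **I2 (bilinear bound).**  `ξ ∈ ZMod N` of additive order `m`.  Then
`‖∑_{a,b} ψ(ξ α_a β_b)‖² ≤ coll α m * m * coll β m`.

Proof.  Put `f = #{k : ZMod N | k * ξ = 0}`.  Facts:
 (F1) for `z : ℕ` (or `ℤ`): `(z : ZMod N) * ξ = 0 ↔ m ∣ z`   (`addOrderOf_dvd_iff_nsmul_eq_zero`, `nsmul_eq_mul`);
      hence `(α a : ZMod N) * ξ = (α a' : ZMod N) * ξ ↔ α a ≡ α a' [MOD m]`.
 (F2) every nonempty fibre of `k ↦ k * ξ` has exactly `f` elements (translate), and `f * m = N`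
      (`m = card (AddSubgroup.zmultiples ξ)`; or count the multiples of `m` below `N`).
With `T y = ∑ b, ψ (y * β b)` and `c k = #{a | α a * ξ = k * ξ}`:
 `S = ∑ a, T (α a * ξ) = (1/f) ∑ k, c k * T (k * ξ)`; Cauchy-Schwarz gives
 `‖S‖² ≤ (1/f²) (∑ k, (c k)²) (∑ k, ‖T (k ξ)‖²)`;
 `∑ k, (c k)² = f * coll α m`  (count triples `(a, a', k)`),
 `∑ k, ‖T (k ξ)‖² = ∑_{b,b'} ∑ k, ψ (k * (ξ (β b - β b'))) = N * coll β m`   (`AddChar.sum_mulShift`, (F1)).
So `‖S‖² ≤ (N / f) coll α m * coll β m = m * coll α m * coll β m`. -/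
theorem bilinear_bound {N : ℕ} [NeZero N] {A B : Type*} [Fintype A] [Fintype B]
    (α : A → ℕ) (β : B → ℕ) (ξ : ZMod N) :
    ‖∑ a, ∑ b, (ZMod.stdAddChar (ξ * ((α a * β b : ℕ) : ZMod N)) : ℂ)‖ ^ 2
      ≤ (coll α (addOrderOf ξ) : ℝ) * (addOrderOf ξ : ℝ) * (coll β (addOrderOf ξ) : ℝ) := by
  classical
  set m := addOrderOf ξ with hm
  have hmpos : 0 < m := addOrderOf_pos ξ
  set T : ℕ → ℂ := fun z => ∑ b, (ZMod.stdAddChar (ξ * ((z * β b : ℕ) : ZMod N)) : ℂ) with hT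
  have hTmod : ∀ z, T z = T (z % m) := by
    intro z
    apply Finset.sum_congr rfl
    intro b _
    congr 1
    rw [mul_cast_eq_iff]
    exact ((Nat.mod_modEq z m).mul_right (β b)).symm
  set c : ℕ → ℕ := fun r => (univ.filter (fun a => α a % m = r)).card with hc
  have hS : ∑ a, ∑ b, (ZMod.stdAddChar (ξ * ((α a * β b : ℕ) : ZMod N)) : ℂ)
      = ∑ r ∈ range m, (c r : ℂ) * T r := by
    have h0 : ∑ a, ∑ b, (ZMod.stdAddChar (ξ * ((α a * β b : ℕ) : ZMod N)) : ℂ) = ∑ a, T (α a % m) :=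
      Finset.sum_congr rfl (fun a _ => hTmod (α a))
    rw [h0, ← Finset.sum_fiberwise_of_maps_to (s := univ) (t := range m) (g := fun a => α a % m)
      (fun a _ => Finset.mem_range.2 (Nat.mod_lt _ hmpos))]
    apply Finset.sum_congr rfl
    intro r _
    rw [Finset.sum_congr rfl (g := fun _ => T r)
      (fun a ha => by rw [(Finset.mem_filter.1 ha).2]), Finset.sum_const, nsmul_eq_mul]
  rw [hS]
  have h1 : ‖∑ r ∈ range m, (c r : ℂ) * T r‖ ≤ ∑ r ∈ range m, (c r : ℝ) * ‖T r‖ := by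
    refine (norm_sum_le _ _).trans (le_of_eq ?_)
    apply Finset.sum_congr rfl
    intro r _
    rw [norm_mul, Complex.norm_natCast]
  have h2 : (∑ r ∈ range m, (c r : ℝ) * ‖T r‖) ^ 2
      ≤ (∑ r ∈ range m, (c r : ℝ) ^ 2) * ∑ r ∈ range m, ‖T r‖ ^ 2 :=
    Finset.sum_mul_sq_le_sq_mul_sq _ _ _
  have h3 : ∑ r ∈ range m, (c r : ℝ) ^ 2 = (coll α m : ℝ) := by
    rw [← sum_sq_fibre α hmpos]
    push_cast
    rfl
  have h4 : ∑ r ∈ range m, ‖T r‖ ^ 2 = (m : ℝ) * (coll β m : ℝ) := sum_normSq_T β ξ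
  calc ‖∑ r ∈ range m, (c r : ℂ) * T r‖ ^ 2
      ≤ (∑ r ∈ range m, (c r : ℝ) * ‖T r‖) ^ 2 := by
        gcongr
    _ ≤ (∑ r ∈ range m, (c r : ℝ) ^ 2) * ∑ r ∈ range m, ‖T r‖ ^ 2 := h2
    _ = (coll α m : ℝ) * (m : ℝ) * (coll β m : ℝ) := by rw [h3, h4]; ring

end Crest.Agent.EG
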