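/-
ROW 19 / S0025, project EG.  TASK B1 (file EG_Cheap.lean).  Needs only EG_Defs.
-/
import Crest.Agent.EG_Defs

set_option autoImplicit false

namespace Crest.Agent.EG

open Finset Nat

/-- **B1 (cheap numerators).**  For a good numerator `ρ` and ANY `c ≥ 1`, `ρ/(cV)` is a sum of `≤ t` distinct unit fractions whose denominators have the same
`p`-adic valuation as `c`.

Proof.  `R.rich` gives `D`, `κ` with `∑_{d∈D} d = κ ρ`, `κ % p = 1` (so `κ ≥ 1`, `p ∤ κ`).  `T := D.image (fun d => κ * c * (V / d))`.  `d ↦ V/d` is injective on divisors of `V ≥ 1`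
(`Nat.div_eq_iff_eq_of_dvd_dvd` or `V / (V / d) = d`), so `∑_{n∈T} 1/n = ∑_{d∈D} 1/(κ c (V/d)) = ∑ d/(κ c V) = κρ/(κ c V)`  (cast `((V/d : ℕ) : ℚ) = V/d` by `Nat.cast_div`).
Valuation: `padicValNat.mul`; `padicValNat p κ = 0` and `padicValNat p (V/d) = 0` (`padicValNat.eq_zero_of_not_dvd`; `V/d ∣ V`, `¬ p ∣ V`).  Need `haveI := Fact.mk R.hp`. -/
theorem cheap (R : RichData) (c ρ : ℕ) (hc : 1 ≤ c) (hρ : R.Good ρ) :
    ∃ T : Finset ℕ, T.card ≤ R.t ∧ (∀ n ∈ T, 1 ≤ n ∧ padicValNat R.p n = padicValNat R.p c) ∧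
      ∑ n ∈ T, (1 : ℚ) / (n : ℚ) = (ρ : ℚ) / ((c : ℚ) * (R.V : ℚ)) := by
  classical
  have := Fact.mk R.hp
  obtain ⟨D, hD, hdvd, κ, hκ, hsum⟩ := R.rich ρ hρ.1 hρ.2.1 hρ.2.2
  have hV := R.hV
  have hκ0 : κ ≠ 0 := by
    rintro rfl
    simp at hκ
  have hpκ : ¬ R.p ∣ κ := by
    intro h
    rw [Nat.mod_eq_zero_of_dvd h] at hκ
    exact absurd hκ (by norm_num)
  have hq : ∀ d ∈ D, d * (R.V / d) = R.V := fun d hd => Nat.mul_div_cancel' (hdvd d hd)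
  have hq0 : ∀ d ∈ D, R.V / d ≠ 0 := by
    intro d hd h
    have := hq d hd
    rw [h] at this
    omega
  have hinj : Set.InjOn (fun d => κ * c * (R.V / d)) (D : Set ℕ) := by
    intro d hd d' hd' h
    have h1 : R.V / d = R.V / d' := Nat.eq_of_mul_eq_mul_left (Nat.mul_pos (Nat.pos_of_ne_zero hκ0) hc) h
    have h2 := hq d hd
    have h3 := hq d' hd'
    rw [h1] at h2
    exact Nat.eq_of_mul_eq_mul_right (Nat.pos_of_ne_zero (hq0 d' hd')) (h2.trans h3.symm)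
  refine ⟨D.image (fun d => κ * c * (R.V / d)), Finset.card_image_le.trans hD, ?_, ?_⟩
  · intro n hn
    obtain ⟨d, hd, rfl⟩ := Finset.mem_image.1 hn
    have hc0 : c ≠ 0 := by omega
    refine ⟨Nat.pos_of_ne_zero (Nat.mul_ne_zero (Nat.mul_ne_zero hκ0 hc0) (hq0 d hd)), ?_⟩
    have hpq : ¬ R.p ∣ R.V / d := fun h => R.hpV (h.trans (Nat.div_dvd_of_dvd (hdvd d hd)))
    rw [padicValNat.mul (Nat.mul_ne_zero hκ0 hc0) (hq0 d hd), padicValNat.mul hκ0 hc0,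
      padicValNat.eq_zero_of_not_dvd hpκ, padicValNat.eq_zero_of_not_dvd hpq]
    omega
  · rw [Finset.sum_image hinj]
    have hκQ : (κ : ℚ) ≠ 0 := by exact_mod_cast hκ0
    have hcQ : (c : ℚ) ≠ 0 := by exact_mod_cast (by omega : c ≠ 0)
    have hVQ : (R.V : ℚ) ≠ 0 := by exact_mod_cast (by omega : R.V ≠ 0)
    have hterm : ∀ d ∈ D, (1 : ℚ) / ((κ * c * (R.V / d) : ℕ) : ℚ) = (d : ℚ) / ((κ : ℚ) * c * R.V) := by
      intro d hd
      have h1 : ((d : ℚ)) * ((R.V / d : ℕ) : ℚ) = (R.V : ℚ) := by exact_mod_cast hq d hd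
      have h2 : ((R.V / d : ℕ) : ℚ) ≠ 0 := by exact_mod_cast hq0 d hd
      rw [← h1]
      push_cast
      have hd0 : (d : ℚ) ≠ 0 := by
        intro h
        rw [h, zero_mul] at h1
        exact hVQ h1.symm
      field_simp
    rw [Finset.sum_congr rfl hterm, ← Finset.sum_div]
    have hs : (∑ d ∈ D, (d : ℚ)) = (κ : ℚ) * ρ := by
      rw [← Nat.cast_sum, hsum, Nat.cast_mul]
    rw [hs]
    field_simp

end Crest.Agent.EG
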