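/-
ROW 19 / S0025, project EG.  TASK II1 (file EG_PrimeTuples.lean).  Needs only EG_Defs (`tuples`).
-/
import Crest.Agent.EG_Defs

set_option autoImplicit false

namespace Crest.Agent.EG

open Finset Nat

/-- at most `g!` tuples of primes (indexed by a type with `g` elements) have a given product.

Proof idea: WLOG `ι = Fin g` (`Fintype.equivFin`).  `List.ofFn v` is a list of primes with product `m`, hence a
permutation of `m.primeFactorsList` (`Nat.primeFactorsList_unique`), i.e. a member of
`(m.primeFactorsList).permutations` (`List.mem_permutations`), whose length is `(length)!`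
(`List.length_permutations`); `List.ofFn` is injective.  (If no such `v` exists the bound is trivial; if one exists the
length of `m.primeFactorsList` is `g`.) -/
theorem card_prime_tuples_prod_eq_le {ι : Type*} [Fintype ι] [DecidableEq ι] (Pl : Finset ℕ)
    (hP : ∀ q ∈ Pl, q.Prime) (m : ℕ) :
    ((tuples Pl ι).filter fun v => ∏ i, v i = m).card ≤ (Fintype.card ι)! := by
  classical
  let e : ι ≃ Fin (Fintype.card ι) := Fintype.equivFin ι
  let F : (ι → ℕ) → List ℕ := fun v => List.ofFn (fun j : Fin (Fintype.card ι) => v (e.symm j))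
  have hperm : ∀ v ∈ (tuples Pl ι).filter (fun v => ∏ i, v i = m),
      (F v).Perm m.primeFactorsList := by
    intro v hv
    rw [Finset.mem_filter] at hv
    obtain ⟨hv1, hv2⟩ := hv
    have hv1' : ∀ i, v i ∈ Pl := by
      simpa [tuples, Fintype.mem_piFinset] using hv1
    apply Nat.primeFactorsList_unique
    · show (List.ofFn (fun j : Fin (Fintype.card ι) => v (e.symm j))).prod = m
      rw [List.prod_ofFn, ← hv2]
      exact Equiv.prod_comp e.symm v
    · intro p hp
      have hp' : p ∈ List.ofFn (fun j : Fin (Fintype.card ι) => v (e.symm j)) := hp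
      rw [List.mem_ofFn] at hp'
      obtain ⟨j, rfl⟩ := hp'
      exact hP _ (hv1' _)
  have hinj : Function.Injective F := by
    intro v w hvw
    have h1 : (fun j : Fin (Fintype.card ι) => v (e.symm j)) = fun j => w (e.symm j) :=
      List.ofFn_injective hvw
    funext i
    have := congrFun h1 (e i)
    simpa using this
  rcases Finset.eq_empty_or_nonempty ((tuples Pl ι).filter fun v => ∏ i, v i = m) with h0 | ⟨v0, hv0⟩
  · rw [h0]; simp
  · have hlen : m.primeFactorsList.length = Fintype.card ι := by
      have := (hperm v0 hv0).length_eq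
      rw [← this]
      simp [F]
    calc ((tuples Pl ι).filter fun v => ∏ i, v i = m).card
        = (((tuples Pl ι).filter fun v => ∏ i, v i = m).image F).card :=
          (Finset.card_image_of_injective _ hinj).symm
      _ ≤ (m.primeFactorsList.permutations.toFinset).card := by
          apply Finset.card_le_card
          intro l hl
          rw [Finset.mem_image] at hl
          obtain ⟨v, hv, rfl⟩ := hl
          rw [List.mem_toFinset, List.mem_permutations]
          exact hperm v hv
      _ ≤ m.primeFactorsList.permutations.length := List.toFinset_card_le _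
      _ = (Fintype.card ι)! := by rw [List.length_permutations, hlen]

/-- number of integers in `[1, X]` (or `[0,X]`, harmless) in a residue class mod `n` is `≤ X / n + 1`.
(`Nat.count_modEq_card`, `Nat.Ioc_filter_modEq_card`, or by hand: map `x ↦ x / n` is injective on the class.) -/
theorem card_range_modEq_le (X n c : ℕ) (hn : 0 < n) :
    ((Finset.range (X + 1)).filter fun x => x ≡ c [MOD n]).card ≤ X / n + 1 := by
  classical
  have hmaps : ∀ x ∈ (Finset.range (X + 1)).filter (fun x => x ≡ c [MOD n]),
      x / n ∈ Finset.range (X / n + 1) := by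
    intro x hx
    rw [Finset.mem_filter, Finset.mem_range] at hx
    rw [Finset.mem_range]
    have : x / n ≤ X / n := Nat.div_le_div_right (by omega)
    omega
  have hinj : Set.InjOn (fun x => x / n)
      (((Finset.range (X + 1)).filter fun x => x ≡ c [MOD n]) : Finset ℕ) := by
    intro x hx y hy hxy
    have hx' := (Finset.mem_filter.mp (Finset.mem_coe.mp hx)).2
    have hy' := (Finset.mem_filter.mp (Finset.mem_coe.mp hy)).2
    have hmod : x % n = y % n := hx'.trans hy'.symm
    have hxy' : x / n = y / n := hxy
    rw [← Nat.div_add_mod x n, ← Nat.div_add_mod y n, hmod, hxy']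
  calc ((Finset.range (X + 1)).filter fun x => x ≡ c [MOD n]).card
      ≤ (Finset.range (X / n + 1)).card := Finset.card_le_card_of_injOn _ hmaps hinj
    _ = X / n + 1 := Finset.card_range _

/-- **II1.**  `#{v ∈ Pl^ι : ∏ v ≡ c [MOD n]} ≤ g! (Z^g / n + 1)`, `g = card ι`, all elements of `Pl` primes `≤ Z`.
Proof: the product is an integer `≤ Z^g` in the class of `c` (`≤ Z^g / n + 1` possibilities) and each value of the product has
`≤ g!` preimages (`Finset.card_le_mul_card_image`). -/
theorem card_prod_modEq_le {ι : Type*} [Fintype ι] [DecidableEq ι] (Pl : Finset ℕ)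
    (hP : ∀ q ∈ Pl, q.Prime) (Z : ℕ) (hZ : ∀ q ∈ Pl, q ≤ Z) (n c : ℕ) (hn : 0 < n) :
    (((tuples Pl ι).filter fun v => ∏ i, v i ≡ c [MOD n]).card : ℝ)
      ≤ ((Fintype.card ι)! : ℝ) * ((Z : ℝ) ^ (Fintype.card ι) / n + 1) := by
  classical
  set S := (tuples Pl ι).filter fun v => ∏ i, v i ≡ c [MOD n] with hS
  have h1 : S.card ≤ (Fintype.card ι)! * (S.image fun v => ∏ i, v i).card := by
    apply Finset.card_le_mul_card_image
    intro m _
    calc (S.filter fun v => ∏ i, v i = m).card
        ≤ ((tuples Pl ι).filter fun v => ∏ i, v i = m).card := by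
          apply Finset.card_le_card
          intro v hv
          rw [Finset.mem_filter] at hv ⊢
          exact ⟨(Finset.mem_filter.mp hv.1).1, hv.2⟩
      _ ≤ (Fintype.card ι)! := card_prime_tuples_prod_eq_le Pl hP m
  have h2 : (S.image fun v => ∏ i, v i).card ≤ Z ^ (Fintype.card ι) / n + 1 := by
    calc (S.image fun v => ∏ i, v i).card
        ≤ ((Finset.range (Z ^ (Fintype.card ι) + 1)).filter fun x => x ≡ c [MOD n]).card := by
          apply Finset.card_le_card
          intro x hx
          rw [Finset.mem_image] at hx
          obtain ⟨v, hv, rfl⟩ := hx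
          rw [hS, Finset.mem_filter] at hv
          have hv1' : ∀ i, v i ∈ Pl := by
            simpa [tuples, Fintype.mem_piFinset] using hv.1
          rw [Finset.mem_filter, Finset.mem_range]
          refine ⟨?_, hv.2⟩
          have : ∏ i, v i ≤ ∏ _i : ι, Z := Finset.prod_le_prod' (fun i _ => hZ _ (hv1' i))
          rw [Finset.prod_const, Finset.card_univ] at this
          omega
      _ ≤ Z ^ (Fintype.card ι) / n + 1 := card_range_modEq_le _ n c hn
  have h3 : S.card ≤ (Fintype.card ι)! * (Z ^ (Fintype.card ι) / n + 1) :=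
    h1.trans (Nat.mul_le_mul_left _ h2)
  have h4 : ((Z ^ (Fintype.card ι) / n : ℕ) : ℝ) ≤ (Z : ℝ) ^ (Fintype.card ι) / n := by
    have := @Nat.cast_div_le ℝ _ _ _ (Z ^ (Fintype.card ι)) n
    simpa using this
  calc (S.card : ℝ) ≤ (((Fintype.card ι)! * (Z ^ (Fintype.card ι) / n + 1) : ℕ) : ℝ) := by
        exact_mod_cast h3
    _ = ((Fintype.card ι)! : ℝ) * (((Z ^ (Fintype.card ι) / n : ℕ) : ℝ) + 1) := by push_cast; ring
    _ ≤ ((Fintype.card ι)! : ℝ) * ((Z : ℝ) ^ (Fintype.card ι) / n + 1) := by
        apply mul_le_mul_of_nonneg_left _ (by positivity)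
        linarith

end Crest.Agent.EG
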