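/-
ROW 19 / S0025, project EG.  TASK II2 (file EG_Collision.lean).  Uses EG_PrimeTuples.card_prod_modEq_le.
-/
import Crest.Agent.EG_PrimeTuples

set_option autoImplicit false

namespace Crest.Agent.EG

open Finset Nat

/-- **II2 (freeze all coordinates outside `I`).**  `I ⊆ T`, `I` disjoint from `T'`, `g = #I`.  Then
`#{r ∈ Pl^w : all r i coprime to n, sprod r T ≡ sprod r T' [MOD n]} ≤ s^(w-g) * g! * (Z^g/n + 1)`, `s = #Pl`.

Proof.  Map `r ↦ r|_{Iᶜ}` (e.g. `fun r (i : {i // i ∉ I}) => r i`); its image has `≤ s^(w-g)` elements.  On a fibre the numbers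
`U = ∏_{i ∈ T \ I} r i` (coprime to `n`) and `c' = sprod r T'` are constant and the condition reads
`(∏_{i∈I} r i) * U ≡ c' [MOD n]`.  Two solutions `v, v'` satisfy `∏ v * U ≡ ∏ v' * U`, hence `∏ v ≡ ∏ v' [MOD n]`
(`Nat.ModEq.cancel_right_of_coprime`), so (taking `c = ∏ v₀` for one fixed solution `v₀` of the fibre, if any) the fibre injects
into `{v ∈ Pl^I : ∏ v ≡ c [MOD n]}` with index type `ι = {i // i ∈ I}` and `card_prod_modEq_le` applies.
Use `Finset.card_le_mul_card_image`. -/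
theorem card_collision_le (Pl : Finset ℕ) (hP : ∀ q ∈ Pl, q.Prime) (Z : ℕ) (hZ : ∀ q ∈ Pl, q ≤ Z)
    (w : ℕ) (T T' I : Finset (Fin w)) (hIT : I ⊆ T) (hIT' : Disjoint I T') (n : ℕ) (hn : 0 < n) :
    (((tuples Pl (Fin w)).filter fun r =>
        (∀ i, Nat.Coprime (r i) n) ∧ sprod r T ≡ sprod r T' [MOD n]).card : ℝ)
      ≤ (Pl.card : ℝ) ^ (w - I.card) * ((I.card)! : ℝ) * ((Z : ℝ) ^ I.card / n + 1) := by
  classical
  set S := (tuples Pl (Fin w)).filter fun r =>
        (∀ i, Nat.Coprime (r i) n) ∧ sprod r T ≡ sprod r T' [MOD n] with hS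
  set K : ℝ := ((I.card)! : ℝ) * ((Z : ℝ) ^ I.card / n + 1) with hK
  have hK0 : 0 ≤ K := by positivity
  let rO : (Fin w → ℕ) → ({i // i ∉ I} → ℕ) := fun r i => r i
  let rI : (Fin w → ℕ) → ({i // i ∈ I} → ℕ) := fun r i => r i
  have himg : ((S.image rO).card : ℝ) ≤ (Pl.card : ℝ) ^ (w - I.card) := by
    have hsub : S.image rO ⊆ tuples Pl {i // i ∉ I} := by
      intro a ha
      obtain ⟨r, hr, rfl⟩ := Finset.mem_image.mp ha
      have hr' := (Finset.mem_filter.mp hr).1
      simp only [tuples, Fintype.mem_piFinset] at hr' ⊢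
      intro i
      exact hr' i
    have hc : (tuples Pl {i // i ∉ I}).card = Pl.card ^ (w - I.card) := by
      simp [tuples, Fintype.card_piFinset, Fintype.card_subtype_compl]
    calc ((S.image rO).card : ℝ) ≤ ((tuples Pl {i // i ∉ I}).card : ℝ) := by
          exact_mod_cast Finset.card_le_card hsub
      _ = (Pl.card : ℝ) ^ (w - I.card) := by rw [hc]; push_cast; rfl
  have hfib : ∀ a ∈ S.image rO, ((S.filter fun r => rO r = a).card : ℝ) ≤ K := by
    intro a ha
    obtain ⟨r₀, hr₀, rfl⟩ := Finset.mem_image.mp ha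
    obtain ⟨hr₀t, hr₀c, hr₀m⟩ := Finset.mem_filter.mp hr₀
    set c : ℕ := ∏ i : {i // i ∈ I}, rI r₀ i with hc
    -- agreement outside `I`
    have hagree : ∀ r, rO r = rO r₀ → ∀ i, i ∉ I → r i = r₀ i := by
      intro r hr i hi
      exact congrFun hr ⟨i, hi⟩
    have hinj : Set.InjOn rI (S.filter fun r => rO r = rO r₀ : Finset (Fin w → ℕ)) := by
      intro r hr r' hr' hrI
      have h1 := (Finset.mem_filter.mp (Finset.mem_coe.mp hr)).2
      have h2 := (Finset.mem_filter.mp (Finset.mem_coe.mp hr')).2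
      funext i
      by_cases hi : i ∈ I
      · exact congrFun hrI ⟨i, hi⟩
      · rw [hagree r h1 i hi, hagree r' h2 i hi]
    have hsplit : ∀ r : Fin w → ℕ, sprod r T = (∏ i : {i // i ∈ I}, rI r i) * ∏ i ∈ T \ I, r i := by
      intro r
      have h1 : (∏ i : {i // i ∈ I}, rI r i) = ∏ i ∈ I, r i := Finset.prod_coe_sort I (fun i => r i)
      rw [h1, sprod, mul_comm, Finset.prod_sdiff hIT]
    have hmaps : ∀ r ∈ S.filter (fun r => rO r = rO r₀),
        rI r ∈ (tuples Pl {i // i ∈ I}).filter fun v => ∏ i, v i ≡ c [MOD n] := by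
      intro r hr
      obtain ⟨hrS, hrrO⟩ := Finset.mem_filter.mp hr
      obtain ⟨hrt, hrc, hrm⟩ := Finset.mem_filter.mp hrS
      refine Finset.mem_filter.mpr ⟨?_, ?_⟩
      · simp only [tuples, Fintype.mem_piFinset] at hrt ⊢
        intro i
        exact hrt i
      · have hU : ∏ i ∈ T \ I, r i = ∏ i ∈ T \ I, r₀ i :=
          Finset.prod_congr rfl fun i hi => hagree r hrrO i (Finset.mem_sdiff.mp hi).2
        have hT' : sprod r T' = sprod r₀ T' :=
          Finset.prod_congr rfl fun i hi =>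
            hagree r hrrO i (fun hiI => (Finset.disjoint_left.mp hIT') hiI hi)
        have hcop : Nat.gcd n (∏ i ∈ T \ I, r₀ i) = 1 := by
          rw [Nat.gcd_comm]
          exact Nat.Coprime.prod_left fun i _ => hr₀c i
        have hchain : (∏ i : {i // i ∈ I}, rI r i) * ∏ i ∈ T \ I, r₀ i
            ≡ c * ∏ i ∈ T \ I, r₀ i [MOD n] := by
          rw [← hU, ← hsplit r, hU, hc, ← hsplit r₀]
          exact (hrm.trans (hT' ▸ Nat.ModEq.refl _)).trans hr₀m.symm
        exact Nat.ModEq.cancel_right_of_coprime hcop hchain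
    have h1 : (S.filter fun r => rO r = rO r₀).card
        ≤ ((tuples Pl {i // i ∈ I}).filter fun v => ∏ i, v i ≡ c [MOD n]).card :=
      Finset.card_le_card_of_injOn rI hmaps hinj
    have h2 := card_prod_modEq_le (ι := {i // i ∈ I}) Pl hP Z hZ n c hn
    rw [Fintype.card_coe] at h2
    exact le_trans (by exact_mod_cast h1) h2
  have hsum : (S.card : ℝ) = ∑ a ∈ S.image rO, ((S.filter fun r => rO r = a).card : ℝ) := by
    rw [Finset.card_eq_sum_card_image rO S]
    push_cast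
    rfl
  rw [hsum]
  calc ∑ a ∈ S.image rO, ((S.filter fun r => rO r = a).card : ℝ)
      ≤ ∑ _a ∈ S.image rO, K := Finset.sum_le_sum hfib
    _ = ((S.image rO).card : ℝ) * K := by rw [Finset.sum_const, nsmul_eq_mul]
    _ ≤ (Pl.card : ℝ) ^ (w - I.card) * K := mul_le_mul_of_nonneg_right himg hK0
    _ = (Pl.card : ℝ) ^ (w - I.card) * ((I.card)! : ℝ) * ((Z : ℝ) ^ I.card / n + 1) := by
        rw [hK]; ring

end Crest.Agent.EG
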