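/-
ROW 19 / S0025, project EG.  TASK B2 (file EG_Digits.lean).  Uses EG_Cheap.cheap.
-/
import Crest.Agent.EG_Cheap

set_option autoImplicit false

namespace Crest.Agent.EG

open Finset Nat

/-- `A/(c * ∏l * V)` is a sum of `≤ t (|l|+1)` distinct unit fractions with `p`-adic valuations `≤ v_p(c ∏ l)`. -/
def DRep (R : RichData) (l : List ℕ) (c A : ℕ) : Prop :=
  ∃ T : Finset ℕ, T.card ≤ R.t * (l.length + 1) ∧
    (∀ n ∈ T, 1 ≤ n ∧ padicValNat R.p n ≤ padicValNat R.p (c * l.prod)) ∧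
    ∑ n ∈ T, (1 : ℚ) / (n : ℚ) = (A : ℚ) / ((c : ℚ) * (l.prod : ℚ) * (R.V : ℚ))

/-- base: a good number is a digit. (`cheap` with `c`.) -/
theorem DRep_nil (R : RichData) (c A : ℕ) (hc : 1 ≤ c) (hA : R.Good A) : DRep R [] c A := by
  obtain ⟨T, hT, hv, hs⟩ := cheap R c A hc hA
  refine ⟨T, by simpa using hT, fun n hn => ⟨(hv n hn).1, by simpa using (hv n hn).2.le⟩, ?_⟩
  rw [hs]
  simp

private lemma one_le_list_prod (l : List ℕ) (hl : ∀ f ∈ l, 1 ≤ f) : 1 ≤ l.prod := by
  induction l with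
  | nil => simp
  | cons a l ih =>
    rw [List.prod_cons]
    have h1 : 1 ≤ a := hl a (by simp)
    have h2 : 1 ≤ l.prod := ih fun f hf => hl f (by simp [hf])
    exact Nat.mul_pos h1 h2

/-- step: `ρ + f A'`.  Use `cheap` with `c * (f * l.prod)`: its denominators have valuation `v_p(c f ∏l) = v_p(c ∏ l) + v_p(f) > v_p(c ∏l)` (`p ∣ f`), so they are different from
those of `A'`;  `ρ/(c f ∏l V) + A'/(c ∏l V) = (ρ + f A')/(c f ∏l V)`. -/
theorem DRep_cons (R : RichData) (l : List ℕ) (hl : ∀ f ∈ l, 1 ≤ f) (c f ρ A' : ℕ) (hc : 1 ≤ c) (hf : 1 ≤ f)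
    (hpf : R.p ∣ f) (hρ : R.Good ρ) (hA' : DRep R l c A') : DRep R (f :: l) c (ρ + f * A') := by
  have := Fact.mk R.hp
  have hPr : 1 ≤ l.prod := one_le_list_prod l hl
  obtain ⟨T', hT', hv', hs'⟩ := hA'
  have hc1 : 1 ≤ c * (f * l.prod) := Nat.mul_pos hc (Nat.mul_pos hf hPr)
  obtain ⟨T1, hT1, hv1, hs1⟩ := cheap R (c * (f * l.prod)) ρ hc1 hρ
  have hval : padicValNat R.p (c * (f * l.prod)) = padicValNat R.p f + padicValNat R.p (c * l.prod) := by
    have : c * (f * l.prod) = f * (c * l.prod) := by ring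
    rw [this, padicValNat.mul (by omega) (Nat.mul_pos hc hPr).ne']
  have hvf : 1 ≤ padicValNat R.p f := one_le_padicValNat_of_dvd (by omega) hpf
  have hdisj : Disjoint T1 T' := by
    rw [Finset.disjoint_left]
    intro n h1 h2
    have e1 := (hv1 n h1).2
    have e2 := (hv' n h2).2
    omega
  refine ⟨T1 ∪ T', ?_, ?_, ?_⟩
  · rw [Finset.card_union_of_disjoint hdisj, List.length_cons]
    calc T1.card + T'.card ≤ R.t + R.t * (l.length + 1) := Nat.add_le_add hT1 hT'
      _ = R.t * (l.length + 1 + 1) := by ring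
  · intro n hn
    rw [List.prod_cons]
    rcases Finset.mem_union.1 hn with h | h
    · exact ⟨(hv1 n h).1, (hv1 n h).2.le⟩
    · refine ⟨(hv' n h).1, ?_⟩
      have := (hv' n h).2
      omega
  · rw [Finset.sum_union hdisj, hs1, hs', List.prod_cons]
    have h1 : (c : ℚ) ≠ 0 := by exact_mod_cast (by omega : c ≠ 0)
    have h2 : (f : ℚ) ≠ 0 := by exact_mod_cast (by omega : f ≠ 0)
    have h3 : (l.prod : ℚ) ≠ 0 := by exact_mod_cast (by omega : l.prod ≠ 0)
    have h4 : (R.V : ℚ) ≠ 0 := by exact_mod_cast (by have := R.hV; omega : R.V ≠ 0)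
    push_cast
    field_simp

/-- at most `#Obs` of the `j < H` make `a + j * f` divisible by an obstacle, if `f` is coprime to all obstacles
(each obstacle `o ≥ H` kills at most one `j`: `o ∣ (j - j') f ⇒ o ∣ j - j'`). -/
theorem card_bad_up (R : RichData) (a f : ℕ) (hf : ∀ o ∈ R.Obs, Nat.Coprime f o) :
    ((Finset.range R.H).filter fun j => ∃ o ∈ R.Obs, o ∣ a + j * f).card ≤ R.Obs.card := by
  classical
  have hsub : ((Finset.range R.H).filter fun j => ∃ o ∈ R.Obs, o ∣ a + j * f)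
      ⊆ R.Obs.biUnion fun o => (Finset.range R.H).filter fun j => o ∣ a + j * f := by
    intro j hj
    obtain ⟨hj1, o, ho, hd⟩ := Finset.mem_filter.1 hj
    exact Finset.mem_biUnion.2 ⟨o, ho, Finset.mem_filter.2 ⟨hj1, hd⟩⟩
  refine (Finset.card_le_card hsub).trans (Finset.card_biUnion_le.trans ?_)
  calc ∑ o ∈ R.Obs, ((Finset.range R.H).filter fun j => o ∣ a + j * f).card
      ≤ ∑ _o ∈ R.Obs, 1 := by
        refine Finset.sum_le_sum fun o ho => Finset.card_le_one.2 ?_
        -- wlog j ≤ j'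
        have key : ∀ j j' : ℕ, j ≤ j' → j' < R.H → o ∣ a + j * f → o ∣ a + j' * f → j = j' := by
          intro j j' hle hj' h1 h2
          have h3 : o ∣ (a + j' * f) - (a + j * f) := Nat.dvd_sub h2 h1
          have h4 : (a + j' * f) - (a + j * f) = (j' - j) * f := by
            rw [Nat.sub_mul]; omega
          rw [h4] at h3
          have h5 : o ∣ j' - j := (Nat.Coprime.dvd_of_dvd_mul_right (hf o ho).symm h3)
          have h6 : j' - j < o := lt_of_lt_of_le (by omega) (R.hObsH o ho)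
          have h7 : j' - j = 0 := Nat.eq_zero_of_dvd_of_lt h5 h6
          omega
        intro j hj j' hj'
        obtain ⟨hj1, hj2⟩ := Finset.mem_filter.1 hj
        obtain ⟨hj1', hj2'⟩ := Finset.mem_filter.1 hj'
        rw [Finset.mem_range] at hj1 hj1'
        rcases le_total j j' with h | h
        · exact key j j' h hj1' hj2 hj2'
        · exact (key j' j h hj1 hj2' hj2).symm
    _ = R.Obs.card := by simp

/-- at most `#Obs` of the `j < H` make `A - j` divisible by an obstacle (`H ≤ A`). -/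
theorem card_bad_down (R : RichData) (A : ℕ) (hA : R.H ≤ A) :
    ((Finset.range R.H).filter fun j => ∃ o ∈ R.Obs, o ∣ A - j).card ≤ R.Obs.card := by
  classical
  have hsub : ((Finset.range R.H).filter fun j => ∃ o ∈ R.Obs, o ∣ A - j)
      ⊆ R.Obs.biUnion fun o => (Finset.range R.H).filter fun j => o ∣ A - j := by
    intro j hj
    obtain ⟨hj1, o, ho, hd⟩ := Finset.mem_filter.1 hj
    exact Finset.mem_biUnion.2 ⟨o, ho, Finset.mem_filter.2 ⟨hj1, hd⟩⟩
  refine (Finset.card_le_card hsub).trans (Finset.card_biUnion_le.trans ?_)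
  calc ∑ o ∈ R.Obs, ((Finset.range R.H).filter fun j => o ∣ A - j).card
      ≤ ∑ _o ∈ R.Obs, 1 := by
        refine Finset.sum_le_sum fun o ho => Finset.card_le_one.2 ?_
        have key : ∀ j j' : ℕ, j ≤ j' → j' < R.H → o ∣ A - j → o ∣ A - j' → j = j' := by
          intro j j' hle hj' h1 h2
          have h3 : o ∣ (A - j) - (A - j') := Nat.dvd_sub h1 h2
          have h4 : (A - j) - (A - j') = j' - j := by omega
          rw [h4] at h3
          have h6 : j' - j < o := lt_of_lt_of_le (by omega) (R.hObsH o ho)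
          have h7 : j' - j = 0 := Nat.eq_zero_of_dvd_of_lt h3 h6
          omega
        intro j hj j' hj'
        obtain ⟨hj1, hj2⟩ := Finset.mem_filter.1 hj
        obtain ⟨hj1', hj2'⟩ := Finset.mem_filter.1 hj'
        rw [Finset.mem_range] at hj1 hj1'
        rcases le_total j j' with h | h
        · exact key j j' h hj1' hj2 hj2'
        · exact (key j' j h hj1 hj2' hj2).symm
    _ = R.Obs.card := by simp

/-- a digit `1 ≤ j < H` avoiding both families of bad values -/
private lemma exists_digit (R : RichData) (a f A' : ℕ) (hf : ∀ o ∈ R.Obs, Nat.Coprime f o) (hA' : R.H ≤ A') :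
    ∃ j, 1 ≤ j ∧ j < R.H ∧ (∀ o ∈ R.Obs, ¬ o ∣ a + j * f) ∧ (∀ o ∈ R.Obs, ¬ o ∣ A' - j) := by
  classical
  by_contra hcon
  push Not at hcon
  have hsub : Finset.range R.H ⊆ {0} ∪ ((Finset.range R.H).filter fun j => ∃ o ∈ R.Obs, o ∣ a + j * f)
      ∪ ((Finset.range R.H).filter fun j => ∃ o ∈ R.Obs, o ∣ A' - j) := by
    intro j hj
    have hjH := Finset.mem_range.1 hj
    simp only [Finset.mem_union, Finset.mem_singleton, Finset.mem_filter]
    by_cases h0 : j = 0
    · exact Or.inl (Or.inl h0)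
    · by_cases h1 : ∃ o ∈ R.Obs, o ∣ a + j * f
      · exact Or.inl (Or.inr ⟨hj, h1⟩)
      · push Not at h1
        exact Or.inr ⟨hj, hcon j (by omega) hjH h1⟩
  have h1 := Finset.card_le_card hsub
  have h2 := Finset.card_union_le ({0} ∪ ((Finset.range R.H).filter fun j => ∃ o ∈ R.Obs, o ∣ a + j * f))
      ((Finset.range R.H).filter fun j => ∃ o ∈ R.Obs, o ∣ A' - j)
  have h3 := Finset.card_union_le ({0} : Finset ℕ) ((Finset.range R.H).filter fun j => ∃ o ∈ R.Obs, o ∣ a + j * f)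
  have h4 := card_bad_up R a f hf
  have h5 := card_bad_down R A' hA'
  have h6 := R.hcard
  rw [Finset.card_range] at h1
  rw [Finset.card_singleton] at h3
  omega

private lemma digits_aux (R : RichData) (c : ℕ) (hc : 1 ≤ c) (l : List ℕ) :
    (∀ f ∈ l, 2 ≤ f ∧ R.p ∣ f ∧ R.H * f ≤ R.P ∧ ∀ o ∈ R.Obs, Nat.Coprime f o) → l ≠ [] →
    ∀ A : ℕ, (2 * R.H + 1) * l.prod ≤ A + 2 * R.H → A ≤ (R.P - 1) * l.prod → DRep R l c A := by
  induction l with
  | nil => intro _ h; exact absurd rfl h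
  | cons f l' ih =>
    intro hl _ A hlo hhi
    obtain ⟨hf2, hpf, hHf, hcop⟩ := hl f (by simp)
    have hl' : ∀ g ∈ l', 2 ≤ g ∧ R.p ∣ g ∧ R.H * g ≤ R.P ∧ ∀ o ∈ R.Obs, Nat.Coprime g o :=
      fun g hg => hl g (by simp [hg])
    have hl1 : ∀ g ∈ l', 1 ≤ g := fun g hg => le_trans (by norm_num) (hl' g hg).1
    have hPr : 1 ≤ l'.prod := one_le_list_prod l' hl1
    have hH : 2 ≤ R.H := by have := R.hcard; omega
    rw [List.prod_cons] at hlo hhi
    set Pr := l'.prod with hPrdef
    set A' := A / f with hA'def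
    set a := A % f with hadef
    have hA : A = a + f * A' := (Nat.mod_add_div A f).symm
    have haf : a < f := Nat.mod_lt _ (by omega)
    -- `(2H+1) Pr ≤ A' + H`
    have hkey : (2 * R.H + 1) * Pr ≤ A' + R.H := by
      have h1 : f * ((2 * R.H + 1) * Pr) < f * (A' + 1 + R.H) := by
        calc f * ((2 * R.H + 1) * Pr) = (2 * R.H + 1) * (f * Pr) := by ring
          _ ≤ A + 2 * R.H := hlo
          _ = a + f * A' + 2 * R.H := by rw [← hA]
          _ < f + f * A' + f * R.H := by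
            have : 2 * R.H ≤ f * R.H := Nat.mul_le_mul_right _ hf2
            omega
          _ = f * (A' + 1 + R.H) := by ring
      have := Nat.lt_of_mul_lt_mul_left h1
      omega
    have hA'H : R.H + 1 ≤ A' := by
      have : (2 * R.H + 1) * 1 ≤ (2 * R.H + 1) * Pr := Nat.mul_le_mul_left _ hPr
      omega
    have hA'hi : A' ≤ (R.P - 1) * Pr := by
      have h1 : A ≤ ((R.P - 1) * Pr) * f := by
        calc A ≤ (R.P - 1) * (f * Pr) := hhi
          _ = ((R.P - 1) * Pr) * f := by ring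
      calc A' = A / f := rfl
        _ ≤ (((R.P - 1) * Pr) * f) / f := Nat.div_le_div_right h1
        _ = (R.P - 1) * Pr := Nat.mul_div_cancel _ (by omega)
    obtain ⟨j, hj1, hjH, hup, hdown⟩ := exists_digit R a f A' hcop (by omega)
    have hρ : R.Good (a + j * f) := by
      refine ⟨?_, ?_, hup⟩
      · have : 1 * 2 ≤ j * f := Nat.mul_le_mul hj1 hf2
        omega
      · calc a + j * f < f + j * f := by omega
          _ = (j + 1) * f := by ring
          _ ≤ R.H * f := Nat.mul_le_mul_right _ (by omega)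
          _ ≤ R.P := hHf
    have hAeq : A = (a + j * f) + f * (A' - j) := by
      have : f * (A' - j) = f * A' - f * j := Nat.mul_sub f A' j
      have h2 : f * j ≤ f * A' := Nat.mul_le_mul_left _ (by omega)
      have h3 : j * f = f * j := Nat.mul_comm _ _
      omega
    have hrec : DRep R l' c (A' - j) := by
      by_cases hne : l' = []
      · subst hne
        refine DRep_nil R c _ hc ⟨by omega, ?_, hdown⟩
        have hP : 1 ≤ R.P := by
          have : 2 * 2 ≤ R.H * f := Nat.mul_le_mul hH hf2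
          omega
        have : Pr = 1 := by simp [hPrdef]
        rw [this] at hA'hi
        omega
      · exact ih hl' hne (A' - j) (by omega) (by omega)
    rw [hAeq]
    exact DRep_cons R l' hl1 c f _ _ hc (by omega) hpf hρ hrec

/-- **B2 (digits).**  `l = [f_R, …, f_1]` radices.

Proof.  Prove by induction on `l` (generalising `A`), for `l ≠ []`, the statement with the weaker lower bound `(2H+1) ∏l ≤ A + 2H`:   `DRep R l c A`.
Let `l = f :: l'`, `A' = A / f`, `a = A % f`.  For `1 ≤ j < H` put `ρ_j = a + j f`, so `A = ρ_j + f (A' - j)` provided `j ≤ A'`;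
`1 ≤ ρ_j < H f ≤ P`.  From `(2H+1) f ∏l' ≤ A + 2H` and `f ≥ 2`:  `A' + H ≥ (2H+1) ∏l'`, hence for `j < H`: `(2H+1) ∏l' ≤ (A' - j) + 2H` and `A' - j ≥ 1` (`∏ l' ≥ 1`), `A' ≥ H`.
Also `A' - j ≤ A' ≤ (P-1) ∏l'`.
 * `l' ≠ []`: any `j ∈ [1,H)` with `ρ_j` good works (IH for `A' - j`): `card_bad_up` excludes `≤ #Obs < H - 1` values.
 * `l' = []`: need `ρ_j` good and `A' - j` good (`1 ≤ A' - j ≤ P - 1`): `card_bad_up` and `card_bad_down` exclude `≤ 2 #Obs < H - 1` values (`R.hcard`).
Conclude with `DRep_cons` (and `DRep_nil`). -/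
theorem digits (R : RichData) (l : List ℕ)
    (hl : ∀ f ∈ l, 2 ≤ f ∧ R.p ∣ f ∧ R.H * f ≤ R.P ∧ ∀ o ∈ R.Obs, Nat.Coprime f o) (hne : l ≠ [])
    (c A : ℕ) (hc : 1 ≤ c) (hlo : (2 * R.H + 1) * l.prod ≤ A) (hhi : A ≤ (R.P - 1) * l.prod) :
    ∃ T : Finset ℕ, T.card ≤ R.t * (l.length + 1) ∧ (∀ n ∈ T, 1 ≤ n) ∧
      ∑ n ∈ T, (1 : ℚ) / (n : ℚ) = (A : ℚ) / ((c : ℚ) * (l.prod : ℚ) * (R.V : ℚ)) := by
  obtain ⟨T, h1, h2, h3⟩ := digits_aux R c hc l hl hne A (by omega) hhi
  exact ⟨T, h1, fun n hn => (h2 n hn).1, h3⟩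

end Crest.Agent.EG
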