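/-
ROW 19 / S0025, project EG.  TASK II3 (file EG_PairBound.lean).  Uses EG_Collision.card_collision_le.
-/
import Crest.Agent.EG_Collision

set_option autoImplicit false

namespace Crest.Agent.EG

open Finset Nat

/-- natural-number estimate `g! * w^d ≤ s^g`. -/
private theorem pb_fact_le (g w d s : ℕ) (hw : 1 ≤ w) (hg : g ≤ w) (hd : d ≤ 2 * g)
    (hs : w ^ 3 ≤ s) : g ! * w ^ d ≤ s ^ g := by
  calc g ! * w ^ d ≤ g ^ g * w ^ (2 * g) :=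
        Nat.mul_le_mul (Nat.factorial_le_pow g) (Nat.pow_le_pow_right hw hd)
    _ ≤ w ^ g * w ^ (2 * g) := Nat.mul_le_mul_right _ (Nat.pow_le_pow_left hg g)
    _ = (w ^ 3) ^ g := by rw [← pow_add, ← pow_mul]; congr 1; ring
    _ ≤ s ^ g := Nat.pow_le_pow_left hs g

/-- the asymmetric version: `#(T' \ T) ≤ #(T \ T')`. -/
private theorem pb_aux (Pl : Finset ℕ) (hP : ∀ q ∈ Pl, q.Prime) (Z : ℕ)
    (hZ : ∀ q ∈ Pl, q ≤ Z) (w κ₀ u n : ℕ) (hw : 1 ≤ w) (hs1 : Z ≤ κ₀ * Pl.card)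
    (hs2 : w ^ 3 ≤ Pl.card) (hn : 0 < n) (hu : n ≤ Z ^ u)
    (T T' : Finset (Fin w)) (hTT' : T ≠ T') (hle : (T' \ T).card ≤ (T \ T').card) :
    (((tuples Pl (Fin w)).filter fun r =>
        (∀ i, Nat.Coprime (r i) n) ∧ sprod r T ≡ sprod r T' [MOD n]).card : ℝ)
      ≤ (Pl.card : ℝ) ^ w * (2 * (u ! : ℝ) * (κ₀ : ℝ) ^ u / n + 1 / (w : ℝ) ^ (symmDiff T T').card) := by
  classical
  set s : ℕ := Pl.card with hs
  have hspos : 0 < s := lt_of_lt_of_le (by positivity) hs2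
  have hsR : (0 : ℝ) < (s : ℝ) := by exact_mod_cast hspos
  have hnR : (0 : ℝ) < (n : ℝ) := by exact_mod_cast hn
  have hwR : (0 : ℝ) < (w : ℝ) := by exact_mod_cast hw
  -- κ₀ ≥ 1
  have hκ : 1 ≤ κ₀ := by
    by_contra hcon
    have hκ0 : κ₀ = 0 := by omega
    have hZ0 : Z = 0 := by simpa [hκ0] using hs1
    obtain ⟨q, hq⟩ : Pl.Nonempty := Finset.card_pos.mp hspos
    have h1 := hZ q hq
    have h2 := (hP q hq).pos
    omega
  have hκR : (1 : ℝ) ≤ (κ₀ : ℝ) := by exact_mod_cast hκ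
  -- symmetric difference
  have hsd : (symmDiff T T').card = (T \ T').card + (T' \ T).card := by
    rw [symmDiff_def, Finset.sup_eq_union, Finset.card_union_of_disjoint]
    exact Finset.disjoint_left.mpr fun a ha hb => by
      simp only [Finset.mem_sdiff] at ha hb
      exact ha.2 hb.1
  have hd2 : (symmDiff T T').card ≤ 2 * (T \ T').card := by omega
  have hI0w : (T \ T').card ≤ w := by
    simpa using Finset.card_le_univ (T \ T')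
  -- choose I
  set g : ℕ := min (T \ T').card u with hg
  obtain ⟨I, hI, hIc⟩ := Finset.exists_subset_card_eq (s := T \ T') (n := g) (min_le_left _ _)
  have hIT : I ⊆ T := fun a ha => (Finset.mem_sdiff.mp (hI ha)).1
  have hIT' : Disjoint I T' := Finset.disjoint_left.mpr fun a ha hb =>
    (Finset.mem_sdiff.mp (hI ha)).2 hb
  have key := card_collision_le Pl hP Z hZ w T T' I hIT hIT' n hn
  rw [hIc] at key
  refine key.trans ?_
  have hgw : g ≤ w := (min_le_left _ _).trans hI0w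
  have hgu : g ≤ u := min_le_right _ _
  have hsplit : (s : ℝ) ^ w = (s : ℝ) ^ (w - g) * (s : ℝ) ^ g := by
    rw [← pow_add]; congr 1; omega
  have hZs : (Z : ℝ) ^ g ≤ (κ₀ : ℝ) ^ g * (s : ℝ) ^ g := by
    rw [← mul_pow]
    exact pow_le_pow_left₀ (by positivity) (by exact_mod_cast hs1) g
  have hA : (0 : ℝ) ≤ (s : ℝ) ^ (w - g) := by positivity
  have hterm : (0 : ℝ) ≤ 1 / (w : ℝ) ^ (symmDiff T T').card := by positivity
  rcases le_or_gt u (T \ T').card with hcase | hcase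
  · -- g = u
    have hgeq : g = u := min_eq_right hcase
    have h1 : (1 : ℝ) ≤ (Z : ℝ) ^ g / n := by
      rw [le_div_iff₀ hnR, one_mul, hgeq]
      exact_mod_cast hu
    have h2 : (Z : ℝ) ^ g / n + 1 ≤ 2 * ((κ₀ : ℝ) ^ g * (s : ℝ) ^ g) / n := by
      have : (Z : ℝ) ^ g / n ≤ ((κ₀ : ℝ) ^ g * (s : ℝ) ^ g) / n :=
        div_le_div_of_nonneg_right hZs hnR.le
      have e : 2 * ((κ₀ : ℝ) ^ g * (s : ℝ) ^ g) / n = 2 * (((κ₀ : ℝ) ^ g * (s : ℝ) ^ g) / n) := by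
        ring
      rw [e]; linarith
    calc (s : ℝ) ^ (w - g) * (g ! : ℝ) * ((Z : ℝ) ^ g / n + 1)
        ≤ (s : ℝ) ^ (w - g) * (g ! : ℝ) * (2 * ((κ₀ : ℝ) ^ g * (s : ℝ) ^ g) / n) :=
          mul_le_mul_of_nonneg_left h2 (by positivity)
      _ = (s : ℝ) ^ w * (2 * (u ! : ℝ) * (κ₀ : ℝ) ^ u / n) := by
          rw [hsplit, hgeq]; ring
      _ ≤ (s : ℝ) ^ w * (2 * (u ! : ℝ) * (κ₀ : ℝ) ^ u / n
            + 1 / (w : ℝ) ^ (symmDiff T T').card) :=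
          mul_le_mul_of_nonneg_left (by linarith) (by positivity)
  · -- g = #I₀ < u
    have hgeq : g = (T \ T').card := min_eq_left hcase.le
    have hfact : (g ! : ℝ) ≤ (u ! : ℝ) := by exact_mod_cast Nat.factorial_le hgu
    have hκpow : (κ₀ : ℝ) ^ g ≤ (κ₀ : ℝ) ^ u := pow_le_pow_right₀ hκR hgu
    have hnat := pb_fact_le g w (symmDiff T T').card s hw hgw (by rw [hgeq]; exact hd2) hs2
    have hnatR : (g ! : ℝ) * (w : ℝ) ^ (symmDiff T T').card ≤ (s : ℝ) ^ g := by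
      exact_mod_cast hnat
    have hsecond : (g ! : ℝ) ≤ (s : ℝ) ^ g * (1 / (w : ℝ) ^ (symmDiff T T').card) := by
      rw [mul_one_div, le_div_iff₀ (by positivity)]
      exact hnatR
    have hfirst : (g ! : ℝ) * ((Z : ℝ) ^ g / n)
        ≤ (s : ℝ) ^ g * (2 * (u ! : ℝ) * (κ₀ : ℝ) ^ u / n) := by
      have h1 : (g ! : ℝ) * (Z : ℝ) ^ g ≤ (u ! : ℝ) * ((κ₀ : ℝ) ^ u * (s : ℝ) ^ g) := by
        refine mul_le_mul hfact (hZs.trans ?_) (by positivity) (by positivity)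
        exact mul_le_mul_of_nonneg_right hκpow (by positivity)
      have h2 : (g ! : ℝ) * ((Z : ℝ) ^ g / n) ≤ ((u ! : ℝ) * ((κ₀ : ℝ) ^ u * (s : ℝ) ^ g)) / n := by
        rw [← mul_div_assoc]
        exact div_le_div_of_nonneg_right h1 hnR.le
      have h3 : (0 : ℝ) ≤ ((u ! : ℝ) * ((κ₀ : ℝ) ^ u * (s : ℝ) ^ g)) / n := by positivity
      have e : (s : ℝ) ^ g * (2 * (u ! : ℝ) * (κ₀ : ℝ) ^ u / n)
          = 2 * (((u ! : ℝ) * ((κ₀ : ℝ) ^ u * (s : ℝ) ^ g)) / n) := by ring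
      rw [e]; linarith
    calc (s : ℝ) ^ (w - g) * (g ! : ℝ) * ((Z : ℝ) ^ g / n + 1)
        = (s : ℝ) ^ (w - g) * ((g ! : ℝ) * ((Z : ℝ) ^ g / n) + (g ! : ℝ)) := by ring
      _ ≤ (s : ℝ) ^ (w - g) * ((s : ℝ) ^ g * (2 * (u ! : ℝ) * (κ₀ : ℝ) ^ u / n)
            + (s : ℝ) ^ g * (1 / (w : ℝ) ^ (symmDiff T T').card)) :=
          mul_le_mul_of_nonneg_left (add_le_add hfirst hsecond) hA
      _ = (s : ℝ) ^ w * (2 * (u ! : ℝ) * (κ₀ : ℝ) ^ u / n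
            + 1 / (w : ℝ) ^ (symmDiff T T').card) := by
          rw [hsplit]; ring

/-- **II3 (collision probability of a fixed pair `T ≠ T'`).**  With `s = #Pl`, `Z ≤ κ₀ s`, `w³ ≤ s`, `n ≤ Z^u`:
`#{r ∈ Pl^w : units, collision} ≤ s^w (2 u! κ₀^u / n + w^{-|T ∆ T'|})`.

Proof.  The statement is symmetric in `(T, T')` (`Nat.ModEq.symm`, `symmDiff_comm`), so WLOG `#(T' \ T) ≤ #(T \ T')`; put
`I₀ = T \ T'`; then `1 ≤ #I₀` and `#(T ∆ T') ≤ 2 #I₀`.  Choose `I ⊆ I₀` with `#I = g := min (#I₀) u`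
(`Finset.exists_subset_card_eq`) and apply `card_collision_le`:  count `≤ s^(w-g) g! (Z^g/n + 1)`, and `s^(w-g) = s^w / s^g` (`g ≤ w`, `s > 0`).
 * `g = u`:  `1 ≤ Z^u/n`, so `g!(Z^g/n+1)/s^g ≤ 2 u! (Z/s)^u / n ≤ 2 u! κ₀^u / n`.
 * `g = #I₀ < u`:  `g! (Z/s)^g / n ≤ g! κ₀^g / n ≤ u! κ₀^u / n`  (`κ₀ ≥ 1`), and
    `g!/s^g ≤ (g/s)^g ≤ (w/s)^g ≤ (1/w²)^g = w^{-2g} ≤ w^{-|T∆T'|}`   (`Nat.factorial_le_pow`, `g ≤ w`, `w ≥ 1`). -/
theorem card_pair_collision_le (Pl : Finset ℕ) (hP : ∀ q ∈ Pl, q.Prime) (Z : ℕ)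
    (hZ : ∀ q ∈ Pl, q ≤ Z) (w κ₀ u n : ℕ) (hw : 1 ≤ w) (hs1 : Z ≤ κ₀ * Pl.card)
    (hs2 : w ^ 3 ≤ Pl.card) (hn : 0 < n) (hu : n ≤ Z ^ u)
    (T T' : Finset (Fin w)) (hTT' : T ≠ T') :
    (((tuples Pl (Fin w)).filter fun r =>
        (∀ i, Nat.Coprime (r i) n) ∧ sprod r T ≡ sprod r T' [MOD n]).card : ℝ)
      ≤ (Pl.card : ℝ) ^ w * (2 * (u ! : ℝ) * (κ₀ : ℝ) ^ u / n + 1 / (w : ℝ) ^ (symmDiff T T').card) := by
  rcases le_total (T' \ T).card (T \ T').card with hle | hle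
  · exact pb_aux Pl hP Z hZ w κ₀ u n hw hs1 hs2 hn hu T T' hTT' hle
  · have h := pb_aux Pl hP Z hZ w κ₀ u n hw hs1 hs2 hn hu T' T hTT'.symm hle
    rw [symmDiff_comm T' T] at h
    have e : ((tuples Pl (Fin w)).filter fun r =>
        (∀ i, Nat.Coprime (r i) n) ∧ sprod r T ≡ sprod r T' [MOD n])
        = ((tuples Pl (Fin w)).filter fun r =>
        (∀ i, Nat.Coprime (r i) n) ∧ sprod r T' ≡ sprod r T [MOD n]) := by
      refine Finset.filter_congr fun r _ => ?_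
      exact ⟨fun h => ⟨h.1, h.2.symm⟩, fun h => ⟨h.1, h.2.symm⟩⟩
    rw [e]
    exact h

end Crest.Agent.EG
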