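/-
ROW 19 / S0025, project EG.  TASK II4 (file EG_SumColl.lean).  Uses EG_PairBound.card_pair_collision_le.
-/
import Crest.Agent.EG_PairBound

set_option autoImplicit false

namespace Crest.Agent.EG

open Finset Nat

private theorem sc_one_add_inv_pow_le (w : ℕ) (hw : 1 ≤ w) :
    (1 / (w : ℝ) + 1) ^ w ≤ 3 := by
  have hw0 : (0 : ℝ) < w := by exact_mod_cast hw
  have h1 : 1 / (w : ℝ) + 1 ≤ Real.exp (1 / (w : ℝ)) := Real.add_one_le_exp _
  have h0 : (0 : ℝ) ≤ 1 / (w : ℝ) + 1 := by positivity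
  calc (1 / (w : ℝ) + 1) ^ w ≤ (Real.exp (1 / (w : ℝ))) ^ w := pow_le_pow_left₀ h0 h1 w
    _ = Real.exp 1 := by
        rw [← Real.exp_nat_mul]
        congr 1
        field_simp
    _ ≤ 3 := by
        have := Real.exp_one_lt_d9
        linarith

private theorem sc_sum_inner (w : ℕ) (T : Finset (Fin w)) :
    ∑ T' : Finset (Fin w), (1 : ℝ) / (w : ℝ) ^ (symmDiff T T').card = (1 / (w : ℝ) + 1) ^ w := by
  have h1 : ∑ T' : Finset (Fin w), (1 : ℝ) / (w : ℝ) ^ (symmDiff T T').card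
      = ∑ S : Finset (Fin w), (1 : ℝ) / (w : ℝ) ^ S.card :=
    Equiv.sum_comp ((symmDiff_right_involutive T).toPerm _)
      (fun S : Finset (Fin w) => (1 : ℝ) / (w : ℝ) ^ S.card)
  rw [h1]
  have h2 := Fintype.sum_pow_mul_eq_add_pow (Fin w) (1 / (w : ℝ)) (1 : ℝ)
  rw [Fintype.card_fin] at h2
  rw [← h2]
  refine Finset.sum_congr rfl fun S _ => ?_
  rw [one_pow, mul_one, one_div, one_div, inv_pow]

/-- `∑_{(T,T')} w^{-|T ∆ T'|} = 2^w (1+1/w)^w ≤ 3 * 2^w`  (diagonal included).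
Proof: for fixed `T` the map `T' ↦ T ∆ T'` is a bijection of `Finset (Fin w)`; `Fintype.sum_pow_mul_eq_add_pow`;
`(1+1/w)^w ≤ exp 1 < 3` (`Real.add_one_le_exp`, `Real.exp_one_lt_d9`). -/
theorem sum_symmDiff_le (w : ℕ) (hw : 1 ≤ w) :
    ∑ p : Finset (Fin w) × Finset (Fin w), (1 : ℝ) / (w : ℝ) ^ (symmDiff p.1 p.2).card
      ≤ 3 * 2 ^ w := by
  rw [Fintype.sum_prod_type]
  simp only [sc_sum_inner]
  rw [Finset.sum_const, Finset.card_univ, Fintype.card_finset, Fintype.card_fin, nsmul_eq_mul]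
  have h := sc_one_add_inv_pow_le w hw
  have h2 : (0 : ℝ) ≤ 2 ^ w := by positivity
  push_cast
  nlinarith

private theorem sc_card_tuples (Pl : Finset ℕ) (w : ℕ) :
    (tuples Pl (Fin w)).card = Pl.card ^ w := by
  simp [tuples, Fintype.card_piFinset]

/-- **II4 (first moment of the collision number).**
`∑_{r ∈ Pl^w, units mod n} coll (sprod r) n ≤ s^w 4^w (3 + 2 u! κ₀^u) / n`   for `0 < n ≤ 2^w`, `n ≤ Z^u`.

Proof.  Exchange the sums: LHS `= ∑_{(T,T')} #{r units : sprod r T ≡ sprod r T'}`.  Diagonal terms are `≤ s^w = s^w * w^{-0}`;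
off-diagonal terms by `card_pair_collision_le`.  So LHS `≤ s^w (4^w * 2 u! κ₀^u / n + ∑_{(T,T')} w^{-|T∆T'|})
 ≤ s^w (4^w 2 u! κ₀^u / n + 3 * 2^w)` and `2^w ≤ 4^w / n`. -/
theorem sum_coll_le (Pl : Finset ℕ) (hP : ∀ q ∈ Pl, q.Prime) (Z : ℕ)
    (hZ : ∀ q ∈ Pl, q ≤ Z) (w κ₀ u n : ℕ) (hw : 1 ≤ w) (hs1 : Z ≤ κ₀ * Pl.card)
    (hs2 : w ^ 3 ≤ Pl.card) (hn : 0 < n) (hu : n ≤ Z ^ u) (hn2 : n ≤ 2 ^ w) :
    ∑ r ∈ (tuples Pl (Fin w)).filter (fun r => ∀ i, Nat.Coprime (r i) n), (coll (sprod r) n : ℝ)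
      ≤ (Pl.card : ℝ) ^ w * 4 ^ w * (3 + 2 * (u ! : ℝ) * (κ₀ : ℝ) ^ u) / n := by
  classical
  have hn0 : (0 : ℝ) < n := by exact_mod_cast hn
  set C : ℝ := 2 * (u ! : ℝ) * (κ₀ : ℝ) ^ u with hC
  have hC0 : 0 ≤ C := by positivity
  set s : ℝ := (Pl.card : ℝ) ^ w with hs
  have hs0 : 0 ≤ s := by positivity
  -- exchange the sums
  have hex : ∑ r ∈ (tuples Pl (Fin w)).filter (fun r => ∀ i, Nat.Coprime (r i) n),
        (coll (sprod r) n : ℝ)
      = ∑ p : Finset (Fin w) × Finset (Fin w), (((tuples Pl (Fin w)).filter fun r =>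
          (∀ i, Nat.Coprime (r i) n) ∧ sprod r p.1 ≡ sprod r p.2 [MOD n]).card : ℝ) := by
    have h1 : ∀ r : Fin w → ℕ, (coll (sprod r) n : ℝ)
        = ∑ p : Finset (Fin w) × Finset (Fin w),
            (if sprod r p.1 ≡ sprod r p.2 [MOD n] then (1 : ℝ) else 0) := by
      intro r
      unfold coll
      rw [Finset.card_filter]
      push_cast
      rfl
    simp only [h1]
    rw [Finset.sum_comm]
    refine Finset.sum_congr rfl fun p _ => ?_
    rw [← Finset.filter_filter, Finset.card_filter]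
    push_cast
    rfl
  rw [hex]
  -- termwise bound
  have hterm : ∀ p : Finset (Fin w) × Finset (Fin w), (((tuples Pl (Fin w)).filter fun r =>
          (∀ i, Nat.Coprime (r i) n) ∧ sprod r p.1 ≡ sprod r p.2 [MOD n]).card : ℝ)
      ≤ s * (C / n + 1 / (w : ℝ) ^ (symmDiff p.1 p.2).card) := by
    intro p
    by_cases hp : p.1 = p.2
    · have h1 : (((tuples Pl (Fin w)).filter fun r =>
          (∀ i, Nat.Coprime (r i) n) ∧ sprod r p.1 ≡ sprod r p.2 [MOD n]).card : ℝ) ≤ s := by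
        have := Finset.card_filter_le (tuples Pl (Fin w)) (fun r =>
          (∀ i, Nat.Coprime (r i) n) ∧ sprod r p.1 ≡ sprod r p.2 [MOD n])
        rw [sc_card_tuples] at this
        rw [hs]
        exact_mod_cast this
      have h2 : (1 : ℝ) / (w : ℝ) ^ (symmDiff p.1 p.2).card = 1 := by
        rw [hp, symmDiff_self]
        simp
      rw [h2]
      have h3 : 0 ≤ C / n := by positivity
      nlinarith
    · exact card_pair_collision_le Pl hP Z hZ w κ₀ u n hw hs1 hs2 hn hu p.1 p.2 hp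
  refine (Finset.sum_le_sum fun p _ => hterm p).trans ?_
  rw [← Finset.mul_sum, Finset.sum_add_distrib, Finset.sum_const, Finset.card_univ,
    Fintype.card_prod, Fintype.card_finset, Fintype.card_fin, nsmul_eq_mul]
  have h3 := sum_symmDiff_le w hw
  have h4 : ((2 ^ w * 2 ^ w : ℕ) : ℝ) = 4 ^ w := by
    push_cast
    rw [← mul_pow]
    norm_num
  rw [h4]
  have h5 : (2 : ℝ) ^ w ≤ 4 ^ w / n := by
    rw [le_div_iff₀ hn0]
    have h6 : (n : ℝ) ≤ 2 ^ w := by exact_mod_cast hn2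
    have h7 : (4 : ℝ) ^ w = 2 ^ w * 2 ^ w := by
      rw [← mul_pow]; norm_num
    rw [h7]
    have h8 : (0 : ℝ) ≤ 2 ^ w := by positivity
    nlinarith
  have h9 : (4 : ℝ) ^ w * (C / n) + ∑ p : Finset (Fin w) × Finset (Fin w),
      (1 : ℝ) / (w : ℝ) ^ (symmDiff p.1 p.2).card ≤ 4 ^ w * (3 + C) / n := by
    have : (4 : ℝ) ^ w * (3 + C) / n = 4 ^ w * (C / n) + 3 * (4 ^ w / n) := by ring
    rw [this]
    linarith
  calc s * ((4 : ℝ) ^ w * (C / n) + ∑ p : Finset (Fin w) × Finset (Fin w),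
      (1 : ℝ) / (w : ℝ) ^ (symmDiff p.1 p.2).card) ≤ s * (4 ^ w * (3 + C) / n) :=
        mul_le_mul_of_nonneg_left h9 hs0
    _ = s * 4 ^ w * (3 + C) / n := by ring

end Crest.Agent.EG
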