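/-
ROW 19 / S0025, project EG.  TASK II5 (file EG_Markov.lean).  Uses EG_SumColl.sum_coll_le.
-/
import Crest.Agent.EG_SumColl

set_option autoImplicit false

namespace Crest.Agent.EG

open Finset Nat

open Classical in
/-- **II5 (Markov + independence of the two halves of a copy).**
`#{(rA,rB) ∈ Pl^w × Pl^w : Bad w n} ≤ (3 + 2 u! κ₀^u)² / ⌊√n⌋ * s^(2w)`.

Proof.  With `E = ∑_{r units} coll (sprod r) n` (`≤ s^w 4^w K / n`, `K = 3 + 2 u! κ₀^u`, by `sum_coll_le`), `ν = Nat.sqrt n`: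
`16^w * #Bad ≤ ∑_{Bad} collA * collB * n * ν ≤ n ν ∑_{rA units} ∑_{rB units} collA collB = n ν E² ≤ n ν s^(2w) 16^w K² / n²`,
and `ν / n ≤ 1 / ν` since `ν² ≤ n` (`Nat.sqrt_le'`), `ν ≥ 1`. -/
theorem card_bad_le (Pl : Finset ℕ) (hP : ∀ q ∈ Pl, q.Prime) (Z : ℕ)
    (hZ : ∀ q ∈ Pl, q ≤ Z) (w κ₀ u n : ℕ) (hw : 1 ≤ w) (hs1 : Z ≤ κ₀ * Pl.card)
    (hs2 : w ^ 3 ≤ Pl.card) (hn : 0 < n) (hu : n ≤ Z ^ u) (hn2 : n ≤ 2 ^ w) :
    ((((tuples Pl (Fin w)) ×ˢ (tuples Pl (Fin w))).filter (Bad w n)).card : ℝ)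
      ≤ ((3 + 2 * (u ! : ℝ) * (κ₀ : ℝ) ^ u) ^ 2 / (Nat.sqrt n : ℝ))
          * (((tuples Pl (Fin w)) ×ˢ (tuples Pl (Fin w))).card : ℝ) := by
  set Ω := tuples Pl (Fin w) with hΩ
  set U := Ω.filter (fun r => ∀ i, Nat.Coprime (r i) n) with hU
  set K : ℝ := 3 + 2 * (u ! : ℝ) * (κ₀ : ℝ) ^ u with hK
  set s : ℝ := (Pl.card : ℝ) with hs
  set ν : ℝ := (Nat.sqrt n : ℝ) with hν
  have hE := sum_coll_le Pl hP Z hZ w κ₀ u n hw hs1 hs2 hn hu hn2
  rw [← hΩ, ← hU, ← hK, ← hs] at hE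
  set E : ℝ := ∑ r ∈ U, (coll (sprod r) n : ℝ) with hEdef
  have hE0 : 0 ≤ E := Finset.sum_nonneg (fun _ _ => Nat.cast_nonneg _)
  have hnpos : (0 : ℝ) < n := by exact_mod_cast hn
  have hν1 : (1 : ℝ) ≤ ν := by
    have : 1 ≤ Nat.sqrt n := Nat.sqrt_pos.2 hn
    rw [hν]; exact_mod_cast this
  have hνpos : (0 : ℝ) < ν := by linarith
  have hν2 : ν ^ 2 ≤ n := by
    have : Nat.sqrt n ^ 2 ≤ n := Nat.sqrt_le' n
    rw [hν]; exact_mod_cast this
  have hcardΩ : ((Ω ×ˢ Ω).card : ℝ) = s ^ w * s ^ w := by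
    rw [Finset.card_product, hΩ]
    unfold tuples
    rw [Fintype.card_piFinset_const]
    simp [hs]
  set Bd := (Ω ×ˢ Ω).filter (Bad w n) with hBd
  have hsub : Bd ⊆ U ×ˢ U := by
    intro x hx
    rw [hBd, Finset.mem_filter, Finset.mem_product] at hx
    rw [Finset.mem_product, hU, Finset.mem_filter, Finset.mem_filter]
    exact ⟨⟨hx.1.1, hx.2.1⟩, ⟨hx.1.2, hx.2.2.1⟩⟩
  have h1 : (16 : ℝ) ^ w * (Bd.card : ℝ) ≤ n * ν * E ^ 2 := by
    calc (16 : ℝ) ^ w * (Bd.card : ℝ) = ∑ _x ∈ Bd, (16 : ℝ) ^ w := by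
          rw [Finset.sum_const, nsmul_eq_mul, mul_comm]
      _ ≤ ∑ x ∈ Bd, (coll (sprod x.1) n : ℝ) * (coll (sprod x.2) n : ℝ) * n * ν := by
          apply Finset.sum_le_sum
          intro x hx
          rw [hBd, Finset.mem_filter] at hx
          have := hx.2.2.2.le
          have h2 : ((16 ^ w : ℕ) : ℝ) ≤
              ((coll (sprod x.1) n * coll (sprod x.2) n * n * Nat.sqrt n : ℕ) : ℝ) := by
            exact_mod_cast this
          push_cast at h2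
          exact h2
      _ ≤ ∑ x ∈ U ×ˢ U, (coll (sprod x.1) n : ℝ) * (coll (sprod x.2) n : ℝ) * n * ν := by
          apply Finset.sum_le_sum_of_subset_of_nonneg hsub
          intro x _ _
          positivity
      _ = n * ν * E ^ 2 := by
          rw [Finset.sum_product, hEdef, sq, Finset.sum_mul_sum, Finset.mul_sum]
          apply Finset.sum_congr rfl
          intro a _
          rw [Finset.mul_sum]
          apply Finset.sum_congr rfl
          intro b _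
          ring
  have h2 : E ^ 2 ≤ (s ^ w * 4 ^ w * K / n) ^ 2 := pow_le_pow_left₀ hE0 hE 2
  have h16 : (0 : ℝ) < 16 ^ w := by positivity
  have h4 : ((4 : ℝ) ^ w) ^ 2 = 16 ^ w := by
    rw [← pow_mul, mul_comm, pow_mul]; norm_num
  have h3 : (16 : ℝ) ^ w * (Bd.card : ℝ) ≤ 16 ^ w * (K ^ 2 / ν * (s ^ w * s ^ w)) := by
    calc (16 : ℝ) ^ w * (Bd.card : ℝ) ≤ n * ν * E ^ 2 := h1
      _ ≤ n * ν * (s ^ w * 4 ^ w * K / n) ^ 2 := by
          apply mul_le_mul_of_nonneg_left h2; positivity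
      _ = 16 ^ w * (K ^ 2 * (s ^ w * s ^ w)) * (ν / n) := by
          rw [← h4]; field_simp
      _ ≤ 16 ^ w * (K ^ 2 * (s ^ w * s ^ w)) * (1 / ν) := by
          apply mul_le_mul_of_nonneg_left _ (by positivity)
          rw [div_le_div_iff₀ hnpos hνpos]
          nlinarith
      _ = 16 ^ w * (K ^ 2 / ν * (s ^ w * s ^ w)) := by field_simp
  rw [hcardΩ]
  exact le_of_mul_le_mul_left h3 h16

end Crest.Agent.EG
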