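/-
ROW 19 / S0025, project EG.  TASK I3 (file EG_OrderSum.lean).  Independent of everything else.
-/
import Mathlib

set_option autoImplicit false

namespace Crest.Agent.EG

open Finset

/-- `∑_{n₁ < n ≤ M} 1/n² ≤ 1/n₁` (telescoping `1/n² ≤ 1/(n-1) - 1/n`). -/
theorem sum_inv_sq_le (n₁ M : ℕ) (hn₁ : 1 ≤ n₁) :
    ∑ n ∈ Finset.Ioc n₁ M, (1 : ℝ) / (n : ℝ) ^ 2 ≤ 1 / (n₁ : ℝ) := by
  rcases le_total M n₁ with h | h
  · rw [Finset.Ioc_eq_empty_of_le h]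
    simp
  · have key : ∑ n ∈ Finset.Ioc n₁ M, (1 : ℝ) / (n : ℝ) ^ 2 ≤ 1 / (n₁ : ℝ) - 1 / (M : ℝ) := by
      induction M, h using Nat.le_induction with
      | base => simp
      | succ k hk ih =>
        rw [Finset.sum_Ioc_succ_top hk]
        have hk0 : (0 : ℝ) < (k : ℝ) := by exact_mod_cast (lt_of_lt_of_le hn₁ hk)
        have h1 : (1 : ℝ) / (((k + 1 : ℕ) : ℝ)) ^ 2 ≤ 1 / (k : ℝ) - 1 / ((k + 1 : ℕ) : ℝ) := by
          push_cast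
          rw [div_sub_div _ _ hk0.ne' (by positivity), div_le_div_iff₀ (by positivity) (by positivity)]
          nlinarith
        linarith
    have h0 : (0 : ℝ) ≤ 1 / (M : ℝ) := by positivity
    linarith

/-- `1/⌊√n⌋^6 ≤ 64/n³` for `n ≥ 1`  (`n < (ν+1)² ≤ 4ν²`, `Nat.lt_succ_sqrt'`/`Nat.sqrt_lt'`). -/
theorem inv_sqrt_pow_six_le (n : ℕ) (hn : 1 ≤ n) :
    (1 : ℝ) / (Nat.sqrt n : ℝ) ^ 6 ≤ 64 / (n : ℝ) ^ 3 := by
  have hν : 1 ≤ Nat.sqrt n := Nat.sqrt_pos.2 hn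
  have h1 : n < (Nat.sqrt n + 1) * (Nat.sqrt n + 1) := Nat.lt_succ_sqrt n
  have h2 : n ≤ 4 * (Nat.sqrt n) ^ 2 := by nlinarith
  have h2' : (n : ℝ) ≤ 4 * (Nat.sqrt n : ℝ) ^ 2 := by exact_mod_cast h2
  have hν' : (0 : ℝ) < (Nat.sqrt n : ℝ) := by exact_mod_cast hν
  have hn' : (0 : ℝ) < (n : ℝ) := by exact_mod_cast hn
  rw [div_le_div_iff₀ (by positivity) (by positivity)]
  have h3 : (n : ℝ) ^ 3 ≤ (4 * (Nat.sqrt n : ℝ) ^ 2) ^ 3 := pow_le_pow_left₀ hn'.le h2' 3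
  calc 1 * (n : ℝ) ^ 3 = (n : ℝ) ^ 3 := one_mul _
    _ ≤ (4 * (Nat.sqrt n : ℝ) ^ 2) ^ 3 := h3
    _ = 64 * (Nat.sqrt n : ℝ) ^ 6 := by ring

/-- **I3.**  If all divisors `≠ 1` of `N` exceed `n₁ > 64`, then
`∑_{ξ ≠ 0} 1/⌊√(ord ξ)⌋^6 < 1`.

Proof.  `ord ξ ∣ N` (`addOrderOf_dvd_card`, `ZMod.card`), `ord ξ ≠ 1` for `ξ ≠ 0` (`AddMonoid.addOrderOf_eq_one_iff`),
the number of `ξ` of order `m` is `φ(m) ≤ m` (`IsAddCyclic.card_addOrderOf_eq_totient`, `Nat.totient_le`), so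
(`Finset.sum_fiberwise_of_maps_to` / `Finset.sum_comp`) the sum is
`≤ ∑_{m ∈ Ioc n₁ N} m * 64 / m³ = 64 ∑ 1/m² ≤ 64/n₁ < 1`. -/
theorem order_sum_lt_one (N n₁ : ℕ) [NeZero N] (hn₁ : 64 < n₁)
    (hdiv : ∀ m, m ∣ N → m ≠ 1 → n₁ < m) :
    ∑ ξ ∈ (Finset.univ.erase (0 : ZMod N)), (1 : ℝ) / (Nat.sqrt (addOrderOf ξ) : ℝ) ^ 6 < 1 := by
  classical
  have hNpos : 0 < N := Nat.pos_of_ne_zero (NeZero.ne N)
  have hord : ∀ ξ : ZMod N, addOrderOf ξ ∣ N := by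
    intro ξ
    have := addOrderOf_dvd_card (x := ξ)
    rwa [ZMod.card] at this
  have hmaps : ∀ ξ ∈ (Finset.univ.erase (0 : ZMod N)), addOrderOf ξ ∈ Finset.Ioc n₁ N := by
    intro ξ hξ
    have hξ0 : ξ ≠ 0 := Finset.ne_of_mem_erase hξ
    have h1 : addOrderOf ξ ≠ 1 := fun h => hξ0 (AddMonoid.addOrderOf_eq_one_iff.1 h)
    exact Finset.mem_Ioc.2 ⟨hdiv _ (hord ξ) h1, Nat.le_of_dvd hNpos (hord ξ)⟩
  have step1 : ∑ ξ ∈ (Finset.univ.erase (0 : ZMod N)), (1 : ℝ) / (Nat.sqrt (addOrderOf ξ) : ℝ) ^ 6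
      ≤ ∑ ξ ∈ (Finset.univ.erase (0 : ZMod N)), (64 : ℝ) / (addOrderOf ξ : ℝ) ^ 3 := by
    apply Finset.sum_le_sum
    intro ξ hξ
    have := (Finset.mem_Ioc.1 (hmaps ξ hξ)).1
    exact inv_sqrt_pow_six_le _ (by omega)
  have step2 : ∑ ξ ∈ (Finset.univ.erase (0 : ZMod N)), (64 : ℝ) / (addOrderOf ξ : ℝ) ^ 3
      = ∑ m ∈ Finset.Ioc n₁ N, ∑ ξ ∈ (Finset.univ.erase (0 : ZMod N)) with addOrderOf ξ = m,
          (64 : ℝ) / (addOrderOf ξ : ℝ) ^ 3 :=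
    (Finset.sum_fiberwise_of_maps_to hmaps _).symm
  have step3 : ∀ m ∈ Finset.Ioc n₁ N,
      ∑ ξ ∈ (Finset.univ.erase (0 : ZMod N)) with addOrderOf ξ = m,
          (64 : ℝ) / (addOrderOf ξ : ℝ) ^ 3 ≤ 64 * ((1 : ℝ) / (m : ℝ) ^ 2) := by
    intro m hm
    have hm0 : 0 < m := by have := (Finset.mem_Ioc.1 hm).1; omega
    have hm0' : (0 : ℝ) < (m : ℝ) := by exact_mod_cast hm0
    have e1 : ∑ ξ ∈ (Finset.univ.erase (0 : ZMod N)) with addOrderOf ξ = m,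
          (64 : ℝ) / (addOrderOf ξ : ℝ) ^ 3
        = (((Finset.univ.erase (0 : ZMod N)).filter fun ξ => addOrderOf ξ = m).card : ℝ)
            * ((64 : ℝ) / (m : ℝ) ^ 3) := by
      rw [← nsmul_eq_mul, ← Finset.sum_const]
      apply Finset.sum_congr rfl
      intro ξ hξ
      rw [(Finset.mem_filter.1 hξ).2]
    have hcard : ((Finset.univ.erase (0 : ZMod N)).filter fun ξ => addOrderOf ξ = m).card ≤ m := by
      have hsub : ((Finset.univ.erase (0 : ZMod N)).filter fun ξ => addOrderOf ξ = m)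
          ⊆ (Finset.univ.filter fun ξ : ZMod N => addOrderOf ξ = m) :=
        Finset.filter_subset_filter _ (Finset.erase_subset _ _)
      refine (Finset.card_le_card hsub).trans ?_
      by_cases hmN : m ∣ N
      · have hmN' : m ∣ Fintype.card (ZMod N) := by rwa [ZMod.card]
        rw [IsAddCyclic.card_addOrderOf_eq_totient hmN']
        exact Nat.totient_le m
      · have : (Finset.univ.filter fun ξ : ZMod N => addOrderOf ξ = m) = ∅ := by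
          apply Finset.filter_eq_empty_iff.2
          intro ξ _ h
          exact hmN (h ▸ hord ξ)
        rw [this]
        simp
    have hcard' : (((Finset.univ.erase (0 : ZMod N)).filter fun ξ => addOrderOf ξ = m).card : ℝ)
        ≤ (m : ℝ) := by exact_mod_cast hcard
    rw [e1]
    calc _ ≤ (m : ℝ) * ((64 : ℝ) / (m : ℝ) ^ 3) :=
          mul_le_mul_of_nonneg_right hcard' (by positivity)
      _ = 64 * ((1 : ℝ) / (m : ℝ) ^ 2) := by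
          field_simp
  have hn₁' : (64 : ℝ) < (n₁ : ℝ) := by exact_mod_cast hn₁
  calc ∑ ξ ∈ (Finset.univ.erase (0 : ZMod N)), (1 : ℝ) / (Nat.sqrt (addOrderOf ξ) : ℝ) ^ 6
      ≤ ∑ m ∈ Finset.Ioc n₁ N, 64 * ((1 : ℝ) / (m : ℝ) ^ 2) := by
        refine step1.trans ?_
        rw [step2]
        exact Finset.sum_le_sum step3
    _ = 64 * ∑ m ∈ Finset.Ioc n₁ N, (1 : ℝ) / (m : ℝ) ^ 2 := by rw [Finset.mul_sum]
    _ ≤ 64 * (1 / (n₁ : ℝ)) := by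
        apply mul_le_mul_of_nonneg_left (sum_inv_sq_le n₁ N (by omega)) (by norm_num)
    _ < 1 := by
        rw [mul_one_div, div_lt_one (by linarith)]
        exact hn₁'

end Crest.Agent.EG
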