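/-
ROW 19 / S0025, project EG.  TASK II6 (file EG_Union.lean).  Independent of everything else.
-/
import Mathlib

set_option autoImplicit false

namespace Crest.Agent.EG

open Finset

open Classical in
/-- **II6 (union bound over `R` independent copies).**
If the fraction of `x ∈ Ω` that are bad at `n` is `≤ p n` and `∑_{n ∈ I} (p n)^R < 1`, then there are `R` elements of `Ω` such that
for every `n ∈ I` at least one of them is not bad at `n`.

Proof.  In `Fintype.piFinset (fun _ : Fin R => Ω)` (card `= (#Ω)^R`, `Fintype.card_piFinset_const`) the set of `f` with `∀ m, bad n (f m)` is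
`Fintype.piFinset (fun _ => Ω.filter (bad n))`, of card `(#bad n)^R ≤ (p n)^R (#Ω)^R`.  The union over `n ∈ I` has card
`≤ (∑ (p n)^R) (#Ω)^R < (#Ω)^R` (`Finset.card_biUnion_le`), so some `f` is outside. -/
theorem exists_good_family {Ω₀ : Type*} [DecidableEq Ω₀] (Ω : Finset Ω₀) (hΩ : Ω.Nonempty) (R : ℕ)
    (I : Finset ℕ) (bad : ℕ → Ω₀ → Prop) (p : ℕ → ℝ) (hp0 : ∀ n ∈ I, 0 ≤ p n)
    (hbad : ∀ n ∈ I, ((Ω.filter (bad n)).card : ℝ) ≤ p n * Ω.card)
    (hsum : ∑ n ∈ I, p n ^ R < 1) :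
    ∃ f : Fin R → Ω₀, (∀ m, f m ∈ Ω) ∧ ∀ n ∈ I, ∃ m, ¬ bad n (f m) := by
  set All : Finset (Fin R → Ω₀) := Fintype.piFinset (fun _ : Fin R => Ω) with hAll
  set Bd : ℕ → Finset (Fin R → Ω₀) := fun n => Fintype.piFinset (fun _ : Fin R => Ω.filter (bad n))
    with hBd
  have hcardAll : (All.card : ℝ) = (Ω.card : ℝ) ^ R := by
    rw [hAll, Fintype.card_piFinset_const]; simp
  have hcardBd : ∀ n ∈ I, ((Bd n).card : ℝ) ≤ p n ^ R * (Ω.card : ℝ) ^ R := by
    intro n hn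
    have h1 : ((Bd n).card : ℝ) = ((Ω.filter (bad n)).card : ℝ) ^ R := by
      simp only [hBd]
      rw [Fintype.card_piFinset_const]; simp
    rw [h1, ← mul_pow]
    exact pow_le_pow_left₀ (Nat.cast_nonneg _) (hbad n hn) R
  have hpos : (0 : ℝ) < (Ω.card : ℝ) ^ R := by
    have : (0 : ℝ) < (Ω.card : ℝ) := by exact_mod_cast hΩ.card_pos
    positivity
  have hlt : ((I.biUnion Bd).card : ℝ) < (All.card : ℝ) := by
    calc ((I.biUnion Bd).card : ℝ) ≤ ((∑ n ∈ I, (Bd n).card : ℕ) : ℝ) := by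
          exact_mod_cast Finset.card_biUnion_le
      _ = ∑ n ∈ I, ((Bd n).card : ℝ) := by push_cast; rfl
      _ ≤ ∑ n ∈ I, p n ^ R * (Ω.card : ℝ) ^ R := Finset.sum_le_sum hcardBd
      _ = (∑ n ∈ I, p n ^ R) * (Ω.card : ℝ) ^ R := by rw [Finset.sum_mul]
      _ < 1 * (Ω.card : ℝ) ^ R := by
          exact mul_lt_mul_of_pos_right hsum hpos
      _ = (All.card : ℝ) := by rw [one_mul, hcardAll]
  have hlt' : (I.biUnion Bd).card < All.card := by exact_mod_cast hlt
  obtain ⟨f, hfAll, hfnot⟩ : ∃ f ∈ All, f ∉ I.biUnion Bd := by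
    by_contra hcon
    push Not at hcon
    exact absurd (Finset.card_le_card (fun f hf => hcon f hf)) (not_le.mpr hlt')
  have hfΩ : ∀ m, f m ∈ Ω := by
    intro m
    exact (Fintype.mem_piFinset.mp hfAll) m
  refine ⟨f, hfΩ, ?_⟩
  intro n hn
  by_contra hcon
  push Not at hcon
  apply hfnot
  rw [Finset.mem_biUnion]
  refine ⟨n, hn, ?_⟩
  simp only [hBd]
  rw [Fintype.mem_piFinset]
  intro m
  exact Finset.mem_filter.mpr ⟨hfΩ m, hcon m⟩

end Crest.Agent.EG
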