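/-
ROW 19 / S0025, project EG.  TASK II7 (file EG_ExistsPrimes.lean).
Uses EG_Markov.card_bad_le, EG_Union.exists_good_family, EG_OrderSum.(sum_inv_sq_le, inv_sqrt_pow_six_le).
-/
import Crest.Agent.EG_Markov
import Crest.Agent.EG_Union
import Crest.Agent.EG_OrderSum

set_option autoImplicit false

namespace Crest.Agent.EG

open Finset Nat

/-- **II7 (existence of 12 copies, one of them good at every modulus).**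

Proof.  `Ω = Pl^w ×ˢ Pl^w` (nonempty since `#Pl ≥ w³ ≥ 1`), `I = Ioc n₁ (2^w)`, `bad = Bad w`, `R = 12`.  For `n ∈ I` pick `u = u n` from `KI`
and put `p n = (3 + 2 u! κ₀^u)² / ν`, `ν = Nat.sqrt n ≥ 1`.  `card_bad_le` gives `hbad`.  By `KI`, `(p n)^12 = ((3+2u!κ₀^u)^4)^6 / ν^12 ≤ ν^6/ν^12 = 1/ν^6 ≤ 64/n³
≤ 64/(n₁ n²)`, hence `∑ (p n)^12 ≤ (64/n₁) ∑ 1/n² ≤ 64/n₁² < 1`  (or simply `64/n³ ≤ ... `, any crude route). -/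
theorem exists_primes (Pl : Finset ℕ) (hP : ∀ q ∈ Pl, q.Prime) (Z : ℕ)
    (hZ : ∀ q ∈ Pl, q ≤ Z) (w κ₀ n₁ : ℕ) (hw : 1 ≤ w) (hs1 : Z ≤ κ₀ * Pl.card)
    (hs2 : w ^ 3 ≤ Pl.card) (hn₁ : 64 < n₁)
    (KI : ∀ n, n₁ < n → n ≤ 2 ^ w → ∃ u, n ≤ Z ^ u ∧ (3 + 2 * u ! * κ₀ ^ u) ^ 4 ≤ Nat.sqrt n) :
    ∃ f : Fin 12 → (Fin w → ℕ) × (Fin w → ℕ),
      (∀ m i, (f m).1 i ∈ Pl ∧ (f m).2 i ∈ Pl) ∧
      ∀ n, n₁ < n → n ≤ 2 ^ w → ∃ m, ¬ Bad w n (f m) := by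
  classical
  -- the choice of `u`
  let U : ℕ → ℕ := fun n => if h : n₁ < n ∧ n ≤ 2 ^ w then (KI n h.1 h.2).choose else 0
  have hU : ∀ n, n₁ < n → n ≤ 2 ^ w →
      n ≤ Z ^ (U n) ∧ (3 + 2 * (U n) ! * κ₀ ^ (U n)) ^ 4 ≤ Nat.sqrt n := by
    intro n h1 h2
    have h : n₁ < n ∧ n ≤ 2 ^ w := ⟨h1, h2⟩
    have : U n = (KI n h.1 h.2).choose := by simp only [U, dif_pos h]
    rw [this]
    exact (KI n h.1 h.2).choose_spec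
  let p : ℕ → ℝ := fun n => (3 + 2 * ((U n) ! : ℝ) * (κ₀ : ℝ) ^ (U n)) ^ 2 / (Nat.sqrt n : ℝ)
  have hPlne : Pl.Nonempty := by
    rw [← Finset.card_pos]
    have : 1 ≤ w ^ 3 := Nat.one_le_pow _ _ hw
    omega
  have hΩ : ((tuples Pl (Fin w)) ×ˢ (tuples Pl (Fin w))).Nonempty := by
    have h1 : (tuples Pl (Fin w)).Nonempty := by
      unfold tuples
      exact Fintype.piFinset_nonempty.2 (fun _ => hPlne)
    exact h1.product h1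
  have hn₁R : (64 : ℝ) < (n₁ : ℝ) := by exact_mod_cast hn₁
  have hn₁pos : (0 : ℝ) < (n₁ : ℝ) := by linarith
  have hterm : ∀ n ∈ Finset.Ioc n₁ (2 ^ w), p n ^ 12 ≤ (64 / (n₁ : ℝ)) * (1 / (n : ℝ) ^ 2) := by
    intro n hn
    rw [Finset.mem_Ioc] at hn
    obtain ⟨_, hK⟩ := hU n hn.1 hn.2
    have hn1 : 1 ≤ n := by omega
    have hνpos : 0 < Nat.sqrt n := Nat.sqrt_pos.2 hn1
    have hνR : (0 : ℝ) < (Nat.sqrt n : ℝ) := by exact_mod_cast hνpos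
    have hKR : (3 + 2 * ((U n) ! : ℝ) * (κ₀ : ℝ) ^ (U n)) ^ 4 ≤ (Nat.sqrt n : ℝ) := by
      exact_mod_cast hK
    have hK0 : (0 : ℝ) ≤ 3 + 2 * ((U n) ! : ℝ) * (κ₀ : ℝ) ^ (U n) := by positivity
    have h1 : p n ^ 12 ≤ 1 / (Nat.sqrt n : ℝ) ^ 6 := by
      have e1 : p n ^ 12 = ((3 + 2 * ((U n) ! : ℝ) * (κ₀ : ℝ) ^ (U n)) ^ 4) ^ 6 / (Nat.sqrt n : ℝ) ^ 12 := by
        simp only [p]
        rw [div_pow, ← pow_mul, ← pow_mul]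
      rw [e1, div_le_div_iff₀ (by positivity) (by positivity), one_mul]
      calc ((3 + 2 * ((U n) ! : ℝ) * (κ₀ : ℝ) ^ (U n)) ^ 4) ^ 6 * (Nat.sqrt n : ℝ) ^ 6
          ≤ ((Nat.sqrt n : ℝ)) ^ 6 * (Nat.sqrt n : ℝ) ^ 6 := by
            gcongr
        _ = (Nat.sqrt n : ℝ) ^ 12 := by ring
    have h2 := inv_sqrt_pow_six_le n hn1
    have hnR : (0 : ℝ) < (n : ℝ) := by exact_mod_cast hn1
    have hlt : (n₁ : ℝ) ≤ (n : ℝ) := by exact_mod_cast hn.1.le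
    have h3 : 64 / (n : ℝ) ^ 3 ≤ (64 / (n₁ : ℝ)) * (1 / (n : ℝ) ^ 2) := by
      have e3 : 64 / (n : ℝ) ^ 3 = (64 / (n : ℝ)) * (1 / (n : ℝ) ^ 2) := by
        field_simp
      rw [e3]
      gcongr
    exact h1.trans (h2.trans h3)
  have hsum : ∑ n ∈ Finset.Ioc n₁ (2 ^ w), p n ^ 12 < 1 := by
    calc ∑ n ∈ Finset.Ioc n₁ (2 ^ w), p n ^ 12
        ≤ ∑ n ∈ Finset.Ioc n₁ (2 ^ w), (64 / (n₁ : ℝ)) * (1 / (n : ℝ) ^ 2) := Finset.sum_le_sum hterm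
      _ = (64 / (n₁ : ℝ)) * ∑ n ∈ Finset.Ioc n₁ (2 ^ w), (1 / (n : ℝ) ^ 2) := by rw [Finset.mul_sum]
      _ ≤ (64 / (n₁ : ℝ)) * (1 / (n₁ : ℝ)) := by
          have := sum_inv_sq_le n₁ (2 ^ w) (by omega)
          gcongr
      _ < 1 := by
          have h1 : 64 / (n₁ : ℝ) < 1 := by rw [div_lt_one hn₁pos]; exact hn₁R
          have h2 : 1 / (n₁ : ℝ) < 1 := by rw [div_lt_one hn₁pos]; linarith
          have h3 : (0 : ℝ) < 64 / (n₁ : ℝ) := by positivity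
          have h4 : (0 : ℝ) < 1 / (n₁ : ℝ) := by positivity
          nlinarith
  obtain ⟨f, hfΩ, hf⟩ := exists_good_family ((tuples Pl (Fin w)) ×ˢ (tuples Pl (Fin w))) hΩ 12
    (Finset.Ioc n₁ (2 ^ w)) (Bad w) p
    (fun n _ => by simp only [p]; positivity)
    (fun n hn => by
      rw [Finset.mem_Ioc] at hn
      exact card_bad_le Pl hP Z hZ w κ₀ (U n) n hw hs1 hs2 (by omega) (hU n hn.1 hn.2).1 hn.2)
    hsum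
  refine ⟨f, ?_, ?_⟩
  · intro m i
    have h := Finset.mem_product.1 (hfΩ m)
    exact ⟨Fintype.mem_piFinset.1 h.1 i, Fintype.mem_piFinset.1 h.2 i⟩
  · intro n h1 h2
    exact hf n (Finset.mem_Ioc.2 ⟨h1, h2⟩)

end Crest.Agent.EG
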