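/-
ROW 19 / S0025, project EG.  TASK N1 (file EG_Num.lean).  Needs only EG_Defs.  Pure "polynomial ≤ exponential" numerics for `h ≥ h0 = 200`.
All statements were checked numerically (they hold from `h = 138` on).
-/
import Crest.Agent.EG_Defs

set_option autoImplicit false

namespace Crest.Agent.EG

open Finset Nat

/-- threshold for `h` -/
def h0 : ℕ := 200

/-- master inequality.  E.g. `Nat.le_induction`: base `(20000)^12 ≤ 2^200` by `norm_num`; step `(100(h+1))^12 ≤ 2 (100 h)^12` because `(1+1/h)^12 ≤ 2` for `h ≥ 200`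
(e.g. `(h+1)^12 ≤ 2 h^12` from `200 (h+1) ≤ 201 h` and `201^12 ≤ 2 * 200^12`). -/
theorem master (h : ℕ) (hh : h0 ≤ h) : (100 * h) ^ 12 ≤ 2 ^ h := by
  induction h, hh using Nat.le_induction with
  | base => norm_num [h0]
  | succ n hn ih =>
    have h1 : 200 * (n + 1) ≤ 201 * n := by unfold h0 at hn; omega
    have h2 : (200 * (n + 1)) ^ 12 ≤ (201 * n) ^ 12 := Nat.pow_le_pow_left h1 12
    have h3 : (201 : ℕ) ^ 12 ≤ 2 * 200 ^ 12 := by norm_num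
    have h4 : 200 ^ 12 * (100 * (n + 1)) ^ 12 ≤ 200 ^ 12 * (2 * (100 * n) ^ 12) := by
      calc 200 ^ 12 * (100 * (n + 1)) ^ 12 = 100 ^ 12 * (200 * (n + 1)) ^ 12 := by ring
        _ ≤ 100 ^ 12 * (201 * n) ^ 12 := Nat.mul_le_mul_left _ h2
        _ = 201 ^ 12 * (100 * n) ^ 12 := by ring
        _ ≤ (2 * 200 ^ 12) * (100 * n) ^ 12 := Nat.mul_le_mul_right _ h3
        _ = 200 ^ 12 * (2 * (100 * n) ^ 12) := by ring
    have h5 := Nat.le_of_mul_le_mul_left h4 (by positivity)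
    calc (100 * (n + 1)) ^ 12 ≤ 2 * (100 * n) ^ 12 := h5
      _ ≤ 2 * 2 ^ n := by omega
      _ = 2 ^ (n + 1) := by ring

private theorem num_X (h : ℕ) (hh : h0 ≤ h) : 20000 ≤ 100 * h := by unfold h0 at hh; omega

private theorem num_pow (h : ℕ) (hh : h0 ≤ h) (a : ℕ) (ha : a ≤ 12) : (100 * h) ^ a ≤ 2 ^ h :=
  (Nat.pow_le_pow_right (by have := num_X h hh; omega) ha).trans (master h hh)

/-- `c * X^a ≤ X^(a+1)` if `c ≤ X`. -/
private theorem num_step (X c a : ℕ) (hc : c ≤ X) : c * X ^ a ≤ X ^ (a + 1) := by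
  rw [pow_succ, mul_comm]; exact Nat.mul_le_mul_left _ hc

/-- `4 (3+80h)^8 ≤ 4 (83 h)^8 ≤ (100 h)^8`. -/
theorem n1_le (h : ℕ) (hh : 1 ≤ h) : n1 h ≤ (100 * h) ^ 8 := by
  unfold n1 kap
  have h1 : 3 + 2 * (40 * h) ≤ 83 * h := by omega
  calc 4 * (3 + 2 * (40 * h)) ^ 8 ≤ 4 * (83 * h) ^ 8 :=
        Nat.mul_le_mul_left _ (Nat.pow_le_pow_left h1 8)
    _ = (4 * 83 ^ 8) * h ^ 8 := by ring
    _ ≤ 100 ^ 8 * h ^ 8 := Nat.mul_le_mul_right _ (by norm_num)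
    _ = (100 * h) ^ 8 := by ring

theorem n1_gt (h : ℕ) : 64 < n1 h := by
  unfold n1
  have h1 : 3 ^ 8 ≤ (3 + 2 * kap h) ^ 8 := Nat.pow_le_pow_left (by omega) 8
  have h2 : (3 : ℕ) ^ 8 = 6561 := by norm_num
  omega

theorem two_n1_le (h : ℕ) (hh : h0 ≤ h) : 2 * n1 h ≤ 2 ^ h := by
  have hX := num_X h hh
  have h1 := n1_le h (by unfold h0 at hh; omega)
  calc 2 * n1 h ≤ 2 * (100 * h) ^ 8 := Nat.mul_le_mul_left _ h1
    _ ≤ (100 * h) ^ 9 := num_step _ _ _ (by omega)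
    _ ≤ 2 ^ h := num_pow h hh 9 (by norm_num)

/-- `2 n₁ + 48 w + 4 ≤ 64 w`. -/
theorem HH_le (h : ℕ) (hh : h0 ≤ h) : HH h ≤ 2 ^ (ee h + 1) := by
  have h1 := two_n1_le h hh
  have h2 : 1 ≤ 2 ^ h := Nat.one_le_two_pow
  unfold HH ee ww
  have h3 : 2 ^ (h + 5 + 1) = 64 * 2 ^ h := by ring
  rw [h3]
  omega

theorem HH_le_ZZ (h : ℕ) (hh : h0 ≤ h) : HH h ≤ ZZ h := by
  refine (HH_le h hh).trans ?_
  unfold ZZ ee
  exact Nat.pow_le_pow_right (by norm_num) (by unfold h0 at hh; omega)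

theorem two_n1_lt_HH (h : ℕ) : 2 * n1 h < HH h ∧ 24 * ww h + 1 < HH h := by
  unfold HH
  constructor <;> omega

/-- exponent bookkeeping for Part B. -/
theorem a0_ineq (h : ℕ) (hh : h0 ≤ h) :
    (2 * n1 h + h + 6) * (2 * h + 8) + 2 * h + 8 ≤ 2 ^ (h - 1) := by
  have hX := num_X h hh
  have h1 := n1_le h (by unfold h0 at hh; omega)
  have hh' : 200 ≤ h := hh
  set X := 100 * h with hXdef
  have hX8 : X ≤ X ^ 8 := by
    calc X = X ^ 1 := (pow_one X).symm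
      _ ≤ X ^ 8 := Nat.pow_le_pow_right (by omega) (by norm_num)
  have hX9 : X ≤ X ^ 9 := by
    calc X = X ^ 1 := (pow_one X).symm
      _ ≤ X ^ 9 := Nat.pow_le_pow_right (by omega) (by norm_num)
  have a1 : 2 * n1 h + h + 6 ≤ 3 * X ^ 8 := by omega
  have a2 : 2 * h + 8 ≤ X := by omega
  have a3 : (2 * n1 h + h + 6) * (2 * h + 8) ≤ 3 * X ^ 9 := by
    calc (2 * n1 h + h + 6) * (2 * h + 8) ≤ (3 * X ^ 8) * X := Nat.mul_le_mul a1 a2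
      _ = 3 * X ^ 9 := by ring
  have a4 : 8 * X ^ 9 ≤ X ^ 10 := num_step _ _ _ (by omega)
  have a5 : X ^ 10 ≤ 2 ^ h := num_pow h hh 10 (by norm_num)
  have e1 : 2 ^ h = 2 * 2 ^ (h - 1) := by
    obtain ⟨m, rfl⟩ : ∃ m, h = m + 1 := ⟨h - 1, by omega⟩
    simp [pow_succ, mul_comm]
  omega

/-- `primorial_le_4_pow`, `24 w + 3 ≤ 32 w = 2^(h+5)`. -/
theorem WW_le (h : ℕ) : WW h ≤ 2 ^ (2 * n1 h + h + 6) := by
  unfold WW QQ ww
  have h1 : primorial (n1 h) ≤ 4 ^ n1 h := primorial_le_four_pow _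
  have h2 : 1 ≤ 2 ^ h := Nat.one_le_two_pow
  have h3 : 24 * 2 ^ h + 3 ≤ 64 * 2 ^ h := by omega
  calc primorial (n1 h) * (24 * 2 ^ h + 3) ≤ 4 ^ n1 h * (64 * 2 ^ h) := Nat.mul_le_mul h1 h3
    _ = 2 ^ (2 * n1 h + h + 6) := by
      rw [show (4 : ℕ) = 2 ^ 2 by norm_num, ← pow_mul]; ring

theorem two_le_WW (h : ℕ) : 2 ≤ WW h := by
  unfold WW QQ
  have h1 : 1 ≤ primorial (n1 h) := primorial_pos _
  calc 2 ≤ 1 * (24 * ww h + 3) := by omega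
    _ ≤ primorial (n1 h) * (24 * ww h + 3) := Nat.mul_le_mul_right _ h1

/-- exponents: `2 n₁ (h+5) + 480 h w + 143 (20 h + 1) ≤ 500 h w`. -/
theorem V_exp (h : ℕ) (hh : h0 ≤ h) :
    4 ^ (n1 h * ee h) * (ZZ h) ^ (24 * ww h) * (2 * ZZ h) ^ 143 ≤ 2 ^ (500 * h * 2 ^ h) := by
  have hX := num_X h hh
  have h1 := n1_le h (by unfold h0 at hh; omega)
  have hh' : 200 ≤ h := hh
  have key : 2 * (n1 h * (h + 5)) + 20 * h * (24 * 2 ^ h) + (20 * h + 1) * 143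
      ≤ 500 * h * 2 ^ h := by
    set X := 100 * h with hXdef
    have b1 : n1 h * (h + 5) ≤ X ^ 9 := by
      calc n1 h * (h + 5) ≤ X ^ 8 * X := Nat.mul_le_mul h1 (by omega)
        _ = X ^ 9 := by ring
    have b2 : (20 * h + 1) * 143 ≤ X ^ 9 := by
      calc (20 * h + 1) * 143 ≤ X * X := Nat.mul_le_mul (by omega) (by omega)
        _ = X ^ 2 := by ring
        _ ≤ X ^ 9 := Nat.pow_le_pow_right (by omega) (by norm_num)
    have b3 : 3 * X ^ 9 ≤ X ^ 10 := num_step _ _ _ (by omega)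
    have b4 : X ^ 10 ≤ 2 ^ h := num_pow h hh 10 (by norm_num)
    have b5 : 2 ^ h ≤ 20 * h * 2 ^ h := Nat.le_mul_of_pos_left _ (by omega)
    have b6 : 20 * h * (24 * 2 ^ h) + 20 * h * 2 ^ h = 500 * h * 2 ^ h := by ring
    omega
  unfold ZZ ee ww
  calc 4 ^ (n1 h * (h + 5)) * (2 ^ (20 * h)) ^ (24 * 2 ^ h) * (2 * 2 ^ (20 * h)) ^ 143
      = 2 ^ (2 * (n1 h * (h + 5)) + 20 * h * (24 * 2 ^ h) + (20 * h + 1) * 143) := by
        rw [show (4 : ℕ) = 2 ^ 2 by norm_num, ← pow_mul, ← pow_mul,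
          show 2 * 2 ^ (20 * h) = 2 ^ (20 * h + 1) by ring, ← pow_mul, ← pow_add, ← pow_add]
    _ ≤ 2 ^ (500 * h * 2 ^ h) := Nat.pow_le_pow_right (by norm_num) key

theorem pool_aux1 (h : ℕ) (hh : h0 ≤ h) : 80 * h + 40 * h * HH h ≤ ZZ h := by
  have hX := num_X h hh
  have hh' : 200 ≤ h := hh
  have h1 := HH_le h hh
  have h2 : 100 * h ≤ 2 ^ h := by simpa using num_pow h hh 1 (by norm_num)
  have h3 : 1 ≤ 2 ^ (ee h + 1) := Nat.one_le_two_pow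
  unfold ZZ
  calc 80 * h + 40 * h * HH h ≤ 2 ^ h * 2 ^ (ee h + 1) + 2 ^ h * 2 ^ (ee h + 1) := by
        refine Nat.add_le_add ?_ (Nat.mul_le_mul (by omega) h1)
        calc 80 * h ≤ 2 ^ h * 1 := by omega
          _ ≤ 2 ^ h * 2 ^ (ee h + 1) := Nat.mul_le_mul_left _ h3
    _ = 2 ^ (2 * h + 7) := by unfold ee; ring
    _ ≤ 2 ^ (20 * h) := Nat.pow_le_pow_right (by norm_num) (by omega)

theorem pool_aux2 (h : ℕ) (hh : h0 ≤ h) : 40 * h * (ww h) ^ 3 ≤ ZZ h := by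
  have hh' : 200 ≤ h := hh
  have h2 : 100 * h ≤ 2 ^ h := by simpa using num_pow h hh 1 (by norm_num)
  unfold ZZ ww
  calc 40 * h * (2 ^ h) ^ 3 ≤ 2 ^ h * (2 ^ h) ^ 3 := Nat.mul_le_mul_right _ (by omega)
    _ = 2 ^ (4 * h) := by ring
    _ ≤ 2 ^ (20 * h) := Nat.pow_le_pow_right (by norm_num) (by omega)

/-- `(5 w κ₀)^16 = (200 h)^16 w^16 ≤ w^4 w^16 = Z`. -/
theorem KI_aux (h : ℕ) (hh : h0 ≤ h) : (5 * ww h * kap h) ^ 16 ≤ ZZ h := by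
  have hX := num_X h hh
  have h1 : (200 * h) ^ 4 ≤ 2 ^ h := by
    calc (200 * h) ^ 4 = 16 * (100 * h) ^ 4 := by ring
      _ ≤ (100 * h) ^ 5 := num_step _ _ _ (by omega)
      _ ≤ 2 ^ h := num_pow h hh 5 (by norm_num)
  unfold ZZ ww kap
  calc (5 * 2 ^ h * (40 * h)) ^ 16 = ((200 * h) ^ 4) ^ 4 * (2 ^ h) ^ 16 := by ring
    _ ≤ (2 ^ h) ^ 4 * (2 ^ h) ^ 16 := Nat.mul_le_mul_right _ (Nat.pow_le_pow_left h1 4)
    _ = 2 ^ (20 * h) := by ring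

end Crest.Agent.EG
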