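/-
ROW 19 / S0025, project EG.  TASK N3 (file EG_KI.lean).  Uses EG_Num.KI_aux.
-/
import Crest.Agent.EG_Num

set_option autoImplicit false

namespace Crest.Agent.EG

open Finset Nat

/-- **N3 (key inequality).**  For `n₁ < n ≤ 2^w` there is `u` with `n ≤ Z^u` and `(3 + 2 u! κ₀^u)^4 ≤ ⌊√n⌋`.

Proof.  `Nat.le_sqrt'`/`Nat.le_sqrt`: `x ≤ sqrt n ↔ x^2 ≤ n`; so we need `(3 + 2 u! κ₀^u)^8 ≤ n`.  Let `u = Nat.clog Z n` (`Nat.le_pow_clog`), `u ≥ 1` as `n ≥ 2`.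
 * `u = 1`: `(3 + 2 κ₀)^8 ≤ n₁ < n`.
 * `u ≥ 2`: `Z^(u-1) < n` (`Nat.pow_pred_clog_lt_self`).  From `2^(20 h (u-1)) < n ≤ 2^w`: `u - 1 < w`, so `u ≤ w`.  `3 + 2 u! κ₀^u ≤ 5 u! κ₀^u ≤ 5 (u κ₀)^u ≤ (5 w κ₀)^u` (`Nat.factorial_le_pow`), and
   `(5 w κ₀)^(8u) ≤ (5 w κ₀)^(16 (u-1)) = ((5 w κ₀)^16)^(u-1) ≤ Z^(u-1) < n` by `KI_aux`. -/
theorem KI (h : ℕ) (hh : h0 ≤ h) :
    ∀ n, n1 h < n → n ≤ 2 ^ (ww h) →
      ∃ u, n ≤ (ZZ h) ^ u ∧ (3 + 2 * u ! * (kap h) ^ u) ^ 4 ≤ Nat.sqrt n := by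
  intro n hn1 hn2
  have hh1 : 1 ≤ h := by unfold h0 at hh; omega
  have hZ : 1 < ZZ h := by
    unfold ZZ
    exact Nat.one_lt_two_pow (by omega)
  have hn64 : 64 < n := lt_trans (n1_gt h) hn1
  refine ⟨Nat.clog (ZZ h) n, Nat.le_pow_clog hZ n, ?_⟩
  rw [Nat.le_sqrt']
  rw [← pow_mul]
  set u := Nat.clog (ZZ h) n with hu
  have hu1 : 1 ≤ u := Nat.clog_pos hZ (by omega)
  have hkap : 1 ≤ kap h := by unfold kap; omega
  rcases Nat.lt_or_ge u 2 with hlt | hge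
  · have hu' : u = 1 := by omega
    rw [hu']
    have : (3 + 2 * kap h) ^ 8 ≤ n1 h := by
      unfold n1
      have : 0 < (3 + 2 * kap h) ^ 8 := by positivity
      omega
    simp only [Nat.factorial_one, mul_one, pow_one]
    exact le_trans this hn1.le
  · have hlt : (ZZ h) ^ (u - 1) < n := by
      have := Nat.pow_pred_clog_lt_self hZ (show 1 < n by omega)
      simpa [hu, Nat.pred_eq_sub_one] using this
    -- u ≤ w
    have huw : u ≤ ww h := by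
      have h1 : 2 ^ (20 * h * (u - 1)) < 2 ^ (ww h) := by
        have : (ZZ h) ^ (u - 1) = 2 ^ (20 * h * (u - 1)) := by
          unfold ZZ; rw [← pow_mul]
        rw [← this]
        exact lt_of_lt_of_le hlt hn2
      have h2 : 20 * h * (u - 1) < ww h := (Nat.pow_lt_pow_iff_right (by norm_num)).mp h1
      have h3 : (u - 1) ≤ 20 * h * (u - 1) := Nat.le_mul_of_pos_left _ (by omega)
      omega
    have hfac : u ! ≤ u ^ u := Nat.factorial_le_pow u
    have hpos : 1 ≤ u ! * (kap h) ^ u := by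
      have h1 : 0 < u ! := Nat.factorial_pos u
      have h2 : 0 < (kap h) ^ u := by positivity
      exact Nat.mul_pos h1 h2
    have hA : 3 + 2 * u ! * (kap h) ^ u ≤ (5 * ww h * kap h) ^ u := by
      calc 3 + 2 * u ! * (kap h) ^ u ≤ 5 * (u ! * (kap h) ^ u) := by nlinarith
        _ ≤ 5 * (u ^ u * (kap h) ^ u) := by gcongr
        _ ≤ 5 * ((ww h) ^ u * (kap h) ^ u) := by gcongr
        _ ≤ 5 ^ u * ((ww h) ^ u * (kap h) ^ u) := by
            gcongr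
            exact Nat.le_self_pow (by omega) 5
        _ = (5 * ww h * kap h) ^ u := by rw [mul_pow, mul_pow, mul_assoc]
    have hbase : 1 ≤ 5 * ww h * kap h := by
      have : 1 ≤ ww h := by unfold ww; exact Nat.one_le_two_pow
      have h5 : 0 < 5 * ww h * kap h := by positivity
      exact h5
    calc (3 + 2 * u ! * (kap h) ^ u) ^ (4 * 2) ≤ ((5 * ww h * kap h) ^ u) ^ (4 * 2) := by gcongr
      _ = (5 * ww h * kap h) ^ (u * 8) := by rw [← pow_mul]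
      _ ≤ (5 * ww h * kap h) ^ (16 * (u - 1)) := by
          apply Nat.pow_le_pow_right hbase
          omega
      _ = ((5 * ww h * kap h) ^ 16) ^ (u - 1) := by rw [pow_mul]
      _ ≤ (ZZ h) ^ (u - 1) := by
          gcongr
          exact KI_aux h hh
      _ ≤ n := hlt.le

end Crest.Agent.EG
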