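/-
ROW 19 / S0025, project EG.  TASK IV2 (file EG_Rough.lean).  Independent of everything else.
-/
import Mathlib

set_option autoImplicit false

namespace Crest.Agent.EG

open Finset Nat

/-- **IV2a (smooth/rough splitting).**  If no `q^(e+1)` (`q` prime, `q ∣ Q`) divides `ρ`, then `ρ / gcd(ρ, Q^e)` is coprime to `Q`.
Proof: if a prime `q` divides both `ρ / g` (`g = gcd ρ (Q^e)`) and `Q`, let `k = ρ.factorization q ≤ e`; `q^k ∣ ρ` and `q^k ∣ q^e ∣ Q^e`, so `q^k ∣ g`;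
and `q * g ∣ ρ` gives `q^(k+1) ∣ ρ`, contradiction with the definition of `k` (`Nat.pow_succ_factorization_not_dvd`). -/
theorem coprime_div_gcd_pow (Q e ρ : ℕ) (hρ : 0 < ρ)
    (h : ∀ q, q.Prime → q ∣ Q → ¬ q ^ (e + 1) ∣ ρ) :
    Nat.Coprime (ρ / Nat.gcd ρ (Q ^ e)) Q := by
  apply Nat.coprime_of_dvd
  intro q hq hq1 hq2
  have hg : Nat.gcd ρ (Q ^ e) ∣ ρ := Nat.gcd_dvd_left _ _
  have hqg : Nat.gcd ρ (Q ^ e) * q ∣ ρ := Nat.mul_dvd_of_dvd_div hg hq1
  have hk1 : q ^ (ρ.factorization q) ∣ ρ := Nat.ordProj_dvd ρ q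
  have hke : ρ.factorization q ≤ e := by
    by_contra hcon
    push Not at hcon
    exact h q hq hq2 ((pow_dvd_pow q hcon).trans hk1)
  have hk2 : q ^ (ρ.factorization q) ∣ Q ^ e :=
    (pow_dvd_pow q hke).trans (pow_dvd_pow_of_dvd hq2 e)
  have hk3 : q ^ (ρ.factorization q) ∣ Nat.gcd ρ (Q ^ e) := Nat.dvd_gcd hk1 hk2
  have hk4 : q ^ (ρ.factorization q + 1) ∣ ρ := by
    rw [pow_succ]
    exact (Nat.mul_dvd_mul_right hk3 q).trans hqg
  exact Nat.pow_succ_factorization_not_dvd hρ.ne' hq hk4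

/-- **IV2b (window).**  `Pr` a set of primes not dividing `Q`, each `> #Pr`.  Every window of length `Q (#Pr + 1)` contains `γ ≡ 1 (mod Q)` which is
divisible by no element of `Pr`.
Proof: let `γ₀ ∈ [y, y+Q)` with `γ₀ ≡ 1 [MOD Q]`.  Among `γ₀ + i Q`, `0 ≤ i ≤ #Pr`, each `q ∈ Pr` divides at most one (`q ∣ (i-i') Q ⇒ q ∣ i - i'`, `|i-i'| ≤ #Pr < q`).
Pigeonhole (`Finset.exists_ne_map_eq_of_card_lt_of_maps_to` applied to a choice `i ↦ q_i ∈ Pr` dividing `γ₀ + i Q`). -/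
theorem exists_in_window (Q : ℕ) (hQ : 0 < Q) (Pr : Finset ℕ)
    (hPr : ∀ q ∈ Pr, q.Prime ∧ ¬ q ∣ Q ∧ Pr.card < q) (y : ℕ) :
    ∃ γ, y ≤ γ ∧ γ < y + Q * (Pr.card + 1) ∧ γ ≡ 1 [MOD Q] ∧ ∀ q ∈ Pr, ¬ q ∣ γ := by
  -- the starting point
  obtain ⟨r, hrQ, hr1⟩ : ∃ r, r < Q ∧ y + r ≡ 1 [MOD Q] := by
    refine ⟨(1 + (Q - 1) * y) % Q, Nat.mod_lt _ hQ, ?_⟩
    have h1 : y + (1 + (Q - 1) * y) % Q ≡ y + (1 + (Q - 1) * y) [MOD Q] :=
      Nat.ModEq.add_left y (Nat.mod_modEq _ _)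
    have h2 : y + (1 + (Q - 1) * y) = 1 + Q * y := by
      obtain ⟨Q', rfl⟩ : ∃ Q', Q = Q' + 1 := ⟨Q - 1, by omega⟩
      simp only [Nat.add_sub_cancel]
      ring
    rw [h2] at h1
    refine h1.trans ?_
    have h3 : 1 + Q * y ≡ 1 + 0 [MOD Q] :=
      Nat.ModEq.add_left 1 ((Nat.modEq_zero_iff_dvd).2 (Dvd.intro _ rfl))
    simpa using h3
  by_contra hcon
  push Not at hcon
  -- every candidate is divisible by some element of `Pr`
  have hex : ∀ i ∈ Finset.range (Pr.card + 1), ∃ q ∈ Pr, q ∣ y + r + i * Q := by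
    intro i hi
    have hi' : i < Pr.card + 1 := Finset.mem_range.1 hi
    apply hcon (y + r + i * Q)
    · omega
    · have : i * Q + Q ≤ Q * (Pr.card + 1) := by
        have h4 : (i + 1) * Q ≤ (Pr.card + 1) * Q := Nat.mul_le_mul_right Q hi'
        calc i * Q + Q = (i + 1) * Q := by ring
          _ ≤ (Pr.card + 1) * Q := h4
          _ = Q * (Pr.card + 1) := by ring
      omega
    · have h5 : y + r + i * Q ≡ 1 + 0 [MOD Q] :=
        Nat.ModEq.add hr1 ((Nat.modEq_zero_iff_dvd).2 (Dvd.intro_left _ rfl))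
      simpa using h5
  choose! f hf using hex
  have hcard : Pr.card < (Finset.range (Pr.card + 1)).card := by simp
  obtain ⟨i, hi, j, hj, hij, hfij⟩ :=
    Finset.exists_ne_map_eq_of_card_lt_of_maps_to hcard (fun i hi => (hf i hi).1)
  -- symmetric statement
  have key : ∀ i j, i ∈ Finset.range (Pr.card + 1) → j ∈ Finset.range (Pr.card + 1) →
      i < j → f i = f j → False := by
    intro i j hi hj hlt hfij
    have hj' : j < Pr.card + 1 := Finset.mem_range.1 hj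
    obtain ⟨hq, hqQ, hqc⟩ := hPr (f i) (hf i hi).1
    have h1 : f i ∣ y + r + i * Q := (hf i hi).2
    have h2 : f i ∣ y + r + j * Q := hfij ▸ (hf j hj).2
    have h3 : y + r + j * Q = (y + r + i * Q) + (j - i) * Q := by
      obtain ⟨d, rfl⟩ : ∃ d, j = i + d := ⟨j - i, by omega⟩
      simp only [Nat.add_sub_cancel_left]
      ring
    rw [h3] at h2
    have h4 : f i ∣ (j - i) * Q := (Nat.dvd_add_right h1).1 h2
    rcases (Nat.Prime.dvd_mul hq).1 h4 with h5 | h5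
    · have := Nat.le_of_dvd (by omega) h5
      omega
    · exact hqQ h5
  rcases lt_or_gt_of_ne hij with h | h
  · exact key i j hi hj h hfij
  · exact key j i hj hi h hfij.symm

end Crest.Agent.EG
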