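/-
ROW 19 / S0025, project EG.  TASK IV4 (file EG_Obs.lean).  Uses EG_Defs, EG_Rough.exists_in_window.
Elementary facts on `obs`, `fvals`, `fprod`, `richV`.
-/
import Crest.Agent.EG_Defs
import Crest.Agent.EG_Rough

set_option autoImplicit false

namespace Crest.Agent.EG

open Finset Nat

variable {w : ℕ} (f : Fin 12 → (Fin w → ℕ) × (Fin w → ℕ))

theorem mem_fvals_iff (q : ℕ) : q ∈ fvals f ↔ ∃ m i, q = (f m).1 i ∨ q = (f m).2 i := by
  unfold fvals
  simp only [Finset.mem_biUnion, Finset.mem_univ, true_and, Finset.mem_union, Finset.mem_image]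
  constructor
  · rintro ⟨m, ⟨i, hi⟩ | ⟨i, hi⟩⟩
    · exact ⟨m, i, Or.inl hi.symm⟩
    · exact ⟨m, i, Or.inr hi.symm⟩
  · rintro ⟨m, i, hi | hi⟩
    · exact ⟨m, Or.inl ⟨i, hi.symm⟩⟩
    · exact ⟨m, Or.inr ⟨i, hi.symm⟩⟩

theorem card_fvals_le : (fvals f).card ≤ 24 * w := by
  unfold fvals
  refine le_trans Finset.card_biUnion_le ?_
  have h : ∀ m ∈ (Finset.univ : Finset (Fin 12)),
      ((Finset.univ.image (f m).1) ∪ (Finset.univ.image (f m).2)).card ≤ 2 * w := by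
    intro m _
    refine le_trans (Finset.card_union_le _ _) ?_
    have h1 : (Finset.univ.image (f m).1).card ≤ w := by
      simpa using (Finset.card_image_le (s := (Finset.univ : Finset (Fin w))) (f := (f m).1))
    have h2 : (Finset.univ.image (f m).2).card ≤ w := by
      simpa using (Finset.card_image_le (s := (Finset.univ : Finset (Fin w))) (f := (f m).2))
    omega
  refine le_trans (Finset.sum_le_sum h) ?_
  simp
  omega

private theorem obs_card_primes_le (n₁ : ℕ) :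
    ((Finset.range (n₁ + 1)).filter Nat.Prime).card ≤ n₁ := by
  have hsub : (Finset.range (n₁ + 1)).filter Nat.Prime ⊆ (Finset.range (n₁ + 1)).erase 0 := by
    intro q hq
    rw [Finset.mem_filter] at hq
    rw [Finset.mem_erase]
    exact ⟨hq.2.ne_zero, hq.1⟩
  have := Finset.card_le_card hsub
  rw [Finset.card_erase_of_mem (by simp)] at this
  simpa using this

/-- `#obs ≤ n₁ + 24 w + 1` (the primes in `range (n₁+1)` are at most `n₁`: `0` is not prime). -/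
theorem card_obs_le (n₁ e μ : ℕ) : (obs n₁ e f μ).card ≤ n₁ + 24 * w + 1 := by
  unfold obs
  refine le_trans (Finset.card_union_le _ _) ?_
  have h1 := Finset.card_union_le
    (((Finset.range (n₁ + 1)).filter Nat.Prime).image (fun q => q ^ (e + 1))) (fvals f)
  have h2 : (((Finset.range (n₁ + 1)).filter Nat.Prime).image (fun q => q ^ (e + 1))).card ≤ n₁ :=
    le_trans Finset.card_image_le (obs_card_primes_le n₁)
  have h3 := card_fvals_le f
  have h4 : ({μ} : Finset ℕ).card = 1 := Finset.card_singleton μ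
  omega

private theorem mem_obs_iff (n₁ e μ o : ℕ) :
    o ∈ obs n₁ e f μ ↔ (∃ q, q ≤ n₁ ∧ q.Prime ∧ o = q ^ (e + 1)) ∨ o ∈ fvals f ∨ o = μ := by
  unfold obs
  simp only [Finset.mem_union, Finset.mem_image, Finset.mem_filter, Finset.mem_range,
    Finset.mem_singleton]
  constructor
  · rintro ((⟨q, ⟨h1, h2⟩, h3⟩ | h) | h)
    · exact Or.inl ⟨q, by omega, h2, h3.symm⟩
    · exact Or.inr (Or.inl h)
    · exact Or.inr (Or.inr h)
  · rintro (⟨q, h1, h2, h3⟩ | h | h)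
    · exact Or.inl (Or.inl ⟨q, ⟨by omega, h2⟩, h3.symm⟩)
    · exact Or.inl (Or.inr h)
    · exact Or.inr h

theorem obs_ge (n₁ e μ H : ℕ) (hH : H ≤ 2 ^ (e + 1)) (hf : ∀ q ∈ fvals f, H ≤ q) (hμ : H ≤ μ) :
    ∀ o ∈ obs n₁ e f μ, H ≤ o := by
  intro o ho
  rw [mem_obs_iff] at ho
  rcases ho with ⟨q, _, hq, rfl⟩ | h | rfl
  · exact le_trans hH (Nat.pow_le_pow_left hq.two_le _)
  · exact hf o h
  · exact hμ

theorem obs_coprime (n₁ e μ π₁ : ℕ) (hπ : π₁.Prime) (hπ1 : n₁ < π₁)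
    (hf : ∀ q ∈ fvals f, q.Prime ∧ π₁ < q) (hμ : μ.Prime) (hμ1 : π₁ < μ) :
    ∀ o ∈ obs n₁ e f μ, Nat.Coprime π₁ o := by
  intro o ho
  rw [mem_obs_iff] at ho
  rcases ho with ⟨q, hq1, hq, rfl⟩ | h | rfl
  · apply Nat.Coprime.pow_right
    rw [Nat.coprime_primes hπ hq]
    omega
  · rw [Nat.coprime_primes hπ (hf o h).1]
    have := (hf o h).2
    omega
  · rw [Nat.coprime_primes hπ hμ]
    omega

private theorem obs_not_dvd_primorial (n₁ π₁ : ℕ) (hπ : π₁.Prime) (hπ1 : n₁ < π₁) :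
    ¬ π₁ ∣ primorial n₁ := by
  intro h
  unfold primorial at h
  rw [Prime.dvd_finsetProd_iff (Nat.prime_iff.mp hπ)] at h
  obtain ⟨q, hq, hdvd⟩ := h
  rw [Finset.mem_filter, Finset.mem_range] at hq
  have := (Nat.prime_dvd_prime_iff_eq hπ hq.2).mp hdvd
  omega

private theorem obs_dvd_fprod (p : ℕ) (hp : p.Prime) (h : p ∣ fprod f) :
    ∃ q ∈ fvals f, p ∣ q := by
  unfold fprod at h
  rw [Prime.dvd_finsetProd_iff (Nat.prime_iff.mp hp)] at h
  obtain ⟨m, _, hm⟩ := h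
  rcases (Nat.Prime.dvd_mul hp).mp hm with h1 | h1
  · rw [Prime.dvd_finsetProd_iff (Nat.prime_iff.mp hp)] at h1
    obtain ⟨i, _, hi⟩ := h1
    exact ⟨(f m).1 i, (mem_fvals_iff f _).mpr ⟨m, i, Or.inl rfl⟩, hi⟩
  · rw [Prime.dvd_finsetProd_iff (Nat.prime_iff.mp hp)] at h1
    obtain ⟨i, _, hi⟩ := h1
    exact ⟨(f m).2 i, (mem_fvals_iff f _).mpr ⟨m, i, Or.inr rfl⟩, hi⟩

theorem not_dvd_richV (n₁ e μ π₁ : ℕ) (hπ : π₁.Prime) (hπ1 : n₁ < π₁)
    (hf : ∀ q ∈ fvals f, q.Prime ∧ π₁ < q) (hμ : μ.Prime) (hμ1 : π₁ < μ) :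
    ¬ π₁ ∣ richV n₁ e f μ := by
  intro h
  unfold richV at h
  rcases (Nat.Prime.dvd_mul hπ).mp h with h1 | h1
  · rcases (Nat.Prime.dvd_mul hπ).mp h1 with h2 | h2
    · exact obs_not_dvd_primorial n₁ π₁ hπ hπ1 (hπ.dvd_of_dvd_pow h2)
    · obtain ⟨q, hq, hdvd⟩ := obs_dvd_fprod f π₁ hπ h2
      have := (Nat.prime_dvd_prime_iff_eq hπ (hf q hq).1).mp hdvd
      have := (hf q hq).2
      omega
  · have := (Nat.prime_dvd_prime_iff_eq hπ hμ).mp (hπ.dvd_of_dvd_pow h1)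
    omega

theorem richV_pos (n₁ e μ : ℕ) (hf : ∀ q ∈ fvals f, q.Prime) (hμ : μ.Prime) :
    1 ≤ richV n₁ e f μ := by
  unfold richV
  have h1 : 0 < primorial n₁ ^ e := Nat.pow_pos (primorial_pos n₁)
  have h2 : 0 < fprod f := by
    unfold fprod
    apply Finset.prod_pos
    intro m _
    apply Nat.mul_pos
    · apply Finset.prod_pos
      intro i _
      exact (hf _ ((mem_fvals_iff f _).mpr ⟨m, i, Or.inl rfl⟩)).pos
    · apply Finset.prod_pos
      intro i _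
      exact (hf _ ((mem_fvals_iff f _).mpr ⟨m, i, Or.inr rfl⟩)).pos
  have h3 : 0 < μ ^ 143 := Nat.pow_pos hμ.pos
  exact Nat.mul_pos (Nat.mul_pos h1 h2) h3

private theorem obs_fprod_le (Z : ℕ) (hf : ∀ q ∈ fvals f, q ≤ Z) : fprod f ≤ Z ^ (24 * w) := by
  unfold fprod
  have h : ∀ m ∈ (Finset.univ : Finset (Fin 12)),
      ((∏ i, (f m).1 i) * (∏ i, (f m).2 i)) ≤ Z ^ (2 * w) := by
    intro m _
    have h1 : (∏ i, (f m).1 i) ≤ Z ^ w := by
      have := Finset.prod_le_pow_card (Finset.univ : Finset (Fin w)) (fun i => (f m).1 i) Z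
        (fun i _ => hf _ ((mem_fvals_iff f _).mpr ⟨m, i, Or.inl rfl⟩))
      simpa using this
    have h2 : (∏ i, (f m).2 i) ≤ Z ^ w := by
      have := Finset.prod_le_pow_card (Finset.univ : Finset (Fin w)) (fun i => (f m).2 i) Z
        (fun i _ => hf _ ((mem_fvals_iff f _).mpr ⟨m, i, Or.inr rfl⟩))
      simpa using this
    calc _ ≤ Z ^ w * Z ^ w := Nat.mul_le_mul h1 h2
      _ = Z ^ (2 * w) := by rw [← pow_add]; congr 1; omega
  have := Finset.prod_le_pow_card (Finset.univ : Finset (Fin 12)) _ _ h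
  calc _ ≤ (Z ^ (2 * w)) ^ (Finset.univ : Finset (Fin 12)).card := this
    _ = Z ^ (24 * w) := by
      rw [← pow_mul]; congr 1; simp; omega

/-- `primorial_le_4_pow`. -/
theorem richV_le (n₁ e μ Z : ℕ) (hf : ∀ q ∈ fvals f, q ≤ Z) :
    richV n₁ e f μ ≤ 4 ^ (n₁ * e) * Z ^ (24 * w) * μ ^ 143 := by
  unfold richV
  apply Nat.mul_le_mul_right
  apply Nat.mul_le_mul
  · rw [pow_mul]
    exact Nat.pow_le_pow_left (primorial_le_four_pow n₁) e
  · exact obs_fprod_le f Z hf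

/-- window property for `obs`: apply `exists_in_window` with `Q = primorial n₁`, `Pr = fvals f ∪ {μ}` (`#Pr ≤ 24 w + 1`).
`γ ≡ 1 [MOD Q]` gives `Coprime γ Q`, hence `Coprime γ (q^(e+1))` for primes `q ≤ n₁` (`q ∣ Q`). -/
theorem obs_window (n₁ e μ : ℕ) (hf : ∀ q ∈ fvals f, q.Prime ∧ n₁ < q ∧ 24 * w + 1 < q)
    (hμ : μ.Prime) (hμ1 : n₁ < μ) (hμ2 : 24 * w + 1 < μ) (y : ℕ) :
    ∃ γ, y ≤ γ ∧ γ < y + primorial n₁ * (24 * w + 3) ∧ ∀ o ∈ obs n₁ e f μ, Nat.Coprime γ o := by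
  have hcard : (fvals f ∪ {μ}).card ≤ 24 * w + 1 := by
    refine le_trans (Finset.card_union_le _ _) ?_
    have h3 := card_fvals_le f
    have h4 : ({μ} : Finset ℕ).card = 1 := Finset.card_singleton μ
    omega
  have hPr : ∀ q ∈ fvals f ∪ {μ}, q.Prime ∧ ¬ q ∣ primorial n₁ ∧ (fvals f ∪ {μ}).card < q := by
    intro q hq
    rw [Finset.mem_union, Finset.mem_singleton] at hq
    rcases hq with hq | rfl
    · obtain ⟨h1, h2, h3⟩ := hf q hq
      exact ⟨h1, obs_not_dvd_primorial n₁ q h1 h2, by omega⟩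
    · exact ⟨hμ, obs_not_dvd_primorial n₁ q hμ hμ1, by omega⟩
  obtain ⟨γ, hy, hlt, hmod, hnd⟩ :=
    exists_in_window (primorial n₁) (primorial_pos n₁) (fvals f ∪ {μ}) hPr y
  refine ⟨γ, hy, lt_of_lt_of_le hlt ?_, ?_⟩
  · apply Nat.add_le_add_left
    apply Nat.mul_le_mul_left
    omega
  · intro o ho
    rw [mem_obs_iff] at ho
    have hcop : Nat.Coprime γ (primorial n₁) := by
      have h1 : Nat.gcd γ (primorial n₁) = Nat.gcd 1 (primorial n₁) := hmod.gcd_eq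
      rw [Nat.Coprime, h1]
      simp
    rcases ho with ⟨q, hq1, hq, rfl⟩ | h | rfl
    · apply Nat.Coprime.pow_right
      apply Nat.Coprime.coprime_dvd_right _ hcop
      unfold primorial
      apply Finset.dvd_prod_of_mem (fun p => p)
      rw [Finset.mem_filter, Finset.mem_range]
      exact ⟨by omega, hq⟩
    · have hp := (hf o h).1
      rw [Nat.coprime_comm, Nat.Prime.coprime_iff_not_dvd hp]
      exact hnd o (Finset.mem_union_left _ h)
    · rw [Nat.coprime_comm, Nat.Prime.coprime_iff_not_dvd hμ]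
      exact hnd o (Finset.mem_union_right _ (Finset.mem_singleton_self o))

end Crest.Agent.EG
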