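/-
ROW 19 / S0025, project EG.  TASK N2 (file EG_Pool.lean).  Uses EG_Num.(pool_aux1, pool_aux2) and Mathlib's `Chebyshev.pi_ge`.
-/
import Crest.Agent.EG_Num

set_option autoImplicit false

namespace Crest.Agent.EG

open Finset Nat

theorem pool_prime (h : ℕ) : ∀ q ∈ pool h, q.Prime ∧ HH h < q ∧ q ≤ ZZ h := by
  intro q hq
  unfold pool at hq
  rw [Finset.mem_filter, Finset.mem_Ioc] at hq
  exact ⟨hq.2, hq.1.1, hq.1.2⟩

/-- Chebyshev:  `Z/(20h) - 2 ≤ π(Z)` for `Z = 2^(20h)`, stated without division: `Z ≤ 20 h (π(Z) + 2)`.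
`Chebyshev.pi_ge Z : (Z log 2 - log (Z+1)) / log Z ≤ π Z`, `log Z = 20 h log 2`, `log (Z+1) ≤ log (2Z) = (20h+1) log 2 ≤ 40 h log 2`. -/
theorem ZZ_le_primeCounting (h : ℕ) (hh : 1 ≤ h) : ZZ h ≤ 20 * h * (Nat.primeCounting (ZZ h) + 2) := by
  have key := Chebyshev.pi_ge (ZZ h)
  have hl2 : 0 < Real.log 2 := Real.log_pos (by norm_num)
  have hZ1 : (1 : ℝ) ≤ (ZZ h : ℝ) := by
    unfold ZZ
    exact_mod_cast Nat.one_le_two_pow
  have hlogZ : Real.log (ZZ h : ℝ) = (20 * h : ℝ) * Real.log 2 := by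
    unfold ZZ
    push_cast
    rw [Real.log_pow]
    push_cast
    ring
  have hhR : (1 : ℝ) ≤ (h : ℝ) := by exact_mod_cast hh
  have hlogZpos : 0 < Real.log (ZZ h : ℝ) := by
    rw [hlogZ]; positivity
  have hlogZ1 : Real.log ((ZZ h : ℝ) + 1) ≤ (40 * h : ℝ) * Real.log 2 := by
    have h1 : Real.log ((ZZ h : ℝ) + 1) ≤ Real.log (2 * (ZZ h : ℝ)) := by
      apply Real.log_le_log (by linarith) (by linarith)
    rw [Real.log_mul (by norm_num) (by linarith), hlogZ] at h1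
    nlinarith
  rw [div_le_iff₀ hlogZpos, hlogZ] at key
  have h2 : (ZZ h : ℝ) * Real.log 2 ≤ ((20 * h : ℝ) * ((Nat.primeCounting (ZZ h) : ℝ) + 2)) * Real.log 2 := by
    nlinarith
  have h3 : (ZZ h : ℝ) ≤ (20 * h : ℝ) * ((Nat.primeCounting (ZZ h) : ℝ) + 2) :=
    le_of_mul_le_mul_right h2 hl2
  exact_mod_cast h3

/-- `#pool ≥ π(Z) - H`  (the primes `≤ Z` are in the pool or `≤ H`; `Nat.primeCounting = count`, `Nat.primeCounting'`, `Nat.primesLE`...). -/
theorem primeCounting_le_pool (h : ℕ) : Nat.primeCounting (ZZ h) ≤ (pool h).card + HH h := by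
  rw [← Nat.primesLE_card_eq_primeCounting]
  have hsub : Nat.primesLE (ZZ h) ⊆ pool h ∪ Finset.Ioc 0 (HH h) := by
    intro q hq
    rw [Nat.mem_primesLE] at hq
    rw [Finset.mem_union]
    by_cases hqH : q ≤ HH h
    · right
      rw [Finset.mem_Ioc]
      exact ⟨hq.2.pos, hqH⟩
    · left
      unfold pool
      rw [Finset.mem_filter, Finset.mem_Ioc]
      exact ⟨⟨by omega, hq.1⟩, hq.2⟩
  calc (Nat.primesLE (ZZ h)).card ≤ (pool h ∪ Finset.Ioc 0 (HH h)).card := Finset.card_le_card hsub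
    _ ≤ (pool h).card + (Finset.Ioc 0 (HH h)).card := Finset.card_union_le _ _
    _ = (pool h).card + HH h := by rw [Nat.card_Ioc]; simp

/-- **N2.**  `κ₀ #pool ≥ 40 h (Z/(20h) - 2 - H) = 2 Z - 80 h - 40 h H ≥ Z` by `pool_aux1`; then `40 h #pool ≥ Z ≥ 40 h w³` by `pool_aux2`. -/
theorem pool_card (h : ℕ) (hh : h0 ≤ h) :
    ZZ h ≤ kap h * (pool h).card ∧ (ww h) ^ 3 ≤ (pool h).card := by
  have hh1 : 1 ≤ h := by unfold h0 at hh; omega
  have a1 := pool_aux1 h hh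
  have a2 := pool_aux2 h hh
  have c1 := ZZ_le_primeCounting h hh1
  have c2 := primeCounting_le_pool h
  have c3 : 20 * h * (Nat.primeCounting (ZZ h) + 2) ≤ 20 * h * ((pool h).card + HH h + 2) :=
    Nat.mul_le_mul_left _ (by omega)
  have first : ZZ h ≤ kap h * (pool h).card := by
    unfold kap
    nlinarith
  refine ⟨first, ?_⟩
  unfold kap at first
  have : 40 * h * (ww h) ^ 3 ≤ 40 * h * (pool h).card := a2.trans first
  exact Nat.le_of_mul_le_mul_left this (by omega)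

end Crest.Agent.EG
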