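/-
ROW 19 / S0025, project EG.  TASK I1 (file EG_Hit.lean).  Independent of everything else.
-/
import Mathlib

set_option autoImplicit false

namespace Crest.Agent.EG

open Finset

private theorem hit_map_sum {A M κ : Type*} [AddCommMonoid A] [CommMonoid M] (ψ : AddChar A M)
    (s : Finset κ) (f : κ → A) : ψ (∑ i ∈ s, f i) = ∏ i ∈ s, ψ (f i) := by
  classical
  induction s using Finset.induction_on with
  | empty => simp
  | insert a s ha ih => rw [Finset.sum_insert ha, Finset.prod_insert ha, AddChar.map_add_eq_mul, ih]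

/-- **I1 (circle method on `ZMod N`).**  If the non-trivial frequencies contribute less than the
trivial one, every target `τ` is hit by `∑ i, φ i (x i)`.

Proof.  Let `ψ = ZMod.stdAddChar` (primitive: `ZMod.isPrimitive_stdAddChar`), `S i ξ = ∑ x, ψ (ξ * φ i x)`.
By `AddChar.sum_mulShift`, for `y : ZMod N`: `∑ ξ, ψ (ξ * y) = if y = 0 then N else 0`.  Hence
`N * #{x : ι → X | ∑ i, φ i (x i) = τ} = ∑ x, ∑ ξ, ψ (ξ * (∑ i, φ i (x i) - τ))
   = ∑ ξ, ψ (-(ξ * τ)) * ∏ i, S i ξ`    (`Finset.prod_univ_sum`, `AddChar.map_add_eq_mul`, `AddChar.map_sum_eq_prod`).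
The term `ξ = 0` is `(card X)^(card ι)`; the others have total norm `< (card X)^(card ι)` by `h`
(`‖ψ _‖ = 1`: `AddChar.norm_apply` or `Circle.norm_coe`).  So the count is nonzero. -/
theorem exists_sum_eq {N : ℕ} [NeZero N] {ι X : Type*} [Fintype ι] [DecidableEq ι] [Fintype X]
    (φ : ι → X → ZMod N)
    (h : ∑ ξ ∈ (Finset.univ.erase (0 : ZMod N)),
        ∏ i, ‖∑ x, (ZMod.stdAddChar (ξ * φ i x) : ℂ)‖ < (Fintype.card X : ℝ) ^ (Fintype.card ι))
    (τ : ZMod N) : ∃ x : ι → X, ∑ i, φ i (x i) = τ := by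
  by_contra hcon
  push Not at hcon
  set ψ : AddChar (ZMod N) ℂ := ZMod.stdAddChar with hψ
  have hprim : ψ.IsPrimitive := ZMod.isPrimitive_stdAddChar N
  -- every `x` contributes zero
  have h0 : ∀ x : ι → X, ∑ ξ : ZMod N, ψ (ξ * (∑ i, φ i (x i) - τ)) = 0 := by
    intro x
    rw [AddChar.sum_mulShift _ hprim, if_neg (sub_ne_zero.2 (hcon x))]
    simp
  -- factorisation
  have hfac : ∀ ξ : ZMod N, ∑ x : ι → X, ψ (ξ * (∑ i, φ i (x i) - τ))
      = ψ (-(ξ * τ)) * ∏ i, ∑ x, ψ (ξ * φ i x) := by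
    intro ξ
    rw [Finset.prod_univ_sum, Fintype.piFinset_univ, Finset.mul_sum]
    apply Finset.sum_congr rfl
    intro x _
    have : ξ * (∑ i, φ i (x i) - τ) = -(ξ * τ) + ∑ i, ξ * φ i (x i) := by
      rw [mul_sub, Finset.mul_sum]; ring
    rw [this, AddChar.map_add_eq_mul, hit_map_sum]
  have htot : ∑ ξ : ZMod N, ψ (-(ξ * τ)) * ∏ i, ∑ x, ψ (ξ * φ i x) = 0 := by
    calc ∑ ξ : ZMod N, ψ (-(ξ * τ)) * ∏ i, ∑ x, ψ (ξ * φ i x)
        = ∑ ξ : ZMod N, ∑ x : ι → X, ψ (ξ * (∑ i, φ i (x i) - τ)) := by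
          apply Finset.sum_congr rfl; intro ξ _; rw [hfac ξ]
      _ = ∑ x : ι → X, ∑ ξ : ZMod N, ψ (ξ * (∑ i, φ i (x i) - τ)) := Finset.sum_comm
      _ = 0 := Finset.sum_eq_zero (fun x _ => h0 x)
  rw [← Finset.add_sum_erase _ _ (Finset.mem_univ (0 : ZMod N))] at htot
  have hz : ψ (-(0 * τ)) * ∏ i : ι, ∑ x : X, ψ (0 * φ i x)
      = ((Fintype.card X : ℝ) ^ (Fintype.card ι) : ℝ) := by
    simp
  rw [hz] at htot
  have hnorm : (Fintype.card X : ℝ) ^ (Fintype.card ι)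
      ≤ ∑ ξ ∈ (Finset.univ.erase (0 : ZMod N)), ∏ i, ‖∑ x, (ψ (ξ * φ i x) : ℂ)‖ := by
    have e1 : (((Fintype.card X : ℝ) ^ (Fintype.card ι) : ℝ) : ℂ)
        = - ∑ ξ ∈ (Finset.univ.erase (0 : ZMod N)), ψ (-(ξ * τ)) * ∏ i, ∑ x, ψ (ξ * φ i x) :=
      eq_neg_of_add_eq_zero_left htot
    have e2 : ‖(((Fintype.card X : ℝ) ^ (Fintype.card ι) : ℝ) : ℂ)‖
        = (Fintype.card X : ℝ) ^ (Fintype.card ι) := by
      rw [Complex.norm_real, Real.norm_of_nonneg (by positivity)]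
    rw [← e2, e1, norm_neg]
    refine (norm_sum_le _ _).trans (Finset.sum_le_sum ?_)
    intro ξ _
    rw [norm_mul, AddChar.norm_apply, one_mul, norm_prod]
  exact absurd h (not_lt.2 hnorm)

end Crest.Agent.EG
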