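/-
ROW 19 / S0025, project EG.  TASK IV1 (file EG_Solution.lean).
Uses EG_Hit.exists_sum_eq, EG_Bilinear.(bilinear_bound, addOrderOf_mul_natCast), EG_OrderSum.order_sum_lt_one.
-/
import Crest.Agent.EG_Hit
import Crest.Agent.EG_Bilinear
import Crest.Agent.EG_OrderSum

set_option autoImplicit false

namespace Crest.Agent.EG

open Finset Nat

/-- the exponential sum attached to the summand `l` at the frequency `ξ` -/
private noncomputable def solS (w N μ : ℕ) [NeZero N] (f : Fin 12 → (Fin w → ℕ) × (Fin w → ℕ))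
    (ξ : ZMod N) (l : Fin 12 × Fin 12) : ℂ :=
  ∑ x : Finset (Fin w) × Finset (Fin w),
    (ZMod.stdAddChar (ξ * ((μ ^ (idx l) * sprod (f l.2).1 x.1 * sprod (f l.2).2 x.2 : ℕ) : ZMod N)) : ℂ)

private theorem solS_norm_le (w N μ : ℕ) [NeZero N] (f : Fin 12 → (Fin w → ℕ) × (Fin w → ℕ))
    (ξ : ZMod N) (l : Fin 12 × Fin 12) : ‖solS w N μ f ξ l‖ ≤ (4 : ℝ) ^ w := by
  unfold solS
  refine (norm_sum_le _ _).trans ?_
  simp only [AddChar.norm_apply, Finset.sum_const, Finset.card_univ, Fintype.card_prod,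
    Fintype.card_finset, Fintype.card_fin, nsmul_eq_mul, mul_one]
  push_cast
  rw [← mul_pow]
  norm_num

private theorem solS_sq_le (w N μ : ℕ) [NeZero N] (f : Fin 12 → (Fin w → ℕ) × (Fin w → ℕ))
    (hμ : Nat.Coprime μ N) (ξ : ZMod N) (l : Fin 12 × Fin 12) :
    ‖solS w N μ f ξ l‖ ^ 2 ≤ (coll (sprod (f l.2).1) (addOrderOf ξ) : ℝ) * (addOrderOf ξ : ℝ) *
      (coll (sprod (f l.2).2) (addOrderOf ξ) : ℝ) := by
  have h := bilinear_bound (N := N) (sprod (f l.2).1) (sprod (f l.2).2)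
    (ξ * ((μ ^ (idx l) : ℕ) : ZMod N))
  rw [addOrderOf_mul_natCast ξ _ (Nat.Coprime.pow_left _ hμ)] at h
  have e : solS w N μ f ξ l = ∑ a, ∑ b, (ZMod.stdAddChar ((ξ * ((μ ^ (idx l) : ℕ) : ZMod N)) *
      ((sprod (f l.2).1 a * sprod (f l.2).2 b : ℕ) : ZMod N)) : ℂ) := by
    unfold solS
    rw [Fintype.sum_prod_type]
    refine Finset.sum_congr rfl fun a _ => Finset.sum_congr rfl fun b _ => ?_
    have e2 : ξ * ((μ ^ (idx l) * sprod (f l.2).1 a * sprod (f l.2).2 b : ℕ) : ZMod N)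
        = (ξ * ((μ ^ (idx l) : ℕ) : ZMod N)) * ((sprod (f l.2).1 a * sprod (f l.2).2 b : ℕ) : ZMod N) := by
      push_cast
      ring
    rw [e2]
  rw [e]
  exact h

/-- the bound for one frequency -/
private theorem prod_solS_le (w n₁ N μ : ℕ) [NeZero N] (f : Fin 12 → (Fin w → ℕ) × (Fin w → ℕ))
    (hgood : ∀ n, n₁ < n → n ≤ 2 ^ w → ∃ m, ¬ Bad w n (f m))
    (hN : N ≤ 2 ^ w) (hdiv : ∀ m, m ∣ N → m ≠ 1 → n₁ < m)
    (hcop : ∀ m i, Nat.Coprime ((f m).1 i) N ∧ Nat.Coprime ((f m).2 i) N)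
    (hμ : Nat.Coprime μ N) (ξ : ZMod N) (hξ : ξ ≠ 0) :
    ∏ l, ‖solS w N μ f ξ l‖ ≤ ((4 : ℝ) ^ w) ^ 144 * (1 / (Nat.sqrt (addOrderOf ξ) : ℝ) ^ 6) := by
  set m := addOrderOf ξ with hm
  have hN0 : 0 < N := Nat.pos_of_ne_zero (NeZero.ne N)
  have hmN : m ∣ N := by
    have := addOrderOf_dvd_card (x := ξ)
    rwa [ZMod.card] at this
  have hm1 : m ≠ 1 := by
    intro h
    exact hξ (AddMonoid.addOrderOf_eq_one_iff.1 h)
  have hn₁m : n₁ < m := hdiv m hmN hm1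
  have hmle : m ≤ 2 ^ w := (Nat.le_of_dvd hN0 hmN).trans hN
  have hmpos : 0 < m := Nat.pos_of_dvd_of_pos hmN hN0
  obtain ⟨m₀, hm₀⟩ := hgood m hn₁m hmle
  have hnb : coll (sprod (f m₀).1) m * coll (sprod (f m₀).2) m * m * Nat.sqrt m ≤ 16 ^ w := by
    by_contra hcon
    exact hm₀ ⟨fun i => Nat.Coprime.coprime_dvd_right hmN (hcop m₀ i).1,
      fun i => Nat.Coprime.coprime_dvd_right hmN (hcop m₀ i).2, not_le.1 hcon⟩
  have hνpos : 0 < Nat.sqrt m := Nat.sqrt_pos.2 hmpos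
  set ν : ℝ := (Nat.sqrt m : ℝ) with hν
  have hν0 : 0 < ν := by rw [hν]; exact_mod_cast hνpos
  set t : ℝ := Real.sqrt ν with ht
  have ht0 : 0 < t := Real.sqrt_pos.2 hν0
  have ht2 : t ^ 2 = ν := Real.sq_sqrt hν0.le
  set B : ℝ := (4 : ℝ) ^ w with hB
  have hB0 : 0 < B := by rw [hB]; positivity
  -- the good copy
  have hgoodS : ∀ l₁ : Fin 12, ‖solS w N μ f ξ (l₁, m₀)‖ ≤ B / t := by
    intro l₁
    have h1 := solS_sq_le w N μ f hμ ξ (l₁, m₀)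
    rw [← hm] at h1
    have h2 : ((coll (sprod (f m₀).1) m : ℝ) * (m : ℝ) * (coll (sprod (f m₀).2) m : ℝ)) * ν
        ≤ B ^ 2 := by
      have : ((coll (sprod (f m₀).1) m * coll (sprod (f m₀).2) m * m * Nat.sqrt m : ℕ) : ℝ)
          ≤ ((16 ^ w : ℕ) : ℝ) := by exact_mod_cast hnb
      push_cast at this
      have e16 : (16 : ℝ) ^ w = B ^ 2 := by
        rw [hB, ← pow_mul, mul_comm, pow_mul]; norm_num
      rw [← e16]
      calc _ = (coll (sprod (f m₀).1) m : ℝ) * (coll (sprod (f m₀).2) m : ℝ) * (m : ℝ) * ν := by ring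
        _ ≤ _ := this
    have h3 : ‖solS w N μ f ξ (l₁, m₀)‖ ^ 2 ≤ (B / t) ^ 2 := by
      rw [div_pow, ht2, le_div_iff₀ hν0]
      exact (mul_le_mul_of_nonneg_right h1 hν0.le).trans h2
    exact le_of_pow_le_pow_left₀ two_ne_zero (by positivity) h3
  -- one block of 12
  have hblock : ∀ l₁ : Fin 12, ∏ l₂, ‖solS w N μ f ξ (l₁, l₂)‖ ≤ B ^ 11 * (B / t) := by
    intro l₁
    rw [← Finset.prod_erase_mul (Finset.univ) _ (Finset.mem_univ m₀)]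
    have h1 : ∏ l₂ ∈ Finset.univ.erase m₀, ‖solS w N μ f ξ (l₁, l₂)‖ ≤ B ^ 11 := by
      have : ∏ l₂ ∈ Finset.univ.erase m₀, ‖solS w N μ f ξ (l₁, l₂)‖
          ≤ ∏ _l₂ ∈ (Finset.univ.erase m₀ : Finset (Fin 12)), B :=
        Finset.prod_le_prod (fun _ _ => norm_nonneg _) (fun l₂ _ => solS_norm_le w N μ f ξ _)
      refine this.trans (le_of_eq ?_)
      rw [Finset.prod_const, Finset.card_erase_of_mem (Finset.mem_univ _), Finset.card_univ,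
        Fintype.card_fin]
    exact mul_le_mul h1 (hgoodS l₁) (norm_nonneg _) (by positivity)
  rw [Fintype.prod_prod_type]
  calc ∏ l₁, ∏ l₂, ‖solS w N μ f ξ (l₁, l₂)‖ ≤ ∏ _l₁ : Fin 12, B ^ 11 * (B / t) :=
        Finset.prod_le_prod (fun _ _ => Finset.prod_nonneg fun _ _ => norm_nonneg _)
          (fun l₁ _ => hblock l₁)
    _ = (B ^ 11 * (B / t)) ^ 12 := by
        rw [Finset.prod_const, Finset.card_univ, Fintype.card_fin]
    _ = B ^ 144 * (1 / ν ^ 6) := by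
        rw [← ht2]
        field_simp

/-- **IV1 (every residue mod `N` is a sum of 144 marked products).**

Proof.  `haveI : NeZero N`.  Apply `exists_sum_eq` with `ι = Fin 12 × Fin 12`, `X = Finset (Fin w) × Finset (Fin w)` (`card X = 4^w`),
`φ l (T,T') = ((μ^(idx l) * sprod (f l.2).1 T * sprod (f l.2).2 T' : ℕ) : ZMod N)`, target `(τ : ZMod N)`; translate back with
`ZMod.natCast_eq_natCast_iff` (after `push_cast`).
Fix `ξ ≠ 0`, `m = addOrderOf ξ`.  Then `m ∣ N` (`addOrderOf_dvd_card`, `ZMod.card`), `m ≠ 1`, so `n₁ < m ≤ N ≤ 2^w`.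
`S l = ∑_{(T,T')} ψ(ξ * φ l (T,T')) = ∑_T ∑_T' ψ((ξ * μ^(idx l)) * (sprod a T * sprod b T'))` and `addOrderOf (ξ * μ^(idx l)) = m`
(`addOrderOf_mul_natCast`, `Nat.Coprime.pow_left`), so `‖S l‖² ≤ coll a m * m * coll b m` (`bilinear_bound`); trivially `‖S l‖ ≤ 4^w`.
Let `m₀` be the copy with `¬ Bad w m (f m₀)`.  Its entries are coprime to `N`, hence to `m` (`Nat.Coprime.coprime_dvd_right`), so
`coll a m * coll b m * m * ν ≤ 16^w`, `ν = Nat.sqrt m ≥ 1`; thus `‖S (l, m₀)‖² ≤ 16^w / ν` for all 12 values of `l`.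
`∏_l ‖S l‖ = ∏_{l₁} ∏_{l₂} ... ≤ ∏_{l₁} ((4^w)^11 * ‖S (l₁, m₀)‖)`, and `(∏_{l₁} ‖S (l₁,m₀)‖)² ≤ (16^w/ν)^12`, i.e. `∏_{l₁} ‖S(l₁,m₀)‖ ≤ (4^w)^12 / ν^6`.
So `∏_l ‖S l‖ ≤ (4^w)^144 / ν^6`, and `order_sum_lt_one` finishes. -/
theorem exists_solution (w n₁ N μ : ℕ) (f : Fin 12 → (Fin w → ℕ) × (Fin w → ℕ))
    (hgood : ∀ n, n₁ < n → n ≤ 2 ^ w → ∃ m, ¬ Bad w n (f m))
    (hN0 : 0 < N) (hN : N ≤ 2 ^ w) (hdiv : ∀ m, m ∣ N → m ≠ 1 → n₁ < m)
    (hcop : ∀ m i, Nat.Coprime ((f m).1 i) N ∧ Nat.Coprime ((f m).2 i) N)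
    (hμ : Nat.Coprime μ N) (hn₁ : 64 < n₁) (τ : ℕ) :
    ∃ T T' : Fin 12 × Fin 12 → Finset (Fin w),
      (∑ l, μ ^ (idx l) * sprod (f l.2).1 (T l) * sprod (f l.2).2 (T' l)) ≡ τ [MOD N] := by
  have : NeZero N := ⟨hN0.ne'⟩
  set ph : Fin 12 × Fin 12 → (Finset (Fin w) × Finset (Fin w)) → ZMod N :=
    fun l x => ((μ ^ (idx l) * sprod (f l.2).1 x.1 * sprod (f l.2).2 x.2 : ℕ) : ZMod N) with hph
  have hB0 : (0 : ℝ) < ((4 : ℝ) ^ w) ^ 144 := by positivity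
  have key : ∑ ξ ∈ (Finset.univ.erase (0 : ZMod N)),
      ∏ l, ‖∑ x, (ZMod.stdAddChar (ξ * ph l x) : ℂ)‖
        < (Fintype.card (Finset (Fin w) × Finset (Fin w)) : ℝ) ^ (Fintype.card (Fin 12 × Fin 12)) := by
    have hcard : (Fintype.card (Finset (Fin w) × Finset (Fin w)) : ℝ) = (4 : ℝ) ^ w := by
      simp only [Fintype.card_prod, Fintype.card_finset, Fintype.card_fin]
      push_cast
      rw [← mul_pow]
      norm_num
    have hcard2 : Fintype.card (Fin 12 × Fin 12) = 144 := by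
      simp [Fintype.card_prod]
    rw [hcard, hcard2]
    calc ∑ ξ ∈ (Finset.univ.erase (0 : ZMod N)), ∏ l, ‖∑ x, (ZMod.stdAddChar (ξ * ph l x) : ℂ)‖
        ≤ ∑ ξ ∈ (Finset.univ.erase (0 : ZMod N)),
            ((4 : ℝ) ^ w) ^ 144 * (1 / (Nat.sqrt (addOrderOf ξ) : ℝ) ^ 6) := by
          refine Finset.sum_le_sum fun ξ hξ => ?_
          exact prod_solS_le w n₁ N μ f hgood hN hdiv hcop hμ ξ (Finset.ne_of_mem_erase hξ)
      _ = ((4 : ℝ) ^ w) ^ 144 *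
            ∑ ξ ∈ (Finset.univ.erase (0 : ZMod N)), (1 / (Nat.sqrt (addOrderOf ξ) : ℝ) ^ 6) := by
          rw [Finset.mul_sum]
      _ < ((4 : ℝ) ^ w) ^ 144 * 1 :=
          mul_lt_mul_of_pos_left (order_sum_lt_one N n₁ hn₁ hdiv) hB0
      _ = ((4 : ℝ) ^ w) ^ 144 := mul_one _
  obtain ⟨x, hx⟩ := exists_sum_eq ph key (τ : ZMod N)
  refine ⟨fun l => (x l).1, fun l => (x l).2, ?_⟩
  rw [← ZMod.natCast_eq_natCast_iff, ← hx, Nat.cast_sum]

end Crest.Agent.EG
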