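/-
ROW 19 / S0025, project EG.  TASK IV3 (file EG_RichProp.lean).
Uses EG_Solution.exists_solution, EG_Rough.coprime_div_gcd_pow.
-/
import Crest.Agent.EG_Solution
import Crest.Agent.EG_Rough

set_option autoImplicit false

namespace Crest.Agent.EG

open Finset Nat

private theorem idx_injective : Function.Injective idx := by
  rintro ⟨a, b⟩ ⟨c, d⟩ h
  simp only [idx] at h
  have ha := a.isLt
  have hb := b.isLt
  have hc := c.isLt
  have hd := d.isLt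
  refine Prod.ext (Fin.ext ?_) (Fin.ext ?_) <;> simp only <;> omega

private theorem idx_le (l : Fin 12 × Fin 12) : idx l ≤ 143 := by
  have ha := l.1.isLt
  have hb := l.2.isLt
  simp only [idx]
  omega

private theorem mem_fvals_fst {w : ℕ} (f : Fin 12 → (Fin w → ℕ) × (Fin w → ℕ)) (m : Fin 12)
    (i : Fin w) : (f m).1 i ∈ fvals f := by
  simp only [fvals, mem_biUnion, mem_univ, true_and, mem_union, mem_image]
  exact ⟨m, Or.inl ⟨i, rfl⟩⟩

private theorem mem_fvals_snd {w : ℕ} (f : Fin 12 → (Fin w → ℕ) × (Fin w → ℕ)) (m : Fin 12)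
    (i : Fin w) : (f m).2 i ∈ fvals f := by
  simp only [fvals, mem_biUnion, mem_univ, true_and, mem_union, mem_image]
  exact ⟨m, Or.inr ⟨i, rfl⟩⟩

private theorem not_dvd_sprod {w μ : ℕ} (hμ : μ.Prime) (r : Fin w → ℕ)
    (hr : ∀ i, (r i).Prime ∧ r i < μ) (T : Finset (Fin w)) : ¬ μ ∣ sprod r T := by
  intro h
  obtain ⟨i, _, hi⟩ := (Prime.dvd_finsetProd_iff hμ.prime _).1 h
  have := (Nat.prime_dvd_prime_iff_eq hμ (hr i).1).1 hi
  have h2 := (hr i).2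
  omega

private theorem sprod_pos {w : ℕ} (r : Fin w → ℕ) (hr : ∀ i, (r i).Prime) (T : Finset (Fin w)) :
    0 < sprod r T :=
  Finset.prod_pos (fun i _ => (hr i).pos)

private theorem sprod_dvd {w : ℕ} (r : Fin w → ℕ) (T : Finset (Fin w)) :
    sprod r T ∣ ∏ i, r i :=
  Finset.prod_dvd_prod_of_subset _ _ _ (Finset.subset_univ T)

/-- **IV3 (the rich property).**  Every `ρ < P` divisible by no obstacle divides a sum of (at most) 144 distinct divisors of `V = richV n₁ e f μ`,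
with cofactor `κ ≡ 1 (mod π₁)`.

Proof.  `Q = primorial n₁`, `g = gcd ρ (Q^e)`, `ρr = ρ / g` (so `ρ = g * ρr`, `ρr ≥ 1`).
 * `q` prime, `q ∣ Q ↔ q ≤ n₁` (`Nat.Prime.dvd_primorial_iff`); `q^(e+1) ∈ obs`; so `coprime_div_gcd_pow` gives `Coprime ρr Q`: every prime factor of `ρr` is `> n₁`.
 * `N = ρr * π₁`:  `0 < N ≤ ρ π₁ < P π₁ ≤ 2^w`;  a divisor `m ≠ 1` of `N` has a prime factor (`Nat.exists_prime_and_dvd`) dividing `ρr` or equal to `π₁`, so `m > n₁`.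
 * entries `r ∈ fvals f` are primes, `r ∤ ρ` (obstacle) so `r ∤ ρr`, and `r ≠ π₁` (`r > 2 n₁ ≥ π₁`): `Coprime r N`.  Same for `μ`.
 * `exists_solution` with `τ = ρr`:  `Y := ∑_l μ^(idx l) a_l b_l ≡ ρr [MOD ρr * π₁]`.  Hence `ρr ∣ Y`; `κ := Y / ρr`; from `ρr * κ ≡ ρr * 1 [MOD ρr * π₁]` get
   `κ ≡ 1 [MOD π₁]` (`Nat.ModEq.mul_left_cancel'`), so `κ % π₁ = 1` (`π₁ ≥ 2`).
 * `d_l := g * (μ^(idx l) * a_l * b_l)`, `D := univ.image d`.  `l ↦ d_l` is injective: `μ` is prime and divides neither `g` (`g ∣ Q^e`, `μ > n₁`) nor `a_l b_l` (products of primes `< μ`),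
   so `padicValNat μ (d_l) = idx l` (or: `μ^(idx l) ∥ d_l`), and `idx` is injective.  `∑_{d ∈ D} d = g Y = g κ ρr = κ ρ` (`Finset.sum_image`).
 * `d_l ∣ V`:  `g ∣ Q^e`; `idx l ≤ 143`; `sprod r T ∣ ∏ i, r i` (`Finset.prod_dvd_prod_of_subset`), and the factor `m = l.2` of `fprod f` (`Finset.dvd_prod_of_mem`). -/
theorem rich_prop (w n₁ e μ π₁ P : ℕ) (f : Fin 12 → (Fin w → ℕ) × (Fin w → ℕ))
    (hgood : ∀ n, n₁ < n → n ≤ 2 ^ w → ∃ m, ¬ Bad w n (f m))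
    (hn₁ : 64 < n₁)
    (hf : ∀ q ∈ fvals f, q.Prime ∧ 2 * n₁ < q ∧ q < μ)
    (hμ : μ.Prime) (hμ1 : 2 * n₁ < μ)
    (hπ : π₁.Prime) (hπ1 : n₁ < π₁) (hπ2 : π₁ ≤ 2 * n₁)
    (hP : π₁ * P ≤ 2 ^ w)
    (ρ : ℕ) (h1 : 1 ≤ ρ) (h2 : ρ < P) (hobs : ∀ o ∈ obs n₁ e f μ, ¬ o ∣ ρ) :
    ∃ D : Finset ℕ, D.card ≤ 144 ∧ (∀ d ∈ D, d ∣ richV n₁ e f μ) ∧
      ∃ κ, κ % π₁ = 1 ∧ ∑ d ∈ D, d = κ * ρ := by
  classical
  set Q := primorial n₁ with hQ
  set g := Nat.gcd ρ (Q ^ e) with hg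
  set ρr := ρ / g with hρr
  have hgρ : g ∣ ρ := Nat.gcd_dvd_left _ _
  have hgQ : g ∣ Q ^ e := Nat.gcd_dvd_right _ _
  have hgpos : 0 < g := Nat.gcd_pos_of_pos_left _ h1
  have hρeq : g * ρr = ρ := Nat.mul_div_cancel' hgρ
  have hρrpos : 0 < ρr := by
    rcases Nat.eq_zero_or_pos ρr with h0 | h0
    · rw [h0, Nat.mul_zero] at hρeq; omega
    · exact h0
  have hρrdvd : ρr ∣ ρ := ⟨g, by rw [← hρeq, Nat.mul_comm]⟩
  have hρrle : ρr ≤ ρ := Nat.le_of_dvd h1 hρrdvd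
  -- obstacles
  have hobs1 : ∀ q, q.Prime → q ∣ Q → ¬ q ^ (e + 1) ∣ ρ := by
    intro q hq hqQ
    apply hobs
    have hle : q ≤ n₁ := (hq.dvd_primorial_iff).1 hqQ
    simp only [obs, mem_union, mem_image, mem_filter, mem_range, mem_singleton]
    exact Or.inl (Or.inl ⟨q, ⟨by omega, hq⟩, rfl⟩)
  have hobs2 : ∀ q ∈ fvals f, ¬ q ∣ ρ := by
    intro q hq
    apply hobs
    simp only [obs, mem_union, mem_singleton]
    exact Or.inl (Or.inr hq)
  have hobs3 : ¬ μ ∣ ρ := by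
    apply hobs
    simp only [obs, mem_union, mem_singleton]
    exact Or.inr trivial
  have hcopQ : Nat.Coprime ρr Q := coprime_div_gcd_pow Q e ρ h1 hobs1
  -- the modulus
  set N := ρr * π₁ with hN
  have hN0 : 0 < N := Nat.mul_pos hρrpos hπ.pos
  have hNle : N ≤ 2 ^ w := by
    calc N = ρr * π₁ := rfl
      _ ≤ P * π₁ := Nat.mul_le_mul_right _ (by omega)
      _ = π₁ * P := Nat.mul_comm _ _
      _ ≤ 2 ^ w := hP
  have hdiv : ∀ m, m ∣ N → m ≠ 1 → n₁ < m := by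
    intro m hm hm1
    obtain ⟨q, hq, hqm⟩ := Nat.exists_prime_and_dvd hm1
    have hmpos : 0 < m := Nat.pos_of_dvd_of_pos hm hN0
    have hqle : q ≤ m := Nat.le_of_dvd hmpos hqm
    have hqN : q ∣ ρr * π₁ := hqm.trans hm
    rcases (hq.dvd_mul).1 hqN with h | h
    · have : ¬ q ≤ n₁ := by
        intro hle
        have hqQ : q ∣ Q := (hq.dvd_primorial_iff).2 hle
        have := Nat.eq_one_of_dvd_coprimes hcopQ h hqQ
        exact hq.one_lt.ne' this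
      omega
    · have := (Nat.prime_dvd_prime_iff_eq hq hπ).1 h
      omega
  have hcopN : ∀ q, q.Prime → ¬ q ∣ ρ → 2 * n₁ < q → Nat.Coprime q N := by
    intro q hq hqρ hq2
    refine Nat.Coprime.mul_right ?_ ?_
    · exact (hq.coprime_iff_not_dvd).2 (fun h => hqρ (h.trans hρrdvd))
    · exact (Nat.coprime_primes hq hπ).2 (by omega)
  have hcop : ∀ m i, Nat.Coprime ((f m).1 i) N ∧ Nat.Coprime ((f m).2 i) N := by
    intro m i
    have ha := mem_fvals_fst f m i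
    have hb := mem_fvals_snd f m i
    exact ⟨hcopN _ (hf _ ha).1 (hobs2 _ ha) (hf _ ha).2.1,
      hcopN _ (hf _ hb).1 (hobs2 _ hb) (hf _ hb).2.1⟩
  have hμN : Nat.Coprime μ N := hcopN μ hμ hobs3 hμ1
  obtain ⟨T, T', hY⟩ := exists_solution w n₁ N μ f hgood hN0 hNle hdiv hcop hμN hn₁ ρr
  set Y := ∑ l, μ ^ (idx l) * sprod (f l.2).1 (T l) * sprod (f l.2).2 (T' l) with hYdef
  -- `ρr ∣ Y`
  have hρrY : ρr ∣ Y := by
    have h3 : Y ≡ ρr [MOD ρr] := Nat.ModEq.of_mul_right π₁ hY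
    have h4 : ρr ≡ 0 [MOD ρr] := (Nat.modEq_zero_iff_dvd).2 dvd_rfl
    exact (Nat.modEq_zero_iff_dvd).1 (h3.trans h4)
  obtain ⟨κ, hκ⟩ := hρrY
  have hκ1 : κ ≡ 1 [MOD π₁] := by
    have h5 : ρr * κ ≡ ρr * 1 [MOD ρr * π₁] := by
      rw [← hκ, Nat.mul_one]; exact hY
    exact Nat.ModEq.mul_left_cancel' hρrpos.ne' h5
  have hκmod : κ % π₁ = 1 := by
    have : κ % π₁ = 1 % π₁ := hκ1
    rw [this]
    exact Nat.mod_eq_of_lt hπ.one_lt
  -- the divisors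
  set c : Fin 12 × Fin 12 → ℕ :=
    fun l => g * (sprod (f l.2).1 (T l) * sprod (f l.2).2 (T' l)) with hc
  set d : Fin 12 × Fin 12 → ℕ :=
    fun l => g * (μ ^ (idx l) * sprod (f l.2).1 (T l) * sprod (f l.2).2 (T' l)) with hd
  have hfa : ∀ m i, ((f m).1 i).Prime ∧ (f m).1 i < μ := fun m i =>
    ⟨(hf _ (mem_fvals_fst f m i)).1, (hf _ (mem_fvals_fst f m i)).2.2⟩
  have hfb : ∀ m i, ((f m).2 i).Prime ∧ (f m).2 i < μ := fun m i =>
    ⟨(hf _ (mem_fvals_snd f m i)).1, (hf _ (mem_fvals_snd f m i)).2.2⟩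
  have hμg : ¬ μ ∣ g := by
    intro h
    have h6 : μ ∣ Q := hμ.dvd_of_dvd_pow (h.trans hgQ)
    have := (hμ.dvd_primorial_iff).1 h6
    omega
  have hμc : ∀ l, ¬ μ ∣ c l := by
    intro l h
    rcases (hμ.dvd_mul).1 h with h | h
    · exact hμg h
    · rcases (hμ.dvd_mul).1 h with h | h
      · exact not_dvd_sprod hμ _ (hfa l.2) _ h
      · exact not_dvd_sprod hμ _ (hfb l.2) _ h
  have hcpos : ∀ l, c l ≠ 0 := by
    intro l
    have h7 := sprod_pos (f l.2).1 (fun i => (hfa l.2 i).1) (T l)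
    have h8 := sprod_pos (f l.2).2 (fun i => (hfb l.2 i).1) (T' l)
    exact (Nat.mul_pos hgpos (Nat.mul_pos h7 h8)).ne'
  have hdc : ∀ l, d l = μ ^ (idx l) * c l := by
    intro l
    simp only [hd, hc]
    ring
  have hval : ∀ l, (d l).factorization μ = idx l := by
    intro l
    rw [hdc, Nat.factorization_mul (pow_ne_zero _ hμ.ne_zero) (hcpos l), Nat.factorization_pow]
    simp [hμ.factorization_self, Nat.factorization_eq_zero_of_not_dvd (hμc l)]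
  have hdinj : Function.Injective d := by
    intro l l' hll
    apply idx_injective
    rw [← hval l, ← hval l', hll]
  refine ⟨univ.image d, ?_, ?_, κ, hκmod, ?_⟩
  · calc (univ.image d).card ≤ (univ : Finset (Fin 12 × Fin 12)).card := Finset.card_image_le
      _ = 144 := by simp
  · intro x hx
    obtain ⟨l, _, rfl⟩ := Finset.mem_image.1 hx
    have h9 : sprod (f l.2).1 (T l) * sprod (f l.2).2 (T' l) ∣ fprod f := by
      refine dvd_trans (Nat.mul_dvd_mul (sprod_dvd _ _) (sprod_dvd _ _)) ?_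
      exact Finset.dvd_prod_of_mem
        (fun m => (∏ i, (f m).1 i) * (∏ i, (f m).2 i)) (Finset.mem_univ l.2)
    have h10 : μ ^ (idx l) ∣ μ ^ 143 := pow_dvd_pow _ (idx_le l)
    have h11 : d l = g * (sprod (f l.2).1 (T l) * sprod (f l.2).2 (T' l)) * μ ^ (idx l) := by
      simp only [hd]; ring
    rw [h11, richV]
    exact Nat.mul_dvd_mul (Nat.mul_dvd_mul hgQ h9) h10
  · rw [Finset.sum_image (fun a _ b _ hab => hdinj hab)]
    have h12 : ∑ l, d l = g * Y := by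
      rw [hYdef, Finset.mul_sum]
    rw [h12, hκ, ← hρeq]
    ring

end Crest.Agent.EG
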