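/-
ROW 19 / S0025, project EG.  TASK A1 (file EG_PartA.lean).
Uses EG_ExistsPrimes.exists_primes, EG_RichProp.rich_prop, EG_Obs.*, EG_Num.*, EG_Pool.*, EG_KI.KI.
-/
import Crest.Agent.EG_ExistsPrimes
import Crest.Agent.EG_RichProp
import Crest.Agent.EG_Obs
import Crest.Agent.EG_Pool
import Crest.Agent.EG_KI

set_option autoImplicit false

namespace Crest.Agent.EG

open Finset Nat

/-- **A1 (Part A: existence of the rich data).**

Construction.  `w = ww h`, `n₁ = n1 h`, `e = ee h`.  `exists_primes (pool h) _ (ZZ h) _ w (kap h) n₁ ..` (with `pool_prime`, `pool_card`, `n1_gt`, `KI`) gives `f`.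
Bertrand (`Nat.exists_prime_lt_and_le_two_mul`): a prime `μ ∈ (Z, 2Z]` and a prime `π₁ ∈ (n₁, 2n₁]`.
`R := { V := richV n₁ e f μ, p := π₁, H := HH h, W := WW h, P := PP h, t := 144, Obs := obs n₁ e f μ, .. }`.
Every `q ∈ fvals f` is in `pool h` (`mem_fvals_iff`): prime, `HH h < q ≤ ZZ h < μ`, and `2 n₁ < HH h`, `24 w + 1 < HH h` (`two_n1_lt_HH`), `π₁ ≤ 2 n₁`.
Fields: `hpV := not_dvd_richV`, `hV := richV_pos`, `hW := two_le_WW`, `hObsH := obs_ge` (with `HH_le`, `HH_le_ZZ`), `hObsp := obs_coprime`, `hcard` from `card_obs_le` (`HH h = 2 (n₁+24w+1) + 2`),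
`window := obs_window` (`WW h = primorial n₁ * (24 w + 3)` by definition), `rich := rich_prop` with `hP : π₁ * PP h ≤ 2 n₁ 2^(w-h) ≤ 2^h 2^(w-h) = 2^w` (`two_n1_le`, `h ≤ 2^h`).
Sizes: `richV_le` + `μ ≤ 2 Z` + `V_exp`;  `a₀ = 2 n₁ + h + 6`: `π₁ ≤ 2 n₁ ≤ 2^h ≤ 2^a₀`, `WW_le`, `HH h ≤ 2^(h+6) ≤ 2^a₀`, `a0_ineq`. -/
theorem partA (h : ℕ) (hh : h0 ≤ h) :
    ∃ R : RichData, R.t = 144 ∧ R.P = 2 ^ (2 ^ h - h) ∧ R.V ≤ 2 ^ (500 * h * 2 ^ h) ∧
      ∃ a₀ : ℕ, R.p ≤ 2 ^ a₀ ∧ R.W ≤ 2 ^ a₀ ∧ R.H ≤ 2 ^ a₀ ∧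
        a₀ * (2 * h + 8) + 2 * h + 8 ≤ 2 ^ (h - 1) := by
  have hw1 : 1 ≤ ww h := Nat.one_le_two_pow
  obtain ⟨hs1, hs2⟩ := pool_card h hh
  obtain ⟨f, hfmem, hgood⟩ := exists_primes (pool h) (fun q hq => (pool_prime h q hq).1) (ZZ h)
    (fun q hq => (pool_prime h q hq).2.2) (ww h) (kap h) (n1 h) hw1 hs1 hs2 (n1_gt h) (KI h hh)
  have hZ0 : ZZ h ≠ 0 := by unfold ZZ; positivity
  have hn0 : n1 h ≠ 0 := by have := n1_gt h; omega
  obtain ⟨μ, hμp, hμ1, hμ2⟩ := Nat.exists_prime_lt_and_le_two_mul (ZZ h) hZ0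
  obtain ⟨π₁, hπp, hπ1, hπ2⟩ := Nat.exists_prime_lt_and_le_two_mul (n1 h) hn0
  obtain ⟨hH1, hH2⟩ := two_n1_lt_HH h
  have hHZ := HH_le_ZZ h hh
  have hfv : ∀ q ∈ fvals f, q.Prime ∧ HH h < q ∧ q ≤ ZZ h := by
    intro q hq
    obtain ⟨m, i, hq | hq⟩ := (mem_fvals_iff f q).1 hq
    · rw [hq]; exact pool_prime h _ (hfmem m i).1
    · rw [hq]; exact pool_prime h _ (hfmem m i).2
  have hP : π₁ * PP h ≤ 2 ^ (ww h) := by
    have h1 : π₁ ≤ 2 ^ h := le_trans hπ2 (two_n1_le h hh)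
    have h2 : h ≤ 2 ^ h := Nat.lt_two_pow_self.le
    calc π₁ * PP h ≤ 2 ^ h * 2 ^ (2 ^ h - h) := Nat.mul_le_mul_right _ h1
      _ = 2 ^ (ww h) := by rw [← pow_add]; unfold ww; congr 1; omega
  let R : RichData :=
    { V := richV (n1 h) (ee h) f μ
      p := π₁
      H := HH h
      W := WW h
      P := PP h
      t := 144
      Obs := obs (n1 h) (ee h) f μ
      hp := hπp
      hpV := not_dvd_richV f (n1 h) (ee h) μ π₁ hπp hπ1
        (fun q hq => ⟨(hfv q hq).1, by have := (hfv q hq).2.1; omega⟩) hμp (by omega)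
      hV := richV_pos f (n1 h) (ee h) μ (fun q hq => (hfv q hq).1) hμp
      hW := two_le_WW h
      hObsH := obs_ge f (n1 h) (ee h) μ (HH h) (HH_le h hh)
        (fun q hq => (hfv q hq).2.1.le) (by omega)
      hObsp := obs_coprime f (n1 h) (ee h) μ π₁ hπp hπ1
        (fun q hq => ⟨(hfv q hq).1, by have := (hfv q hq).2.1; omega⟩) hμp (by omega)
      hcard := by
        have := card_obs_le f (n1 h) (ee h) μ
        unfold HH; omega
      window := fun y => obs_window f (n1 h) (ee h) μ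
        (fun q hq => ⟨(hfv q hq).1, by have := (hfv q hq).2.1; omega,
          by have := (hfv q hq).2.1; omega⟩) hμp (by omega) (by omega) y
      rich := fun ρ h1 h2 hobs => rich_prop (ww h) (n1 h) (ee h) μ π₁ (PP h) f hgood (n1_gt h)
        (fun q hq => ⟨(hfv q hq).1, by have := (hfv q hq).2.1; omega,
          by have := (hfv q hq).2.2; omega⟩) hμp (by omega) hπp hπ1 hπ2 hP ρ h1 h2 hobs }
  refine ⟨R, rfl, rfl, ?_, 2 * n1 h + h + 6, ?_, WW_le h, ?_, a0_ineq h hh⟩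
  · calc richV (n1 h) (ee h) f μ
        ≤ 4 ^ (n1 h * ee h) * (ZZ h) ^ (24 * ww h) * μ ^ 143 :=
          richV_le f (n1 h) (ee h) μ (ZZ h) (fun q hq => (hfv q hq).2.2)
      _ ≤ 4 ^ (n1 h * ee h) * (ZZ h) ^ (24 * ww h) * (2 * ZZ h) ^ 143 :=
          Nat.mul_le_mul_left _ (Nat.pow_le_pow_left hμ2 _)
      _ ≤ 2 ^ (500 * h * 2 ^ h) := V_exp h hh
  · calc π₁ ≤ 2 ^ h := le_trans hπ2 (two_n1_le h hh)
      _ ≤ 2 ^ (2 * n1 h + h + 6) := Nat.pow_le_pow_right (by norm_num) (by omega)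
  · calc HH h ≤ 2 ^ (ee h + 1) := HH_le h hh
      _ ≤ 2 ^ (2 * n1 h + h + 6) := Nat.pow_le_pow_right (by norm_num) (by unfold ee; omega)

end Crest.Agent.EG
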