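/-
ROW 19 / S0025, project EG.  TASK B3 (file EG_Rep.lean).  Needs only EG_Defs (`Rep`).
-/
import Crest.Agent.EG_Defs

set_option autoImplicit false

namespace Crest.Agent.EG

open Finset Nat

theorem Rep.refl (x : ℚ) (hx : 0 ≤ x) : Rep x x ∅ := by
  refine ⟨by simp, hx, ?_, ?_⟩ <;> simp

private theorem rep_term_nonneg (n : ℕ) : (0 : ℚ) ≤ 1 / (n : ℚ) := by positivity

/-- every unit fraction used is `≤ x`. -/
theorem Rep.le_of_mem {x x' : ℚ} {S : Finset ℕ} (h : Rep x x' S) {n : ℕ} (hn : n ∈ S) :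
    (1 : ℚ) / (n : ℚ) ≤ x := by
  have h1 : (1 : ℚ) / (n : ℚ) ≤ ∑ n ∈ S, (1 : ℚ) / (n : ℚ) :=
    Finset.single_le_sum (f := fun n : ℕ => (1 : ℚ) / (n : ℚ)) (fun i _ => rep_term_nonneg i) hn
  have h2 := h.sum_eq
  have h3 := h.nonneg
  linarith

theorem Rep.le {x x' : ℚ} {S : Finset ℕ} (h : Rep x x' S) : x' ≤ x := by
  have h1 : (0 : ℚ) ≤ ∑ n ∈ S, (1 : ℚ) / (n : ℚ) :=
    Finset.sum_nonneg (fun i _ => rep_term_nonneg i)
  have h2 := h.sum_eq
  linarith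

/-- composition.  Disjointness: `n' ∈ S'` has `1/n' ≤ x' < 1/n` for `n ∈ S`. -/
theorem Rep.trans {x x' x'' : ℚ} {S S' : Finset ℕ} (h : Rep x x' S) (h' : Rep x' x'' S') :
    Rep x x'' (S ∪ S') ∧ Disjoint S S' := by
  have hd : Disjoint S S' := by
    rw [Finset.disjoint_left]
    intro n hn hn'
    have h1 := h.lt n hn
    have h2 := h'.le_of_mem hn'
    linarith
  refine ⟨⟨?_, h'.nonneg, ?_, ?_⟩, hd⟩
  · rw [Finset.sum_union hd]
    have h1 := h.sum_eq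
    have h2 := h'.sum_eq
    linarith
  · intro n hn
    rcases Finset.mem_union.1 hn with hn | hn
    · exact h.two_le n hn
    · exact h'.two_le n hn
  · intro n hn
    rcases Finset.mem_union.1 hn with hn | hn
    · exact lt_of_le_of_lt h'.le (h.lt n hn)
    · exact h'.lt n hn

/-- one step. -/
theorem Rep.single (x : ℚ) (n : ℕ) (hn : 2 ≤ n) (h1 : (1 : ℚ) / (n : ℚ) ≤ x)
    (h2 : x - 1 / (n : ℚ) < 1 / (n : ℚ)) : Rep x (x - 1 / (n : ℚ)) {n} := by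
  refine ⟨by simp, by linarith, ?_, ?_⟩
  · intro m hm
    rw [Finset.mem_singleton.1 hm]; exact hn
  · intro m hm
    rw [Finset.mem_singleton.1 hm]; exact h2

/-- integrality of the remainder: if `b` and all `n ∈ S` divide `L` then `x' * L` is a natural number. -/
theorem Rep.exists_nat {a b : ℕ} {x' : ℚ} {S : Finset ℕ} (hb : 0 < b)
    (h : Rep ((a : ℚ) / (b : ℚ)) x' S) (L : ℕ) (hbL : b ∣ L) (hS : ∀ n ∈ S, n ∣ L) :
    ∃ A : ℕ, x' * (L : ℚ) = (A : ℚ) := by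
  obtain ⟨c, rfl⟩ := hbL
  have hbq : (b : ℚ) ≠ 0 := by exact_mod_cast hb.ne'
  -- the sum times L is a natural number
  have hsum : (∑ n ∈ S, (1 : ℚ) / (n : ℚ)) * ((b * c : ℕ) : ℚ)
      = ((∑ n ∈ S, (b * c) / n : ℕ) : ℚ) := by
    rw [Finset.sum_mul]
    push_cast
    refine Finset.sum_congr rfl ?_
    intro n hn
    have hn2 := h.two_le n hn
    have hnq : (n : ℚ) ≠ 0 := by
      have : 0 < n := by omega
      exact_mod_cast this.ne'
    rw [Nat.cast_div (hS n hn) hnq]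
    push_cast
    field_simp
  have hx : x' * ((b * c : ℕ) : ℚ) = ((a * c : ℕ) : ℚ) - ((∑ n ∈ S, (b * c) / n : ℕ) : ℚ) := by
    rw [← hsum]
    have h1 := h.sum_eq
    have h2 : x' = (a : ℚ) / (b : ℚ) - ∑ n ∈ S, (1 : ℚ) / (n : ℚ) := by linarith
    rw [h2, sub_mul]
    congr 1
    push_cast
    field_simp
  have hnn : (0 : ℚ) ≤ x' * ((b * c : ℕ) : ℚ) := mul_nonneg h.nonneg (by positivity)
  rw [hx] at hnn
  have hle : (∑ n ∈ S, (b * c) / n : ℕ) ≤ a * c := by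
    have : ((∑ n ∈ S, (b * c) / n : ℕ) : ℚ) ≤ ((a * c : ℕ) : ℚ) := by linarith
    exact_mod_cast this
  refine ⟨a * c - ∑ n ∈ S, (b * c) / n, ?_⟩
  rw [hx, Nat.cast_sub hle]

/-- greedy step: `0 < x < 1`, `n = ⌈1/x⌉₊`:  `2 ≤ n`, `1/n ≤ x`, `x - 1/n < x/n ≤ x²`, `x - 1/n < 1/n`, `x - 1/n < 1/2`; and `n ≤ T` if `1/T ≤ x`. -/
theorem greedy_step (x : ℚ) (hx0 : 0 < x) (hx1 : x < 1) :
    ∃ n : ℕ, 2 ≤ n ∧ (1 : ℚ) / (n : ℚ) ≤ x ∧ x - 1 / (n : ℚ) < x ^ 2 ∧ x - 1 / (n : ℚ) < 1 / (n : ℚ) ∧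
      x - 1 / (n : ℚ) < 1 / 2 ∧ ∀ T : ℕ, (1 : ℚ) / (T : ℚ) ≤ x → 1 ≤ T → n ≤ T := by
  set n : ℕ := ⌈1 / x⌉₊ with hn
  have hinv : (1 : ℚ) < 1 / x := by
    rw [lt_div_iff₀ hx0]; linarith
  have hle : 1 / x ≤ (n : ℚ) := Nat.le_ceil _
  have hlt : (n : ℚ) < 1 / x + 1 := Nat.ceil_lt_add_one (by positivity)
  have hn2 : 2 ≤ n := by
    have : (1 : ℚ) < (n : ℚ) := lt_of_lt_of_le hinv hle
    have : 1 < n := by exact_mod_cast this
    omega
  have hnpos : (0 : ℚ) < (n : ℚ) := by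
    have : 0 < n := by omega
    exact_mod_cast this
  have hn2q : (2 : ℚ) ≤ (n : ℚ) := by exact_mod_cast hn2
  -- 1 ≤ x n
  have h1 : 1 ≤ x * (n : ℚ) := by
    rw [div_le_iff₀ hx0] at hle
    linarith
  -- x n < 1 + x
  have h2 : x * (n : ℚ) < 1 + x := by
    have := mul_lt_mul_of_pos_left hlt hx0
    have h3 : x * (1 / x + 1) = 1 + x := by field_simp
    linarith
  have hA : (1 : ℚ) / (n : ℚ) ≤ x := by
    rw [div_le_iff₀ hnpos]; exact h1
  have hB : x - 1 / (n : ℚ) < x / (n : ℚ) := by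
    have : x - 1 / (n : ℚ) = (x * (n : ℚ) - 1) / (n : ℚ) := by field_simp
    rw [this]
    exact div_lt_div_of_pos_right (by linarith) hnpos
  have hC : x / (n : ℚ) ≤ x ^ 2 := by
    have : x / (n : ℚ) = x * (1 / (n : ℚ)) := by ring
    rw [this, pow_two]
    exact mul_le_mul_of_nonneg_left hA hx0.le
  have hD : x / (n : ℚ) < 1 / (n : ℚ) := div_lt_div_of_pos_right hx1 hnpos
  have hE : (1 : ℚ) / (n : ℚ) ≤ 1 / 2 := one_div_le_one_div_of_le (by norm_num) hn2q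
  refine ⟨n, hn2, hA, by linarith, by linarith, by linarith, ?_⟩
  intro T hT hT1
  have hTpos : (0 : ℚ) < (T : ℚ) := by
    have : 0 < T := by omega
    exact_mod_cast this
  rw [hn]
  apply Nat.ceil_le.2
  rw [div_le_iff₀ hx0]
  rw [div_le_iff₀ hTpos] at hT
  linarith

/-- squaring phase: if `x^(2^k) < 1/T` then `≤ k` greedy steps bring `x` below `1/T`; we stop as soon as `x < 1/T`, so all denominators are `≤ T`.
Induction on `k` (generalising `x`): if `x < 1/T` take `S = ∅`; otherwise `greedy_step`, `x₁ < x²`, `x₁^(2^k) < x^(2^(k+1)) < 1/T`, IH, `Rep.trans`. -/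
theorem early_aux (T : ℕ) (hT : 1 ≤ T) (k : ℕ) (x : ℚ) (hx0 : 0 ≤ x) (hx1 : x < 1)
    (hx : x ^ (2 ^ k) < 1 / (T : ℚ)) :
    ∃ (S : Finset ℕ) (x' : ℚ), Rep x x' S ∧ S.card ≤ k ∧ (∀ n ∈ S, n ≤ T) ∧ x' < 1 / (T : ℚ) := by
  induction k generalizing x with
  | zero =>
    refine ⟨∅, x, Rep.refl x hx0, by simp, by simp, ?_⟩
    simpa using hx
  | succ k ih =>
    by_cases hxT : x < 1 / (T : ℚ)
    · exact ⟨∅, x, Rep.refl x hx0, by simp, by simp, hxT⟩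
    · have hxT' : 1 / (T : ℚ) ≤ x := not_lt.1 hxT
      have hTpos : (0 : ℚ) < (T : ℚ) := by
        have : 0 < T := by omega
        exact_mod_cast this
      have hxpos : 0 < x := lt_of_lt_of_le (by positivity) hxT'
      obtain ⟨n, hn2, hA, hB, hC, _, hE⟩ := greedy_step x hxpos hx1
      have hx1nn : 0 ≤ x - 1 / (n : ℚ) := by linarith
      have hx1lt : x - 1 / (n : ℚ) < 1 := by
        have : (0 : ℚ) ≤ 1 / (n : ℚ) := rep_term_nonneg n
        linarith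
      have hpow : (x - 1 / (n : ℚ)) ^ (2 ^ k) < 1 / (T : ℚ) := by
        have h1 : (x - 1 / (n : ℚ)) ^ (2 ^ k) ≤ (x ^ 2) ^ (2 ^ k) :=
          pow_le_pow_left₀ hx1nn hB.le _
        have h2 : (x ^ 2) ^ (2 ^ k) = x ^ (2 ^ (k + 1)) := by
          rw [← pow_mul, pow_succ, mul_comm]
        rw [h2] at h1
        exact lt_of_le_of_lt h1 hx
      obtain ⟨S, x', hR, hcard, hST, hx'⟩ := ih (x - 1 / (n : ℚ)) hx1nn hx1lt hpow
      obtain ⟨hR', hdisj⟩ := (Rep.single x n hn2 hA hC).trans hR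
      refine ⟨{n} ∪ S, x', hR', ?_, ?_, hx'⟩
      · rw [Finset.card_union_of_disjoint hdisj, Finset.card_singleton]
        omega
      · intro m hm
        rcases Finset.mem_union.1 hm with hm | hm
        · rw [Finset.mem_singleton.1 hm]
          exact hE T hxT' hT
        · exact hST m hm

/-- **B3 (early phase).**  One greedy step brings `x` below `1/2`, and `(1/2)^(2^k) ≤ 1/T`; then `early_aux`.  (If `x < 1/T` already: `S = ∅`.) -/
theorem early (T k : ℕ) (hT1 : 1 ≤ T) (hT : T ≤ 2 ^ (2 ^ k)) (x : ℚ) (hx0 : 0 ≤ x) (hx1 : x < 1) :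
    ∃ (S : Finset ℕ) (x' : ℚ), Rep x x' S ∧ S.card ≤ k + 1 ∧ (∀ n ∈ S, n ≤ T) ∧ x' < 1 / (T : ℚ) := by
  by_cases hxT : x < 1 / (T : ℚ)
  · exact ⟨∅, x, Rep.refl x hx0, by simp, by simp, hxT⟩
  · have hxT' : 1 / (T : ℚ) ≤ x := not_lt.1 hxT
    have hTpos : (0 : ℚ) < (T : ℚ) := by
      have : 0 < T := by omega
      exact_mod_cast this
    have hxpos : 0 < x := lt_of_lt_of_le (by positivity) hxT'
    obtain ⟨n, hn2, hA, _, hC, hD, hE⟩ := greedy_step x hxpos hx1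
    have hx1nn : 0 ≤ x - 1 / (n : ℚ) := by linarith
    have hx1lt : x - 1 / (n : ℚ) < 1 := by linarith
    have hpow : (x - 1 / (n : ℚ)) ^ (2 ^ k) < 1 / (T : ℚ) := by
      have h1 : (x - 1 / (n : ℚ)) ^ (2 ^ k) < (1 / 2 : ℚ) ^ (2 ^ k) :=
        pow_lt_pow_left₀ hD hx1nn (by positivity)
      have h2 : (1 / 2 : ℚ) ^ (2 ^ k) ≤ 1 / (T : ℚ) := by
        rw [one_div_pow]
        apply one_div_le_one_div_of_le hTpos
        exact_mod_cast hT
      exact lt_of_lt_of_le h1 h2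
    obtain ⟨S, x', hR, hcard, hST, hx'⟩ := early_aux T hT1 k (x - 1 / (n : ℚ)) hx1nn hx1lt hpow
    obtain ⟨hR', hdisj⟩ := (Rep.single x n hn2 hA hC).trans hR
    refine ⟨{n} ∪ S, x', hR', ?_, ?_, hx'⟩
    · rw [Finset.card_union_of_disjoint hdisj, Finset.card_singleton]
      omega
    · intro m hm
      rcases Finset.mem_union.1 hm with hm | hm
      · rw [Finset.mem_singleton.1 hm]
        exact hE T hxT' hT1
      · exact hST m hm

end Crest.Agent.EG
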