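/-
ROW 19 / S0025, project EG.  TASK B4 (file EG_Main.lean).  Uses EG_Rep (Rep lemmas).
-/
import Crest.Agent.EG_Rep

set_option autoImplicit false

namespace Crest.Agent.EG

open Finset Nat

/-- shape of the denominators of the main phase: `n = p^e γ`, `γ` coprime to all obstacles and `≤ G`, `p^e ≤ p * Vb`. -/
def MainDen (R : RichData) (G Vb n : ℕ) : Prop :=
  ∃ e γ : ℕ, n = R.p ^ e * γ ∧ R.p ^ e ≤ R.p * Vb ∧ 1 ≤ γ ∧ γ ≤ G ∧ ∀ o ∈ R.Obs, Nat.Coprime γ o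

/-- **main step.**  `0 < x`, `x W < 1`, `1/Vb ≤ x`.

Proof.  Let `e` be the least natural number with `1 ≤ x * p^e * Py` (`Nat.find`; exists since `p^e → ∞`, e.g. `e < 2^e ≤ p^e` and Archimedes), `y = 1/(x p^e) ≤ Py`, `y > 0`.
`R.window ⌈y⌉₊` gives `γ` with `⌈y⌉₊ ≤ γ < ⌈y⌉₊ + W`, coprime to all obstacles.  So `y ≤ γ`, `γ - y < W`, `1 ≤ γ ≤ Py + W`.   `n = p^e γ`.
 * `1/n ≤ x ⇔ y ≤ γ`.   `x' := x - 1/n = x (γ - y)/γ < x W/γ ≤ x W / y = x² W p^e`.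
 * `e = 0`: `x' < x (x W)`, `y = 1/x > W`.
 * `e > 0`: minimality gives `x p^(e-1) Py < 1`, so `x p^e < p/Py`, `x' < x W p / Py ≤ x / M`; `y > Py/p ≥ M W ≥ W`; and `p^(e-1) < 1/(x Py) ≤ 1/x ≤ Vb`, so `p^e ≤ p Vb`.
 * `x' < 1/n ⇔ γ - y < y ⇐ W ≤ y`.   `n ≥ 2` since `1/n ≤ x < 1`. -/
theorem main_step (R : RichData) (Py M Vb : ℕ) (hM1 : 1 ≤ M) (hM : M * (R.p * R.W) ≤ Py) (hVb : 1 ≤ Vb)
    (x : ℚ) (hx0 : 0 < x) (hxW : x * (R.W : ℚ) < 1) (hxV : 1 ≤ x * (Vb : ℚ)) :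
    ∃ n : ℕ, MainDen R (Py + R.W) Vb n ∧ 2 ≤ n ∧ (1 : ℚ) / (n : ℚ) ≤ x ∧ x - 1 / (n : ℚ) < 1 / (n : ℚ) ∧
      x - 1 / (n : ℚ) < x * max (x * (R.W : ℚ)) (1 / (M : ℚ)) := by
  have hp2 : 2 ≤ R.p := R.hp.two_le
  have hW2 : 2 ≤ R.W := R.hW
  have hpQ : (2 : ℚ) ≤ (R.p : ℚ) := by exact_mod_cast hp2
  have hWQ : (2 : ℚ) ≤ (R.W : ℚ) := by exact_mod_cast hW2
  have hMQ : (1 : ℚ) ≤ (M : ℚ) := by exact_mod_cast hM1
  have hMPy : (M : ℚ) * ((R.p : ℚ) * (R.W : ℚ)) ≤ (Py : ℚ) := by exact_mod_cast hM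
  have hPyN : 1 ≤ Py :=
    le_trans (Nat.mul_pos (by omega) (Nat.mul_pos (by omega) (by omega))) hM
  have hPy1 : (1 : ℚ) ≤ (Py : ℚ) := by exact_mod_cast hPyN
  -- existence of e
  have hex : ∃ e : ℕ, 1 ≤ x * (R.p : ℚ) ^ e * (Py : ℚ) := by
    obtain ⟨e, he⟩ := exists_nat_gt (1 / x)
    refine ⟨e, ?_⟩
    have h1 : (e : ℚ) < (R.p : ℚ) ^ e := by
      have : e < R.p ^ e := Nat.lt_pow_self hp2
      exact_mod_cast this
    have h2 : 1 / x < (R.p : ℚ) ^ e := lt_trans he h1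
    have h3 : 1 < x * (R.p : ℚ) ^ e := by
      rw [div_lt_iff₀ hx0] at h2
      linarith
    nlinarith
  classical
  set e := Nat.find hex with he_def
  have he : 1 ≤ x * (R.p : ℚ) ^ e * (Py : ℚ) := Nat.find_spec hex
  have hmin : ∀ e' < e, ¬ (1 ≤ x * (R.p : ℚ) ^ e' * (Py : ℚ)) := fun e' h => Nat.find_min hex h
  set a : ℚ := x * (R.p : ℚ) ^ e with ha_def
  have hpe0 : (0 : ℚ) < (R.p : ℚ) ^ e := by positivity
  have ha0 : 0 < a := by positivity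
  -- key facts on a
  have hkey : a * (R.W : ℚ) ≤ max (x * (R.W : ℚ)) (1 / (M : ℚ)) ∧ a * (R.W : ℚ) < 1 ∧
      R.p ^ e ≤ R.p * Vb := by
    rcases Nat.eq_zero_or_pos e with h0 | hpos
    · have : a = x := by rw [ha_def, h0]; simp
      refine ⟨?_, ?_, ?_⟩
      · rw [this]; exact le_max_left _ _
      · rw [this]; exact hxW
      · rw [h0]; simp; nlinarith
    · obtain ⟨e', he'⟩ : ∃ e', e = e' + 1 := ⟨e - 1, by omega⟩
      have hm := hmin e' (by omega)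
      push Not at hm
      have hpe' : (0 : ℚ) < (R.p : ℚ) ^ e' := by positivity
      have hb0 : 0 < x * (R.p : ℚ) ^ e' := by positivity
      have haeq : a = x * (R.p : ℚ) ^ e' * (R.p : ℚ) := by rw [ha_def, he', pow_succ]; ring
      have h1 : a * (R.W : ℚ) * (M : ℚ) < 1 := by
        calc a * (R.W : ℚ) * (M : ℚ) = x * (R.p : ℚ) ^ e' * ((M : ℚ) * ((R.p : ℚ) * (R.W : ℚ))) := by
              rw [haeq]; ring
          _ ≤ x * (R.p : ℚ) ^ e' * (Py : ℚ) := by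
              exact mul_le_mul_of_nonneg_left hMPy hb0.le
          _ < 1 := hm
      have hM0 : (0 : ℚ) < (M : ℚ) := by linarith
      have haW0 : 0 < a * (R.W : ℚ) := by positivity
      refine ⟨?_, ?_, ?_⟩
      · refine le_trans ?_ (le_max_right _ _)
        rw [le_div_iff₀ hM0]; exact h1.le
      · nlinarith
      · -- p^e' < Vb
        have h2 : x * (R.p : ℚ) ^ e' < 1 := by nlinarith
        have h3 : (R.p : ℚ) ^ e' < (Vb : ℚ) := by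
          by_contra hcon
          push Not at hcon
          have : x * (Vb : ℚ) ≤ x * (R.p : ℚ) ^ e' := mul_le_mul_of_nonneg_left hcon hx0.le
          linarith
        have h4 : R.p ^ e' < Vb := by exact_mod_cast h3
        rw [he', pow_succ]
        nlinarith
  obtain ⟨hk1, hk2, hk3⟩ := hkey
  obtain ⟨γ, hγ1, hγ2, hγ3⟩ := R.window ⌈1 / a⌉₊
  have hy0 : 0 < 1 / a := by positivity
  have hc1 : 1 / a ≤ (⌈1 / a⌉₊ : ℚ) := Nat.le_ceil _
  have hc2 : (⌈1 / a⌉₊ : ℚ) < 1 / a + 1 := Nat.ceil_lt_add_one hy0.le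
  have hc3 : ⌈1 / a⌉₊ ≤ Py := by
    rw [Nat.ceil_le, div_le_iff₀ ha0]; linarith
  have hc4 : 1 ≤ ⌈1 / a⌉₊ := Nat.one_le_ceil_iff.mpr hy0
  have hγQ1 : (⌈1 / a⌉₊ : ℚ) ≤ (γ : ℚ) := by exact_mod_cast hγ1
  have hγQ2 : (γ : ℚ) + 1 ≤ (⌈1 / a⌉₊ : ℚ) + (R.W : ℚ) := by exact_mod_cast hγ2
  have hγ0 : (0 : ℚ) < (γ : ℚ) := by
    have : 1 ≤ γ := le_trans hc4 hγ1
    exact_mod_cast this
  have haγ1 : 1 ≤ a * (γ : ℚ) := by
    have : 1 / a ≤ (γ : ℚ) := le_trans hc1 hγQ1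
    rw [div_le_iff₀ ha0] at this; linarith
  have haγ2 : a * (γ : ℚ) < 1 + a * (R.W : ℚ) := by
    have h : (γ : ℚ) < 1 / a + (R.W : ℚ) := by linarith
    have h' : a * (γ : ℚ) < a * (1 / a + (R.W : ℚ)) := mul_lt_mul_of_pos_left h ha0
    have h'' : a * (1 / a + (R.W : ℚ)) = 1 + a * (R.W : ℚ) := by field_simp
    linarith
  have hn_cast : ((R.p ^ e * γ : ℕ) : ℚ) = (R.p : ℚ) ^ e * (γ : ℚ) := by push_cast; ring
  have hinv : (1 : ℚ) / ((R.p ^ e * γ : ℕ) : ℚ) = x / (a * (γ : ℚ)) := by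
    rw [hn_cast, ha_def]; field_simp
  have haγ0 : 0 < a * (γ : ℚ) := by positivity
  have hle : (1 : ℚ) / ((R.p ^ e * γ : ℕ) : ℚ) ≤ x := by
    rw [hinv, div_le_iff₀ haγ0]; nlinarith
  refine ⟨R.p ^ e * γ, ⟨e, γ, rfl, hk3, le_trans hc4 hγ1, by omega, hγ3⟩, ?_, hle, ?_, ?_⟩
  · -- 2 ≤ n
    by_contra hcon
    push Not at hcon
    have hnpos : 0 < R.p ^ e * γ := by
      have : 0 < R.p ^ e := by positivity
      have : 1 ≤ γ := le_trans hc4 hγ1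
      positivity
    have h1 : R.p ^ e * γ = 1 := by omega
    rw [h1] at hle
    simp at hle
    nlinarith
  · rw [hinv, sub_lt_iff_lt_add, ← add_div, lt_div_iff₀ haγ0]
    nlinarith
  · rw [hinv]
    have h1 : x - x / (a * (γ : ℚ)) = x * ((a * (γ : ℚ) - 1) / (a * (γ : ℚ))) := by
      field_simp
    rw [h1]
    apply mul_lt_mul_of_pos_left _ hx0
    refine lt_of_lt_of_le ?_ hk1
    rw [div_lt_iff₀ haγ0]
    have : 0 < a * (R.W : ℚ) := by positivity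
    nlinarith

/-- iteration along a majorant sequence `β`: `β (i+1) ≥ β i * max (β i W) (1/M)`, `β i W ≤ 1`.  If `x < β i` (or `x ≤ β i`) then `≤ k` main steps bring `x` below `max`-free bound: either `x' Vb < 1` or `x' < β (i+k)`.
Induction on `k`, generalising `i, x`: if `x * Vb < 1` stop (`S = ∅`); if `k = 0` stop; otherwise `main_step` (note `x > 0` because `1 ≤ x Vb`), `x₁ < x max (x W) (1/M) ≤ β i max (β i W) (1/M) ≤ β (i+1)`, IH, `Rep.trans`. -/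
theorem main_iter (R : RichData) (Py M Vb : ℕ) (hM1 : 1 ≤ M) (hM : M * (R.p * R.W) ≤ Py) (hVb : 1 ≤ Vb)
    (β : ℕ → ℚ) (hβ0 : ∀ i, 0 ≤ β i) (hβW : ∀ i, β i * (R.W : ℚ) ≤ 1)
    (hβ : ∀ i, β i * max (β i * (R.W : ℚ)) (1 / (M : ℚ)) ≤ β (i + 1))
    (k i : ℕ) (x : ℚ) (hx0 : 0 ≤ x) (hx : x < β i) :
    ∃ (S : Finset ℕ) (x' : ℚ), Rep x x' S ∧ S.card ≤ k ∧ (∀ n ∈ S, MainDen R (Py + R.W) Vb n) ∧
      (x' * (Vb : ℚ) < 1 ∨ x' < β (i + k)) := by
  induction k generalizing i x with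
  | zero =>
    exact ⟨∅, x, Rep.refl x hx0, by simp, by simp, Or.inr (by simpa using hx)⟩
  | succ k ih =>
    by_cases hstop : x * (Vb : ℚ) < 1
    · exact ⟨∅, x, Rep.refl x hx0, by simp, by simp, Or.inl hstop⟩
    · have hxV : 1 ≤ x * (Vb : ℚ) := not_lt.mp hstop
      have hW0 : (0 : ℚ) < (R.W : ℚ) := by
        have := R.hW
        have h : 0 < R.W := by omega
        exact_mod_cast h
      have hxpos : 0 < x := by
        rcases hx0.eq_or_lt with h | h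
        · rw [← h] at hxV; simp at hxV; linarith
        · exact h
      have hxW : x * (R.W : ℚ) < 1 :=
        lt_of_lt_of_le (mul_lt_mul_of_pos_right hx hW0) (hβW i)
      obtain ⟨n, hn1, hn2, hn3, hn4, hn5⟩ := main_step R Py M Vb hM1 hM hVb x hxpos hxW hxV
      have hx1 : x - 1 / (n : ℚ) < β (i + 1) := by
        refine lt_of_lt_of_le hn5 (le_trans ?_ (hβ i))
        have hmax : max (x * (R.W : ℚ)) (1 / (M : ℚ)) ≤ max (β i * (R.W : ℚ)) (1 / (M : ℚ)) :=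
          max_le_max (mul_le_mul_of_nonneg_right hx.le hW0.le) le_rfl
        have hmax0 : 0 ≤ max (x * (R.W : ℚ)) (1 / (M : ℚ)) :=
          le_trans (by positivity) (le_max_left _ _)
        exact mul_le_mul hx.le hmax hmax0 (hβ0 i)
      obtain ⟨S, x', hS1, hS2, hS3, hS4⟩ := ih (i + 1) (x - 1 / (n : ℚ)) (by linarith) hx1
      obtain ⟨hT1, hT2⟩ := (Rep.single x n hn2 hn3 hn4).trans hS1
      refine ⟨{n} ∪ S, x', hT1, ?_, ?_, ?_⟩
      · calc ({n} ∪ S).card ≤ ({n} : Finset ℕ).card + S.card := Finset.card_union_le _ _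
          _ ≤ k + 1 := by simp; omega
      · intro m hm
        rcases Finset.mem_union.mp hm with h | h
        · rw [Finset.mem_singleton.mp h]; exact hn1
        · exact hS3 m h
      · have : i + 1 + k = i + (k + 1) := by ring
        rw [this] at hS4; exact hS4

/-- auxiliary sequence -/
private def useq (M : ℕ) : ℕ → ℚ
  | 0 => 1 / 2
  | i + 1 => useq M i * max (useq M i) (1 / (M : ℚ))

private theorem useq_pos (M : ℕ) (i : ℕ) : 0 < useq M i := by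
  induction i with
  | zero => simp [useq]
  | succ i ih =>
    simp only [useq]
    exact mul_pos ih (lt_of_lt_of_le ih (le_max_left _ _))

private theorem useq_le_half (M : ℕ) (hM1 : 1 ≤ M) (i : ℕ) : useq M i ≤ 1 / 2 := by
  have hMQ : (1 : ℚ) ≤ (M : ℚ) := by exact_mod_cast hM1
  induction i with
  | zero => simp [useq]
  | succ i ih =>
    simp only [useq]
    have h1 : max (useq M i) (1 / (M : ℚ)) ≤ 1 := by
      apply max_le (by linarith)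
      rw [div_le_one (by linarith)]; exact hMQ
    have := useq_pos M i
    nlinarith

private theorem useq_le_max (M : ℕ) (hM1 : 1 ≤ M) (i : ℕ) :
    useq M i ≤ max ((1 / 2 : ℚ) ^ (2 ^ i)) (1 / (M : ℚ)) := by
  have hMQ : (1 : ℚ) ≤ (M : ℚ) := by exact_mod_cast hM1
  have hM0 : (0 : ℚ) < 1 / (M : ℚ) := by positivity
  induction i with
  | zero => simp [useq]
  | succ i ih =>
    simp only [useq]
    have hpos := useq_pos M i
    have hhalf := useq_le_half M hM1 i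
    by_cases hc : useq M i ≤ 1 / (M : ℚ)
    · rw [max_eq_right hc]
      refine le_trans ?_ (le_max_right _ _)
      nlinarith
    · have hc' : 1 / (M : ℚ) < useq M i := not_le.mp hc
      rw [max_eq_left hc'.le]
      refine le_trans ?_ (le_max_left _ _)
      have h1 : useq M i ≤ (1 / 2 : ℚ) ^ (2 ^ i) := by
        rcases le_max_iff.mp ih with h | h
        · exact h
        · exact absurd h hc
      calc useq M i * useq M i ≤ (1 / 2 : ℚ) ^ (2 ^ i) * (1 / 2 : ℚ) ^ (2 ^ i) :=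
            mul_le_mul h1 h1 hpos.le (by positivity)
        _ = (1 / 2 : ℚ) ^ (2 ^ (i + 1)) := by rw [← pow_add]; congr 1; ring

private theorem useq_tail (M : ℕ) (hM1 : 1 ≤ M) (k₁ : ℕ) (h : useq M k₁ ≤ 1 / (M : ℚ)) (j : ℕ) :
    useq M (k₁ + j) ≤ 1 / (M : ℚ) ^ (j + 1) := by
  have hMQ : (1 : ℚ) ≤ (M : ℚ) := by exact_mod_cast hM1
  have hM0 : (0 : ℚ) < (M : ℚ) := by linarith
  induction j with
  | zero => simpa using h
  | succ j ih =>
    have hpos := useq_pos M (k₁ + j)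
    have hle : useq M (k₁ + j) ≤ 1 / (M : ℚ) := by
      refine le_trans ih ?_
      apply one_div_le_one_div_of_le hM0
      calc (M : ℚ) = (M : ℚ) ^ 1 := (pow_one _).symm
        _ ≤ (M : ℚ) ^ (j + 1) := pow_le_pow_right₀ hMQ (by omega)
    have : useq M (k₁ + (j + 1)) = useq M (k₁ + j) * max (useq M (k₁ + j)) (1 / (M : ℚ)) := rfl
    rw [this, max_eq_right hle]
    calc useq M (k₁ + j) * (1 / (M : ℚ)) ≤ 1 / (M : ℚ) ^ (j + 1) * (1 / (M : ℚ)) :=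
          mul_le_mul_of_nonneg_right ih (by positivity)
      _ = 1 / (M : ℚ) ^ (j + 1 + 1) := by
          rw [pow_succ (M : ℚ) (j + 1)]; field_simp

/-- the majorant sequence: `β i = max ((1/2)^(2^i)) (1/M) / W` for `i ≤ k₁` and `β (k₁ + i) = 1/(M^(i+1) W)` ... any choice will do.  Statement: there is a sequence as required by `main_iter` with
`β 0 = 1/W²`‑ish start (`1/W² ≤ β 0`) and `β (k₁ + k₂) ≤ 1/Vb`.
Suggested: `u 0 = 1/2`, `u (i+1) = u i * max (u i) (1/M)`, `β i = u i / W`.  Then `u i ≤ max ((1/2)^(2^i)) (1/M)` by induction, so `u k₁ ≤ 1/M`, then `u (k₁ + i) ≤ 1/M^(i+1)`; `β (k₁+k₂) ≤ 1/(M^(k₂+1) W) ≤ 1/Vb`. -/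
theorem exists_majorant (W M Vb k₁ k₂ : ℕ) (hW : 2 ≤ W) (hM1 : 1 ≤ M) (hMk : M ≤ 2 ^ (2 ^ k₁)) (hV : Vb ≤ M ^ k₂) (hVb : 1 ≤ Vb) :
    ∃ β : ℕ → ℚ, (∀ i, 0 ≤ β i) ∧ (∀ i, β i * (W : ℚ) ≤ 1) ∧
      (∀ i, β i * max (β i * (W : ℚ)) (1 / (M : ℚ)) ≤ β (i + 1)) ∧
      1 / (W : ℚ) ^ 2 ≤ β 0 ∧ β (k₁ + k₂) * (Vb : ℚ) ≤ 1 := by
  have hWQ : (2 : ℚ) ≤ (W : ℚ) := by exact_mod_cast hW
  have hW0 : (0 : ℚ) < (W : ℚ) := by linarith
  have hMQ : (1 : ℚ) ≤ (M : ℚ) := by exact_mod_cast hM1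
  have hM0 : (0 : ℚ) < (M : ℚ) := by linarith
  have hVQ : (1 : ℚ) ≤ (Vb : ℚ) := by exact_mod_cast hVb
  have hcancel : ∀ i, useq M i / (W : ℚ) * (W : ℚ) = useq M i := fun i => by field_simp
  refine ⟨fun i => useq M i / (W : ℚ), ?_, ?_, ?_, ?_, ?_⟩
  · intro i; exact div_nonneg (useq_pos M i).le hW0.le
  · intro i
    show useq M i / (W : ℚ) * (W : ℚ) ≤ 1
    rw [hcancel]; linarith [useq_le_half M hM1 i]
  · intro i
    show useq M i / (W : ℚ) * max (useq M i / (W : ℚ) * (W : ℚ)) (1 / (M : ℚ)) ≤ useq M (i + 1) / (W : ℚ)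
    rw [hcancel]
    have : useq M (i + 1) = useq M i * max (useq M i) (1 / (M : ℚ)) := rfl
    rw [this]
    apply le_of_eq; ring
  · show 1 / (W : ℚ) ^ 2 ≤ useq M 0 / (W : ℚ)
    have : useq M 0 = 1 / 2 := rfl
    rw [this, div_le_div_iff₀ (by positivity) hW0]
    nlinarith
  · show useq M (k₁ + k₂) / (W : ℚ) * (Vb : ℚ) ≤ 1
    have h1 : useq M k₁ ≤ 1 / (M : ℚ) := by
      refine le_trans (useq_le_max M hM1 k₁) (max_le ?_ le_rfl)
      rw [one_div_pow]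
      apply one_div_le_one_div_of_le hM0
      exact_mod_cast hMk
    have h2 := useq_tail M hM1 k₁ h1 k₂
    have h3 : (Vb : ℚ) ≤ (M : ℚ) ^ (k₂ + 1) := by
      have : (Vb : ℚ) ≤ (M : ℚ) ^ k₂ := by exact_mod_cast hV
      refine le_trans this (pow_le_pow_right₀ hMQ (by omega))
    have hMk0 : (0 : ℚ) < (M : ℚ) ^ (k₂ + 1) := by positivity
    have h4 : useq M (k₁ + k₂) * (Vb : ℚ) ≤ 1 := by
      calc useq M (k₁ + k₂) * (Vb : ℚ) ≤ 1 / (M : ℚ) ^ (k₂ + 1) * (M : ℚ) ^ (k₂ + 1) :=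
            mul_le_mul h2 h3 (by linarith) (by positivity)
        _ = 1 := by field_simp
    rw [div_mul_eq_mul_div, div_le_one hW0]
    linarith

/-- **B4 (main phase).**  From `x < 1/W²` to `x' < 1/Vb` in `≤ k₁ + k₂` steps. (`exists_majorant` + `main_iter` with `i = 0`, `k = k₁ + k₂`.) -/
theorem main_phase (R : RichData) (Py M Vb k₁ k₂ : ℕ) (hM1 : 1 ≤ M) (hM : M * (R.p * R.W) ≤ Py) (hVb : 1 ≤ Vb)
    (hMk : M ≤ 2 ^ (2 ^ k₁)) (hV : Vb ≤ M ^ k₂)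
    (x : ℚ) (hx0 : 0 ≤ x) (hx : x < 1 / (R.W : ℚ) ^ 2) :
    ∃ (S : Finset ℕ) (x' : ℚ), Rep x x' S ∧ S.card ≤ k₁ + k₂ ∧ (∀ n ∈ S, MainDen R (Py + R.W) Vb n) ∧
      x' * (Vb : ℚ) < 1 := by
  obtain ⟨β, hb0, hbW, hb, hbs, hbe⟩ := exists_majorant R.W M Vb k₁ k₂ R.hW hM1 hMk hV hVb
  obtain ⟨S, x', h1, h2, h3, h4⟩ :=
    main_iter R Py M Vb hM1 hM hVb β hb0 hbW hb (k₁ + k₂) 0 x hx0 (lt_of_lt_of_le hx hbs)
  refine ⟨S, x', h1, h2, h3, ?_⟩
  rcases h4 with h | h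
  · exact h
  · rw [zero_add] at h
    have hVQ : (0 : ℚ) < (Vb : ℚ) := by exact_mod_cast hVb
    exact lt_of_lt_of_le (mul_lt_mul_of_pos_right h hVQ) hbe

end Crest.Agent.EG
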