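/-
ROW 19 / S0025, project EG.  TASK B5 (file EG_PartB.lean).  Uses EG_Digits.digits, EG_Rep.*, EG_Main.main_phase.
-/
import Crest.Agent.EG_Digits
import Crest.Agent.EG_Main

set_option autoImplicit false

namespace Crest.Agent.EG

open Finset Nat

/-- **B5a (the tail).**  A remainder `0 < x₂ < 1/V` whose denominator divides `F * ∏ l` (`F` arbitrary with `1 ≤ F`, `F (4H+2) ≤ P - 1`; `l` a nonempty list of admissible radices) is a sum of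
`≤ t (|l|+1)` distinct unit fractions.

Proof.  `c₀ = ⌊1/(x₂ V)⌋₊ ≥ 1`;  `1/2 < x₂ V c₀ ≤ 1`  (`⌊t⌋ > t/2` for `t ≥ 1`).  `f₀ = F (4H+2)`, `L = f₀ ∏l`.  `A := A₀ * (4H+2) * V * c₀` where `x₂ (F ∏l) = A₀`; then `(A:ℚ) = x₂ V c₀ L`, so `L/2 < A ≤ L`:
`A ≤ f₀ ∏l ≤ (P-1) ∏l` and `A ≥ L/2 = (2H+1) F ∏l ≥ (2H+1) ∏l`.   `digits` with `c = c₀ f₀`:  `∑ 1/n = A/(c₀ f₀ ∏l V) = x₂`. -/
theorem tail (R : RichData) (l : List ℕ)
    (hl : ∀ f ∈ l, 2 ≤ f ∧ R.p ∣ f ∧ R.H * f ≤ R.P ∧ ∀ o ∈ R.Obs, Nat.Coprime f o) (hne : l ≠ [])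
    (F : ℕ) (hF1 : 1 ≤ F) (hF : F * (4 * R.H + 2) + 1 ≤ R.P)
    (x₂ : ℚ) (hx0 : 0 < x₂) (hxV : x₂ * (R.V : ℚ) < 1) (A₀ : ℕ) (hA₀ : x₂ * ((F * l.prod : ℕ) : ℚ) = (A₀ : ℚ)) :
    ∃ T : Finset ℕ, T.card ≤ R.t * (l.length + 1) ∧ (∀ n ∈ T, 1 ≤ n) ∧ ∑ n ∈ T, (1 : ℚ) / (n : ℚ) = x₂ := by
  have hVpos : (0 : ℚ) < (R.V : ℚ) := by exact_mod_cast R.hV
  have hprod : 0 < l.prod := List.prod_pos (fun f hf => by have := (hl f hf).1; omega)
  have hprodQ : (0 : ℚ) < (l.prod : ℚ) := by exact_mod_cast hprod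
  have hFQ : (0 : ℚ) < (F : ℚ) := by exact_mod_cast hF1
  set y : ℚ := x₂ * (R.V : ℚ) with hy
  have hy0 : 0 < y := mul_pos hx0 hVpos
  set c₀ : ℕ := ⌊1 / y⌋₊ with hc₀
  have hone : (1 : ℚ) ≤ 1 / y := by
    rw [le_div_iff₀ hy0]; linarith
  have hc1 : 1 ≤ c₀ := by
    rw [hc₀]; exact Nat.le_floor (by simpa using hone)
  have hc_le : (c₀ : ℚ) ≤ 1 / y := Nat.floor_le (by positivity)
  have hc_lt : 1 / y < (c₀ : ℚ) + 1 := Nat.lt_floor_add_one _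
  have hc1Q : (1 : ℚ) ≤ (c₀ : ℚ) := by exact_mod_cast hc1
  have hyc_le : y * (c₀ : ℚ) ≤ 1 := by
    have := mul_le_mul_of_nonneg_left hc_le hy0.le
    rwa [mul_one_div, div_self hy0.ne'] at this
  have hyc_gt : 1 < 2 * (y * (c₀ : ℚ)) := by
    have h1 : y * (1 / y) < y * ((c₀ : ℚ) + 1) := mul_lt_mul_of_pos_left hc_lt hy0
    rw [mul_one_div, div_self hy0.ne'] at h1
    nlinarith
  set A : ℕ := A₀ * (4 * R.H + 2) * R.V * c₀ with hA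
  set L : ℕ := F * (4 * R.H + 2) * l.prod with hL
  have hAQ : (A : ℚ) = (y * (c₀ : ℚ)) * (L : ℚ) := by
    rw [hA, hL]
    simp only [Nat.cast_mul, Nat.cast_add, Nat.cast_ofNat]
    rw [← hA₀, hy]
    simp only [Nat.cast_mul]
    ring
  have hLpos : (0 : ℚ) < (L : ℚ) := by
    rw [hL]; simp only [Nat.cast_mul, Nat.cast_add, Nat.cast_ofNat]; positivity
  have hAleL : A ≤ L := by
    have : (A : ℚ) ≤ (L : ℚ) := by
      rw [hAQ]
      calc y * (c₀ : ℚ) * (L : ℚ) ≤ 1 * (L : ℚ) := by gcongr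
        _ = L := one_mul _
    exact_mod_cast this
  have hLlt : L < 2 * A := by
    have : (L : ℚ) < 2 * (A : ℚ) := by
      rw [hAQ]
      nlinarith
    exact_mod_cast this
  have hhi : A ≤ (R.P - 1) * l.prod := by
    refine hAleL.trans ?_
    rw [hL]
    exact Nat.mul_le_mul_right _ (by omega)
  have hlo : (2 * R.H + 1) * l.prod ≤ A := by
    have h1 : (2 * R.H + 1) * l.prod ≤ (2 * R.H + 1) * l.prod * F := Nat.le_mul_of_pos_right _ hF1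
    have h2 : L = 2 * ((2 * R.H + 1) * l.prod * F) := by rw [hL]; ring
    omega
  have hcpos : 1 ≤ c₀ * (F * (4 * R.H + 2)) := by
    have : 0 < c₀ * (F * (4 * R.H + 2)) := by positivity
    omega
  obtain ⟨T, hTc, hT1, hTs⟩ := digits R l hl hne (c₀ * (F * (4 * R.H + 2))) A hcpos hlo hhi
  refine ⟨T, hTc, hT1, ?_⟩
  rw [hTs, hAQ, hL, hy]
  have hc0Q : (c₀ : ℚ) ≠ 0 := by positivity
  have hH : ((4 : ℚ) * (R.H : ℚ) + 2) ≠ 0 := by positivity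
  simp only [Nat.cast_mul, Nat.cast_add, Nat.cast_ofNat]
  field_simp

/-- **B5b (radices from the main phase).**  Given the finite set `S₂` of main-phase denominators, there is an admissible list of radices of length `≤ B + #S₂` whose product is divisible by every `n ∈ S₂`.

Proof.  `choose` `e n`, `γ n` from `MainDen`.  `l = List.replicate B (p^p₀) ++ S₂.toList.map (fun n => p * γ n)`.  Admissibility of `p^p₀`: `2 ≤ p ≤ p^p₀`, `p ∣ p^p₀` (`p₀ ≥ 1`), `h8`, `Nat.Coprime.pow_left` with `R.hObsp`.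
Admissibility of `p γ`: `H (p γ) ≤ H (p G) ≤ P`; `Nat.Coprime.mul_left`.   `l.prod = (p^p₀)^B * ∏_{n∈S₂} (p γ n)`.   `n = p^e γ`: `p^e ≤ p Vb ≤ (p^p₀)^B = p^(p₀ B)` gives `e ≤ p₀ B` (`Nat.pow_le_pow_iff_right`), so `p^e ∣ (p^p₀)^B`; `γ n ∣ p γ n ∣ ∏`.
`l ≠ []` because `B ≥ 1` (else `p Vb ≤ 1`). -/
theorem exists_radices (R : RichData) (G Vb p₀ B : ℕ) (hVb : 1 ≤ Vb) (h4 : R.H * (R.p * G) ≤ R.P)
    (h7 : 1 ≤ p₀) (h8 : R.H * R.p ^ p₀ ≤ R.P) (h9 : R.p * Vb ≤ (R.p ^ p₀) ^ B)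
    (S₂ : Finset ℕ) (hS₂ : ∀ n ∈ S₂, MainDen R G Vb n) :
    ∃ l : List ℕ, l ≠ [] ∧ l.length ≤ B + S₂.card ∧
      (∀ f ∈ l, 2 ≤ f ∧ R.p ∣ f ∧ R.H * f ≤ R.P ∧ ∀ o ∈ R.Obs, Nat.Coprime f o) ∧
      ∀ n ∈ S₂, n ∣ l.prod := by
  have hp2 : 2 ≤ R.p := R.hp.two_le
  have hex : ∀ n, ∃ e γ : ℕ, n ∈ S₂ → (n = R.p ^ e * γ ∧ R.p ^ e ≤ R.p * Vb ∧ 1 ≤ γ ∧ γ ≤ G ∧
      ∀ o ∈ R.Obs, Nat.Coprime γ o) := by
    intro n
    by_cases hn : n ∈ S₂
    · obtain ⟨e, γ, h⟩ := hS₂ n hn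
      exact ⟨e, γ, fun _ => h⟩
    · exact ⟨0, 0, fun h => absurd h hn⟩
  choose e γ heγ using hex
  have hB : 1 ≤ B := by
    by_contra hB0
    have hB0' : B = 0 := by omega
    rw [hB0', pow_zero] at h9
    have : 2 * 1 ≤ R.p * Vb := Nat.mul_le_mul hp2 hVb
    omega
  refine ⟨List.replicate B (R.p ^ p₀) ++ S₂.toList.map (fun n => R.p * γ n), ?_, ?_, ?_, ?_⟩
  · intro h
    have := congrArg List.length h
    simp at this
    omega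
  · simp
  · intro f hf
    rw [List.mem_append] at hf
    rcases hf with hf | hf
    · have hfe : f = R.p ^ p₀ := (List.mem_replicate.mp hf).2
      subst hfe
      refine ⟨?_, dvd_pow_self _ (by omega), h8, fun o ho => Nat.Coprime.pow_left _ (R.hObsp o ho)⟩
      exact hp2.trans (Nat.le_self_pow (by omega) _)
    · rw [List.mem_map] at hf
      obtain ⟨n, hn, rfl⟩ := hf
      rw [Finset.mem_toList] at hn
      obtain ⟨-, -, hγ1, hγG, hγo⟩ := heγ n hn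
      refine ⟨?_, dvd_mul_right _ _, ?_, fun o ho => Nat.Coprime.mul_left (R.hObsp o ho) (hγo o ho)⟩
      · calc 2 = 2 * 1 := rfl
          _ ≤ R.p * γ n := Nat.mul_le_mul hp2 hγ1
      · refine le_trans ?_ h4
        exact Nat.mul_le_mul_left _ (Nat.mul_le_mul_left _ hγG)
  · intro n hn
    obtain ⟨hne, hpe, -, -, -⟩ := heγ n hn
    rw [List.prod_append, List.prod_replicate, Finset.prod_map_toList]
    have h1 : R.p ^ e n ∣ (R.p ^ p₀) ^ B := by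
      rw [← pow_mul]
      apply pow_dvd_pow
      have h2 : R.p ^ e n ≤ R.p ^ (p₀ * B) := by
        rw [pow_mul]; exact hpe.trans h9
      exact (Nat.pow_le_pow_iff_right (by omega)).mp h2
    have h2 : γ n ∣ ∏ m ∈ S₂, R.p * γ m :=
      (dvd_mul_left _ _).trans (Finset.dvd_prod_of_mem (fun m => R.p * γ m) hn)
    calc n = R.p ^ e n * γ n := hne
      _ ∣ _ := mul_dvd_mul h1 h2

/-- **B5 (Part B).**  Abstract parameters; see `EG_TheoremM` for the concrete choice.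

Proof.  `x₀ = a/b ∈ (0,1)`.  `early` with `T = W²`, `k = k₀`: `Rep x₀ x₁ S₁`, `#S₁ ≤ k₀+1`, all `n ∈ S₁` are `≤ W²`, `x₁ < 1/W²`.
`main_phase` with `Vb = V`: `Rep x₁ x₂ S₂`, `#S₂ ≤ k₁+k₂`, `x₂ V < 1`.  `Rep.trans`: `Rep x₀ x₂ (S₁ ∪ S₂)`.   If `x₂ = 0` we are done with `S = S₁ ∪ S₂`.
Otherwise `exists_radices` (`G = Py + W`) gives `l`; `F := b * ∏_{n∈S₁} n ≤ bmax (W²)^(k₀+1)` (`Finset.prod_le_pow_card`), so `F (4H+2) + 1 ≤ P` by `h2`;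
`Rep.exists_nat` with `L = F * l.prod` (`b ∣ F`, `n ∣ F` for `n ∈ S₁`, `n ∣ l.prod` for `n ∈ S₂`) gives `A₀`; `tail` gives `T`.
`S = S₁ ∪ S₂ ∪ T`:  each `n ∈ T` has `1/n ≤ ∑_T = x₂ < 1/n'` for all `n' ∈ S₁ ∪ S₂` (`Rep.lt`), so `T` is disjoint from `S₁ ∪ S₂`; and `1/n ≤ x₂ < 1/V ≤ 1` gives `n ≥ 2`. -/
theorem partB (R : RichData) (k₀ k₁ k₂ p₀ B Py M bmax : ℕ)
    (h1 : R.W ^ 2 ≤ 2 ^ (2 ^ k₀))
    (h2 : bmax * (R.W ^ 2) ^ (k₀ + 1) * (4 * R.H + 2) + 1 ≤ R.P)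
    (h3 : M * (R.p * R.W) ≤ Py) (h3' : 1 ≤ M)
    (h4 : R.H * (R.p * (Py + R.W)) ≤ R.P)
    (h5 : M ≤ 2 ^ (2 ^ k₁))
    (h6 : R.V ≤ M ^ k₂)
    (h7 : 1 ≤ p₀) (h8 : R.H * R.p ^ p₀ ≤ R.P) (h9 : R.p * R.V ≤ (R.p ^ p₀) ^ B)
    (a b : ℕ) (ha : 1 ≤ a) (hab : a < b) (hb : b ≤ bmax) :
    ∃ S : Finset ℕ, (∀ n ∈ S, 2 ≤ n) ∧
      S.card ≤ (k₀ + 1) + (k₁ + k₂) + R.t * (B + (k₁ + k₂) + 1) ∧
      ∑ n ∈ S, (1 : ℚ) / (n : ℚ) = (a : ℚ) / (b : ℚ) := by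
  have hbpos : 0 < b := by omega
  have hbQ : (0 : ℚ) < (b : ℚ) := by exact_mod_cast hbpos
  have hW2 : 1 ≤ R.W ^ 2 := Nat.one_le_pow _ _ (by have := R.hW; omega)
  have hx00 : (0 : ℚ) ≤ (a : ℚ) / (b : ℚ) := by positivity
  have hx01 : (a : ℚ) / (b : ℚ) < 1 := by
    rw [div_lt_one hbQ]; exact_mod_cast hab
  obtain ⟨S₁, x₁, hR1, hc1, hS1, hx1⟩ := early (R.W ^ 2) k₀ hW2 h1 _ hx00 hx01
  have hx1' : x₁ < 1 / (R.W : ℚ) ^ 2 := by
    have := hx1; push_cast at this; exact this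
  obtain ⟨S₂, x₂, hR2, hc2, hS2, hx2⟩ :=
    main_phase R Py M R.V k₁ k₂ h3' h3 R.hV h5 h6 x₁ hR1.nonneg hx1'
  obtain ⟨hR, hdisj⟩ := hR1.trans hR2
  have hcU : (S₁ ∪ S₂).card ≤ (k₀ + 1) + (k₁ + k₂) :=
    (Finset.card_union_le _ _).trans (Nat.add_le_add hc1 hc2)
  by_cases hx20 : x₂ = 0
  · refine ⟨S₁ ∪ S₂, hR.two_le, hcU.trans (Nat.le_add_right _ _), ?_⟩
    have := hR.sum_eq
    rw [hx20, zero_add] at this
    exact this.symm
  · have hx2pos : 0 < x₂ := lt_of_le_of_ne hR.nonneg (Ne.symm hx20)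
    obtain ⟨l, hlne, hllen, hladm, hldvd⟩ :=
      exists_radices R (Py + R.W) R.V p₀ B R.hV h4 h7 h8 h9 S₂ hS2
    set F : ℕ := b * ∏ n ∈ S₁, n with hFdef
    have hprod1 : 1 ≤ ∏ n ∈ S₁, n := by
      have : 0 < ∏ n ∈ S₁, n := Finset.prod_pos (fun n hn => by have := hR1.two_le n hn; omega)
      omega
    have hF1 : 1 ≤ F := by
      have : 0 < F := Nat.mul_pos hbpos (by omega)
      omega
    have hprodle : ∏ n ∈ S₁, n ≤ (R.W ^ 2) ^ (k₀ + 1) :=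
      (Finset.prod_le_pow_card S₁ (fun n => n) (R.W ^ 2) hS1).trans
        (Nat.pow_le_pow_right hW2 hc1)
    have hFle : F ≤ bmax * (R.W ^ 2) ^ (k₀ + 1) := Nat.mul_le_mul hb hprodle
    have hF : F * (4 * R.H + 2) + 1 ≤ R.P := by
      refine le_trans ?_ h2
      exact Nat.add_le_add_right (Nat.mul_le_mul_right _ hFle) 1
    obtain ⟨A₀, hA₀⟩ := hR.exists_nat hbpos (F * l.prod)
      ((dvd_mul_right b _).trans (dvd_mul_right F _))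
      (by
        intro n hn
        rw [Finset.mem_union] at hn
        rcases hn with hn | hn
        · exact ((Finset.dvd_prod_of_mem (fun n => n) hn).trans (dvd_mul_left _ b)).trans
            (dvd_mul_right F _)
        · exact (hldvd n hn).trans (dvd_mul_left _ F))
    obtain ⟨T, hTc, hT1, hTs⟩ := tail R l hladm hlne F hF1 hF x₂ hx2pos hx2 A₀ hA₀
    have hTle : ∀ n ∈ T, (1 : ℚ) / (n : ℚ) ≤ x₂ := by
      intro n hn
      rw [← hTs]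
      exact Finset.single_le_sum (f := fun n : ℕ => (1 : ℚ) / (n : ℚ))
        (fun i _ => by positivity) hn
    have hdisjT : Disjoint (S₁ ∪ S₂) T := by
      rw [Finset.disjoint_left]
      intro n hn hnT
      exact absurd (hTle n hnT) (not_le.mpr (hR.lt n hn))
    have hx2lt1 : x₂ < 1 := by
      have hV1 : (1 : ℚ) ≤ (R.V : ℚ) := by exact_mod_cast R.hV
      nlinarith
    refine ⟨(S₁ ∪ S₂) ∪ T, ?_, ?_, ?_⟩
    · intro n hn
      rw [Finset.mem_union] at hn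
      rcases hn with hn | hn
      · exact hR.two_le n hn
      · have h1n := hT1 n hn
        by_contra hlt
        have hn1 : n = 1 := by omega
        have := hTle n hn
        rw [hn1] at this
        norm_num at this
        linarith
    · refine (Finset.card_union_le _ _).trans (Nat.add_le_add hcU ?_)
      refine hTc.trans (Nat.mul_le_mul_left _ ?_)
      omega
    · rw [Finset.sum_union hdisjT, hTs]
      have := hR.sum_eq
      linarith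

end Crest.Agent.EG
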