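/-
ROW 19 / S0025, project EG.  TASK M1 (file EG_TheoremM.lean).  Uses EG_PartA.partA, EG_PartB.partB.
-/
import Crest.Agent.EG_PartA
import Crest.Agent.EG_PartB

set_option autoImplicit false

namespace Crest.Agent.EG

open Finset Nat

/-- **M1a (choice of the Part B parameters).**  Everything is a power of two.  Write `w = 2^h`, so `w/2 = 2^(h-1)`, and `E := a₀ (2h+8) + 2h + 8 ≤ w/2`.
 * `k₀ = k₁ = h`, `k₂ = 2 C h`, `B = 2 C h + 1`, `bmax = 2^(2^(h-1))`, `Py = 2^(w - h - 2a₀ - 1)`, `M = 2^(w - h - 4a₀ - 1)`, `p₀ = Nat.log p (P / H)`.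
 * h1: `W² ≤ 2^(2a₀) ≤ 2^w`.
 * h2: `2^(w/2) 2^(2a₀(h+1)) (4·2^a₀ + 2) + 1 ≤ 2^(w/2 + 2a₀(h+1) + a₀ + 3) + 1 ≤ 2^(w-h)` as `a₀(2h+3) + 4 + h ≤ w/2`.
 * h3: `M p W ≤ 2^(w-h-4a₀-1+2a₀) ≤ Py`.   h4: `W ≤ Py`, `H p (Py + W) ≤ 2^(2a₀) 2 Py = 2^(w-h)`.   h5: `M ≤ 2^w`.
 * h6: `w - h - 4a₀ - 1 ≥ w/2`, so `M^(2Ch) ≥ 2^(C h w) ≥ V`.
 * h7–h9: `x := P / H ≥ 2^(w-h-a₀) ≥ p`, so `p₀ ≥ 1`; `p^p₀ ≤ x` (`Nat.pow_log_le_self`) gives `H p^p₀ ≤ P`; `x < p^(p₀+1)` (`Nat.lt_pow_succ_log_self`) gives `p^p₀ ≥ 2^(w-h-2a₀) ≥ 2^(w/2)` (`p^p₀ * 2^a₀ ≥ p^(p₀+1) > x`);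
   `(p^p₀)^B ≥ 2^((w/2)(2Ch+1)) = 2^(C h w) 2^(w/2) ≥ V p`. -/
theorem partB_params (R : RichData) (h C a₀ : ℕ) (hh : 1 ≤ h) (hP : R.P = 2 ^ (2 ^ h - h))
    (hV : R.V ≤ 2 ^ (C * h * 2 ^ h)) (hp : R.p ≤ 2 ^ a₀) (hW : R.W ≤ 2 ^ a₀) (hH : R.H ≤ 2 ^ a₀)
    (ha₀ : a₀ * (2 * h + 8) + 2 * h + 8 ≤ 2 ^ (h - 1))
    (a b : ℕ) (ha : 1 ≤ a) (hab : a < b) (hb : b ≤ 2 ^ (2 ^ (h - 1))) :
    ∃ S : Finset ℕ, (∀ n ∈ S, 2 ≤ n) ∧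
      S.card ≤ (h + 1) + (h + 2 * C * h) + R.t * ((2 * C * h + 1) + (h + 2 * C * h) + 1) ∧
      ∑ n ∈ S, (1 : ℚ) / (n : ℚ) = (a : ℚ) / (b : ℚ) := by
  obtain ⟨v, hv⟩ : ∃ v, v = 2 ^ (h - 1) := ⟨_, rfl⟩
  obtain ⟨w, hw⟩ : ∃ w, w = 2 ^ h := ⟨_, rfl⟩
  have hwv : w = 2 * v := by
    rw [hw, hv, ← pow_succ']; congr 1; omega
  obtain ⟨X, hX⟩ : ∃ X, X = a₀ * h := ⟨_, rfl⟩
  have hE : 2 * X + 8 * a₀ + 2 * h + 8 ≤ v := by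
    rw [hv, hX]; calc _ = a₀ * (2 * h + 8) + 2 * h + 8 := by ring
      _ ≤ _ := ha₀
  rw [← hw] at hP hV
  rw [← hv] at hb
  have two1 : (1:ℕ) ≤ 2 := by norm_num
  have hpw : ∀ {x y : ℕ}, x ≤ y → 2 ^ x ≤ 2 ^ y := fun hxy => Nat.pow_le_pow_right two1 hxy
  have hp2 : 2 ≤ R.p := R.hp.two_le
  have hH2 : 2 ≤ R.H := by have := R.hcard; omega
  -- the block exponent
  have hx1 : 2 ^ (w - h - a₀) ≤ R.P / R.H := by
    rw [Nat.le_div_iff_mul_le (by omega)]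
    calc 2 ^ (w - h - a₀) * R.H ≤ 2 ^ (w - h - a₀) * 2 ^ a₀ := Nat.mul_le_mul_left _ hH
      _ = R.P := by rw [← pow_add, hP]; congr 1; omega
  have hx2 : R.p ≤ R.P / R.H := le_trans hp (le_trans (hpw (by omega)) hx1)
  have hx0 : R.P / R.H ≠ 0 := by omega
  have h7 : 1 ≤ Nat.log R.p (R.P / R.H) := Nat.log_pos (by omega) hx2
  have h8 : R.H * R.p ^ (Nat.log R.p (R.P / R.H)) ≤ R.P := by
    have := Nat.pow_log_le_self R.p hx0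
    calc R.H * R.p ^ (Nat.log R.p (R.P / R.H)) ≤ R.H * (R.P / R.H) := Nat.mul_le_mul_left _ this
      _ ≤ R.P := Nat.mul_div_le _ _
  have hblock : 2 ^ v ≤ R.p ^ (Nat.log R.p (R.P / R.H)) := by
    have h1 : R.P / R.H < R.p ^ (Nat.log R.p (R.P / R.H) + 1) :=
      Nat.lt_pow_succ_log_self (by omega) _
    have h2 : 2 ^ (w - h - a₀) < R.p ^ (Nat.log R.p (R.P / R.H)) * 2 ^ a₀ := by
      calc 2 ^ (w - h - a₀) ≤ R.P / R.H := hx1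
        _ < R.p ^ (Nat.log R.p (R.P / R.H) + 1) := h1
        _ = R.p ^ (Nat.log R.p (R.P / R.H)) * R.p := pow_succ _ _
        _ ≤ _ := Nat.mul_le_mul_left _ hp
    have h3 : 2 ^ (w - h - a₀) = 2 ^ (w - h - 2 * a₀) * 2 ^ a₀ := by
      rw [← pow_add]; congr 1; omega
    rw [h3] at h2
    have h4 := Nat.lt_of_mul_lt_mul_right h2
    exact le_trans (hpw (by omega)) h4.le
  have h9 : R.p * R.V ≤ (R.p ^ (Nat.log R.p (R.P / R.H))) ^ (2 * C * h + 1) := by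
    calc R.p * R.V ≤ 2 ^ a₀ * 2 ^ (C * h * w) := Nat.mul_le_mul hp hV
      _ = 2 ^ (a₀ + C * h * w) := by rw [← pow_add]
      _ ≤ 2 ^ (v * (2 * C * h + 1)) := hpw (by
          have : v * (2 * C * h + 1) = C * h * w + v := by rw [hwv]; ring
          rw [this]; omega)
      _ = (2 ^ v) ^ (2 * C * h + 1) := by rw [← pow_mul]
      _ ≤ _ := Nat.pow_le_pow_left hblock _
  have hW2 : R.W ^ 2 ≤ 2 ^ (2 * a₀) := by
    calc R.W ^ 2 ≤ (2 ^ a₀) ^ 2 := Nat.pow_le_pow_left hW _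
      _ = 2 ^ (2 * a₀) := by rw [← pow_mul]; congr 1; ring
  have key := partB R h h (2 * C * h) (Nat.log R.p (R.P / R.H)) (2 * C * h + 1)
    (2 ^ (w - h - 2 * a₀ - 1)) (2 ^ (w - h - 4 * a₀ - 1)) (2 ^ v)
    (by rw [← hw]; exact le_trans hW2 (hpw (by omega)))
    (by
      have h41 : 4 * R.H + 2 ≤ 2 ^ (a₀ + 3) := by
        have : 1 ≤ 2 ^ a₀ := Nat.one_le_two_pow
        rw [pow_add]; omega
      have h42 : (R.W ^ 2) ^ (h + 1) ≤ 2 ^ (2 * X + 2 * a₀) := by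
        calc (R.W ^ 2) ^ (h + 1) ≤ (2 ^ (2 * a₀)) ^ (h + 1) := Nat.pow_le_pow_left hW2 _
          _ = 2 ^ (2 * X + 2 * a₀) := by rw [← pow_mul, hX]; congr 1; ring
      have h43 : 2 ^ v * (R.W ^ 2) ^ (h + 1) * (4 * R.H + 2) ≤ 2 ^ (v + (2 * X + 2 * a₀) + (a₀ + 3)) := by
        rw [pow_add 2 (v + (2 * X + 2 * a₀)), pow_add 2 v]
        exact Nat.mul_le_mul (Nat.mul_le_mul_left _ h42) h41
      have h44 : 2 ^ (v + (2 * X + 2 * a₀) + (a₀ + 3)) + 1 ≤ 2 ^ (v + (2 * X + 2 * a₀) + (a₀ + 3) + 1) := by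
        have : 1 ≤ 2 ^ (v + (2 * X + 2 * a₀) + (a₀ + 3)) := Nat.one_le_two_pow
        rw [pow_succ]; omega
      rw [hP]
      exact le_trans (by omega) (le_trans h44 (hpw (by omega))))
    (by
      calc 2 ^ (w - h - 4 * a₀ - 1) * (R.p * R.W) ≤ 2 ^ (w - h - 4 * a₀ - 1) * (2 ^ a₀ * 2 ^ a₀) :=
            Nat.mul_le_mul_left _ (Nat.mul_le_mul hp hW)
        _ = 2 ^ (w - h - 2 * a₀ - 1) := by rw [← pow_add, ← pow_add]; congr 1; omega)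
    Nat.one_le_two_pow
    (by
      have h1 : R.W ≤ 2 ^ (w - h - 2 * a₀ - 1) := le_trans hW (hpw (by omega))
      calc R.H * (R.p * (2 ^ (w - h - 2 * a₀ - 1) + R.W))
          ≤ 2 ^ a₀ * (2 ^ a₀ * (2 ^ (w - h - 2 * a₀ - 1) + 2 ^ (w - h - 2 * a₀ - 1))) :=
            Nat.mul_le_mul hH (Nat.mul_le_mul hp (by omega))
        _ = 2 ^ a₀ * (2 ^ a₀ * 2 ^ (w - h - 2 * a₀ - 1 + 1)) := by rw [pow_succ]; ring
        _ = R.P := by rw [← pow_add, ← pow_add, hP]; congr 1; omega)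
    (by rw [← hw]; exact hpw (by omega))
    (by
      calc R.V ≤ 2 ^ (C * h * w) := hV
        _ ≤ 2 ^ ((w - h - 4 * a₀ - 1) * (2 * C * h)) := hpw (by
            have h1 : v ≤ w - h - 4 * a₀ - 1 := by omega
            calc C * h * w = v * (2 * C * h) := by rw [hwv]; ring
              _ ≤ _ := Nat.mul_le_mul_right _ h1)
        _ = _ := by rw [← pow_mul])
    h7 h8 h9 a b ha hab hb
  exact key

/-- **M1 (Theorem M).**  `partA` + `partB_params` with `C = 500`, `t = 144`:  count `≤ (h+1) + 1001 h + 144 (2001 h + 2) ≤ 289435 h`. -/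
theorem theoremM (h : ℕ) (hh : h0 ≤ h) (a b : ℕ) (ha : 1 ≤ a) (hab : a < b)
    (hb : b ≤ 2 ^ (2 ^ (h - 1))) :
    ∃ S : Finset ℕ, (∀ n ∈ S, 2 ≤ n) ∧ S.card ≤ 300000 * h ∧
      ∑ n ∈ S, (1 : ℚ) / (n : ℚ) = (a : ℚ) / (b : ℚ) := by
  have hh1 : 1 ≤ h := le_trans (by unfold h0; norm_num) hh
  obtain ⟨R, ht, hP, hV, a₀, hp, hW, hH, ha₀⟩ := partA h hh
  obtain ⟨S, h2, hc, hs⟩ := partB_params R h 500 a₀ hh1 hP hV hp hW hH ha₀ a b ha hab hb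
  refine ⟨S, h2, le_trans hc ?_, hs⟩
  rw [ht]; omega

end Crest.Agent.EG
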