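/-
ROW 19 / S0025, project EG.  TASK F1 (file EG_Final.lean).  Uses EG_TheoremM.theoremM.
-/
import Crest.Agent.EG_TheoremM

set_option autoImplicit false

namespace Crest.Agent.EG

open Finset Nat

private theorem final_aux (h0 : ℕ) (hH : 200 ≤ h0)
    (theoremM : ∀ (h : ℕ), h0 ≤ h → ∀ (a b : ℕ), 1 ≤ a → a < b → b ≤ 2 ^ (2 ^ (h - 1)) →
      ∃ S : Finset ℕ, (∀ n ∈ S, 2 ≤ n) ∧ S.card ≤ 300000 * h ∧
        ∑ n ∈ S, (1 : ℚ) / (n : ℚ) = (a : ℚ) / (b : ℚ)) :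
    ∃ C : ℝ, ∃ b₀ : ℕ, ∀ (a b : ℕ), b₀ ≤ b → 1 ≤ a → a < b →
      ∃ S : Finset ℕ, (∀ n ∈ S, 2 ≤ n) ∧ (S.card : ℝ) ≤ C * Real.log (Real.log (b : ℝ)) ∧
        ∑ n ∈ S, (1 : ℚ) / (n : ℚ) = (a : ℚ) / (b : ℚ) := by
  refine ⟨1000000, 2 ^ (2 ^ h0), ?_⟩
  intro a b hb ha hab
  obtain ⟨L₁, hL₁⟩ : ∃ L, L = Nat.clog 2 b := ⟨_, rfl⟩
  obtain ⟨L₂, hL₂⟩ : ∃ L, L = Nat.clog 2 L₁ := ⟨_, rfl⟩
  have h1 : b ≤ 2 ^ L₁ := hL₁ ▸ Nat.le_pow_clog (by norm_num) b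
  have h2 : L₁ ≤ 2 ^ L₂ := hL₂ ▸ Nat.le_pow_clog (by norm_num) L₁
  have h3 : 2 ^ h0 ≤ L₁ := by
    have := Nat.clog_mono_right 2 hb
    rwa [Nat.clog_pow 2 _ (by norm_num), ← hL₁] at this
  have h4 : h0 ≤ L₂ := by
    have := Nat.clog_mono_right 2 h3
    rwa [Nat.clog_pow 2 _ (by norm_num), ← hL₂] at this
  have h200 : 200 ≤ L₂ := hH.trans h4
  have hb1 : 1 < b := by omega
  have hL1 : 200 < L₁ := lt_of_lt_of_le (lt_of_le_of_lt hH Nat.lt_two_pow_self) h3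
  have p1 : 2 ^ (L₁ - 1) < b := by
    have := Nat.pow_pred_clog_lt_self (b := 2) (by norm_num) hb1
    rwa [← hL₁, Nat.pred_eq_sub_one] at this
  have p2 : 2 ^ (L₂ - 1) < L₁ := by
    have := Nat.pow_pred_clog_lt_self (b := 2) (x := L₁) (by norm_num) (by omega)
    rwa [← hL₂, Nat.pred_eq_sub_one] at this
  obtain ⟨S, hS2, hScard, hSsum⟩ := theoremM (L₂ + 1) (by omega) a b ha hab
    (by simpa using h1.trans (Nat.pow_le_pow_right (by norm_num) h2))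
  refine ⟨S, hS2, ?_, hSsum⟩
  clear hb h3 h1 h2 hSsum hS2
  have hlog2 : (1 / 2 : ℝ) < Real.log 2 := by
    have := Real.log_two_gt_d9
    linarith
  -- real estimates
  have q1 : ((L₁ : ℝ) - 1) * Real.log 2 < Real.log b := by
    have h : ((2 : ℝ) ^ (L₁ - 1)) < (b : ℝ) := by exact_mod_cast p1
    have h' := Real.log_lt_log (by positivity) h
    rw [Real.log_pow, Nat.cast_sub (by omega)] at h'
    simpa using h'
  have hL1R : (200 : ℝ) < (L₁ : ℝ) := by exact_mod_cast hL1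
  have hL2R : (200 : ℝ) ≤ (L₂ : ℝ) := by exact_mod_cast h200
  have q2 : (L₁ : ℝ) < 4 * Real.log b := by nlinarith
  have hx : 0 < Real.log b := by nlinarith
  have q3 : ((L₂ : ℝ) - 1) * Real.log 2 < 2 * Real.log 2 + Real.log (Real.log b) := by
    have h : ((2 : ℝ) ^ (L₂ - 1)) < 4 * Real.log b := lt_trans (by exact_mod_cast p2) q2
    have h' := Real.log_lt_log (by positivity) h
    rw [Real.log_pow, Nat.cast_sub (by omega), Real.log_mul (by norm_num) hx.ne',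
      show (4 : ℝ) = 2 ^ 2 by norm_num, Real.log_pow] at h'
    simpa using h'
  have q4 : ((L₂ : ℝ) + 1) ≤ 3 * Real.log (Real.log b) := by nlinarith
  have q5 : (S.card : ℝ) ≤ 300000 * ((L₂ : ℝ) + 1) := by exact_mod_cast hScard
  linarith

/-- **F1 (from `h` to `log log b`).**

Proof.  `b₀ = 2^(2^h0)` (NEVER let `norm_num`/`decide`/`simp` evaluate this number: keep `h0` opaque, e.g. `generalize`, or work with `Nat.pow_le_pow_right`, `Nat.clog` lemmas only), `C = 10^6` (any constant will do).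
Given `b ≥ b₀`: `L₁ = Nat.clog 2 b`, `L₂ = Nat.clog 2 L₁`, `h = L₂ + 1`.  `b ≤ 2^L₁ ≤ 2^(2^L₂) = 2^(2^(h-1))` (`Nat.le_pow_clog`).  `2^h0 ≤ L₁` and `h0 ≤ L₂` (`Nat.le_clog_iff`/`Nat.lt_pow_iff_...`/monotonicity `Nat.clog_mono_right`, `Nat.clog_pow`), so `h ≥ h0`.
`theoremM` gives `S` with `#S ≤ 300000 h`.  Upper bound for `h`: `2^(L₁-1) < b` and `2^(L₂-1) < L₁` (`Nat.pow_pred_clog_lt_self`).  Taking real logs: `(L₁ - 1) log 2 < log b`, so `L₁ < log b / log 2 + 1 ≤ 3 log b` (as `log b ≥ 1`, `log 2 > 0.69`);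
`(L₂ - 1) log 2 < log L₁ ≤ log 3 + log log b`, so `h = L₂ + 1 ≤ 2 + (log 3 + log log b)/log 2 ≤ 2 + 1.6 + 1.45 log log b ≤ 3.3 log log b`‑ish once `log log b ≥ 4` (true: `log b ≥ 2^200 log 2 ≥ e^4`; e.g. `log b ≥ 2^h0 * log 2 ≥ 2^7 * (1/2) = 64 ≥ exp 4`, using `Real.exp_one_lt_d9`, `exp 4 = (exp 1)^4 < 2.72^4 < 55`). -/
theorem final :
    ∃ C : ℝ, ∃ b₀ : ℕ, ∀ (a b : ℕ), b₀ ≤ b → 1 ≤ a → a < b →
      ∃ S : Finset ℕ, (∀ n ∈ S, 2 ≤ n) ∧ (S.card : ℝ) ≤ C * Real.log (Real.log (b : ℝ)) ∧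
        ∑ n ∈ S, (1 : ℚ) / (n : ℚ) = (a : ℚ) / (b : ℚ) :=
  final_aux h0 (le_refl 200) theoremM

end Crest.Agent.EG
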