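import Mathlib

/-!
# Row 341: small self-contained auxiliary lemmas (helper69)

(A1) layer cake for finite families, `Tr X₊ ≥ (Tr X)₊`;
(A2) `1 × 1` matrices;
(A3) layer cake for `χ(u) = ∫₀ᵘ ρ` and for `log (1 + b / t)`.
-/

set_option autoImplicit false
set_option linter.unusedSectionVars false

namespace Crest.Agent.GA

open MeasureTheory Set
open scoped ENNReal

/-! ### (A1) -/

theorem aux69_lintegral_indicator_lt (a : ℝ) :
    ∫⁻ t in Ioi (0 : ℝ), (if t < a then (1 : ℝ≥0∞) else 0) = ENNReal.ofReal (max a 0) := by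
  have h1 : (fun t : ℝ => if t < a then (1 : ℝ≥0∞) else 0) = (Iio a).indicator 1 := by
    ext t; simp [Set.indicator_apply]
  rw [h1, lintegral_indicator_one measurableSet_Iio, Measure.restrict_apply measurableSet_Iio]
  have h2 : Iio a ∩ Ioi (0 : ℝ) = Ioo 0 a := by
    ext t; simp [and_comm]
  rw [h2, Real.volume_Ioo, sub_zero]
  rcases le_total a 0 with h | h
  · simp [h]
  · simp [h]

theorem aux69_lintegral_card {ι : Type*} [Fintype ι] (l : ι → ℝ) :
    ∫⁻ t in Ioi (0 : ℝ), (((Finset.univ.filter fun i => t < l i).card : ℕ) : ℝ≥0∞)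
      = ENNReal.ofReal (∑ i, max (l i) 0) := by
  have h1 : ∀ t : ℝ, (((Finset.univ.filter fun i => t < l i).card : ℕ) : ℝ≥0∞)
      = ∑ i, (if t < l i then (1 : ℝ≥0∞) else 0) := by
    intro t
    rw [Finset.card_filter]; push_cast; rfl
  simp_rw [h1]
  rw [lintegral_finsetSum]
  · simp_rw [aux69_lintegral_indicator_lt]
    rw [ENNReal.ofReal_sum_of_nonneg]
    intro i _; exact le_max_right _ _
  · intro i _
    exact Measurable.ite measurableSet_Iio measurable_const measurable_const

theorem aux69_max_sum_le {ι : Type*} [Fintype ι] (l : ι → ℝ) :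
    max (∑ i, l i) 0 ≤ ∑ i, max (l i) 0 := by
  apply max_le
  · exact Finset.sum_le_sum fun i _ => le_max_left _ _
  · exact Finset.sum_nonneg fun i _ => le_max_right _ _

theorem aux69_trace_pos_le {n : Type*} [Fintype n] [DecidableEq n] {H : Matrix n n ℂ}
    (hH : H.IsHermitian) :
    max H.trace.re 0 ≤ ∑ i, max (hH.eigenvalues i) 0 := by
  have : H.trace.re = ∑ i, hH.eigenvalues i := by
    rw [hH.trace_eq_sum_eigenvalues]; simp
  rw [this]; exact aux69_max_sum_le _

/-! ### (A2) `1 × 1` matrices -/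

section Unique

variable {n : Type*} [Fintype n] [DecidableEq n] [Unique n]

theorem aux69_eigenvalues_unique {M : Matrix n n ℂ} (hM : M.IsHermitian) (i : n) :
    hM.eigenvalues i = (M default default).re := by
  have h := hM.trace_eq_sum_eigenvalues
  rw [Matrix.trace, Fintype.sum_unique, Fintype.sum_unique] at h
  have h2 := congrArg Complex.re h
  simp only [Matrix.diag_apply] at h2
  rw [Subsingleton.elim i default]
  simpa using h2.symm

theorem aux69_sum_eigenvalues_unique (f : ℝ → ℝ) {M : Matrix n n ℂ} (hM : M.IsHermitian) :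
    ∑ i, f (hM.eigenvalues i) = f (M default default).re := by
  rw [Fintype.sum_unique, aux69_eigenvalues_unique]

theorem aux69_inv_unique (M : Matrix n n ℂ) (i j : n) :
    M⁻¹ i j = (M default default)⁻¹ := by
  rw [Subsingleton.elim i default, Subsingleton.elim j default, Matrix.inv_def,
    Matrix.adjugate_subsingleton, Matrix.det_unique]
  simp

theorem aux69_mul_unique (A B : Matrix n n ℂ) (i j : n) :
    (A * B) i j = A default default * B default default := by
  rw [Subsingleton.elim i default, Subsingleton.elim j default, Matrix.mul_apply,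
    Fintype.sum_unique]

/-- `Wᴴ (t + N)⁻¹ W` for `1 × 1` matrices. -/
theorem aux69_res_unique (W N : Matrix n n ℂ) (t : ℝ) (i j : n) :
    (W.conjTranspose * ((t : ℂ) • (1 : Matrix n n ℂ) + N)⁻¹ * W) i j
      = star (W default default) * ((t : ℂ) + N default default)⁻¹ * W default default := by
  rw [aux69_mul_unique, aux69_mul_unique, aux69_inv_unique]
  simp

end Unique

/-! ### (A3) layer cake for `χ` and `log` -/

theorem aux69_integrableOn_rho (rho : ℝ → ℝ) (hm : Measurable rho)
    (h0 : ∀ y, 0 < y → 0 ≤ rho y) (h1 : ∀ y, 0 < y → rho y ≤ 1 / (1 + y)) (u : ℝ) :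
    IntegrableOn rho (Ioc 0 u) := by
  refine Measure.integrableOn_of_bounded (M := 1) (by simp) hm.aestronglyMeasurable ?_
  filter_upwards [ae_restrict_mem measurableSet_Ioc] with y hy
  rw [Real.norm_eq_abs, abs_of_nonneg (h0 y hy.1)]
  refine (h1 y hy.1).trans ?_
  rw [div_le_one (by linarith [hy.1])]
  linarith [hy.1]

theorem aux69_ofReal_chi (rho : ℝ → ℝ) (hm : Measurable rho)
    (h0 : ∀ y, 0 < y → 0 ≤ rho y) (h1 : ∀ y, 0 < y → rho y ≤ 1 / (1 + y)) (u : ℝ)
    (hu : 0 ≤ u) :
    ENNReal.ofReal (∫ y in (0 : ℝ)..u, rho y)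
      = ∫⁻ y in Ioi (0 : ℝ), (if y < u then ENNReal.ofReal (rho y) else 0) := by
  rw [intervalIntegral.integral_of_le hu,
    ofReal_integral_eq_lintegral_ofReal (aux69_integrableOn_rho rho hm h0 h1 u)]
  · rw [← restrict_Ioo_eq_restrict_Ioc]
    have h2 : (fun y : ℝ => if y < u then ENNReal.ofReal (rho y) else 0)
        = (Iio u).indicator fun y => ENNReal.ofReal (rho y) := by
      ext y; simp [Set.indicator_apply]
    rw [h2, lintegral_indicator measurableSet_Iio, Measure.restrict_restrict measurableSet_Iio]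
    congr 2
    ext y; simp [and_comm]
  · filter_upwards [ae_restrict_mem measurableSet_Ioc] with y hy
    exact h0 y hy.1

theorem aux69_integral_one_div_one_add (u : ℝ) (hu : 0 ≤ u) :
    ∫ y in (0 : ℝ)..u, 1 / (1 + y) = Real.log (1 + u) := by
  have h := intervalIntegral.integral_comp_add_left (a := 0) (b := u) (fun x : ℝ => 1 / x) 1
  rw [h, integral_one_div_of_pos (by norm_num) (by linarith)]
  simp

theorem aux69_ofReal_log (b t : ℝ) (hb : 0 ≤ b) (ht : 0 < t) :
    ENNReal.ofReal (Real.log (1 + b / t))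
      = ∫⁻ y in Ioi (0 : ℝ), (if t * y < b then ENNReal.ofReal (1 / (1 + y)) else 0) := by
  have hu : 0 ≤ b / t := by positivity
  rw [← aux69_integral_one_div_one_add _ hu,
    aux69_ofReal_chi (fun y => 1 / (1 + y)) (by fun_prop) (fun y hy => by positivity)
      (fun y _ => le_rfl) _ hu]
  refine lintegral_congr fun y => ?_
  have : y < b / t ↔ t * y < b := by rw [lt_div_iff₀ ht, mul_comm]
  simp only [this]

end Crest.Agent.GA
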