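import Mathlib
import Crest.Agent.GA_IntRep
import Crest.Agent.GA_Det
import Crest.Agent.GA_KZDefs

/-!
# Row 341: integral representation, matrix level

`kzF X Z n0 n1 = ∫_{t>0} kzD X Z n0 n1 t`, with
`kzD t = L_out(t) - L_a(t) - L_b(t) - L_{n0}(t) - L_{n1}(t)`, and the scalar version.
-/

set_option autoImplicit false
set_option linter.unusedSectionVars false

namespace Crest.Agent.GA

open Matrix Crest.Quantum MeasureTheory Set
open scoped ComplexOrder

/-- `ofReal (∫ f) ≤ ∫⁻ ofReal f` for integrable `f`. -/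
theorem intRep_ofReal_integral_le {α : Type*} [MeasurableSpace α] {μ : Measure α} {f : α → ℝ}
    (hf : Integrable f μ) : ENNReal.ofReal (∫ x, f x ∂μ) ≤ ∫⁻ x, ENNReal.ofReal (f x) ∂μ := by
  have h1 : Integrable (fun x => max (f x) 0) μ := hf.pos_part
  have h2 : ∫ x, f x ∂μ ≤ ∫ x, max (f x) 0 ∂μ :=
    integral_mono hf h1 (fun x => le_max_left _ _)
  have h3 := ofReal_integral_eq_lintegral_ofReal h1
    (Filter.Eventually.of_forall (fun x => le_max_right _ _))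
  calc ENNReal.ofReal (∫ x, f x ∂μ) ≤ ENNReal.ofReal (∫ x, max (f x) 0 ∂μ) :=
        ENNReal.ofReal_le_ofReal h2
    _ = ∫⁻ x, ENNReal.ofReal (max (f x) 0) ∂μ := h3
    _ = ∫⁻ x, ENNReal.ofReal (f x) ∂μ := by
        refine lintegral_congr (fun x => ?_)
        rcases le_total (f x) 0 with h | h
        · rw [max_eq_right h, ENNReal.ofReal_zero, ENNReal.ofReal_of_nonpos h]
        · rw [max_eq_left h]

/-- **(ID≤)**: no sign hypothesis. -/
theorem ofReal_le_lintegral_Lfam_sub {ι κ : Type*} [Fintype ι] [Fintype κ] (lam : ι → ℝ)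
    (μ : κ → ℝ) (hl : ∀ i, 0 ≤ lam i) (hm : ∀ j, 0 ≤ μ j) (hsum : ∑ i, lam i = ∑ j, μ j) :
    ENNReal.ofReal (∑ j, Real.negMulLog (μ j) - ∑ i, Real.negMulLog (lam i)) ≤
      ∫⁻ t in Ioi (0:ℝ), ENNReal.ofReal (Lfam μ t - Lfam lam t) := by
  rw [← integral_Lfam_sub lam μ hl hm hsum]
  exact intRep_ofReal_integral_le (Lfam_sub_integrableOn lam μ hl hm hsum)

theorem Lfam_sumElim {ι κ : Type*} [Fintype ι] [Fintype κ] (lam : ι → ℝ) (μ : κ → ℝ) (t : ℝ) :
    Lfam (Sum.elim lam μ) t = Lfam lam t + Lfam μ t := by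
  simp [Lfam, Fintype.sum_sum_type]

theorem Lsum_eq_Lfam {d : Type*} [Fintype d] [DecidableEq d] {M : Matrix d d ℂ}
    (hM : M.IsHermitian) (t : ℝ) : Lsum M t = Lfam hM.eigenvalues t := Lsum_eq_sum hM t

section five

variable {o a b c d : Type*} [Fintype o] [DecidableEq o] [Fintype a] [DecidableEq a]
  [Fintype b] [DecidableEq b] [Fintype c] [DecidableEq c] [Fintype d] [DecidableEq d]

/-- the family of all the eigenvalues of four matrices. -/
noncomputable def intRepFam {A : Matrix a a ℂ} {B : Matrix b b ℂ} {C : Matrix c c ℂ}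
    {D : Matrix d d ℂ} (hA : A.IsHermitian) (hB : B.IsHermitian) (hC : C.IsHermitian)
    (hD : D.IsHermitian) : (a ⊕ b) ⊕ (c ⊕ d) → ℝ :=
  Sum.elim (Sum.elim hA.eigenvalues hB.eigenvalues) (Sum.elim hC.eigenvalues hD.eigenvalues)

variable {O : Matrix o o ℂ} {A : Matrix a a ℂ} {B : Matrix b b ℂ} {C : Matrix c c ℂ}
    {D : Matrix d d ℂ}

theorem intRep_five_aux (hO : O.PosSemidef) (hA : A.PosSemidef) (hB : B.PosSemidef)
    (hC : C.PosSemidef) (hD : D.PosSemidef)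
    (htr : O.trace = A.trace + B.trace + C.trace + D.trace) :
    (∀ i, 0 ≤ hO.isHermitian.eigenvalues i) ∧
    (∀ j, 0 ≤ intRepFam hA.isHermitian hB.isHermitian hC.isHermitian hD.isHermitian j) ∧
    (∑ i, hO.isHermitian.eigenvalues i =
      ∑ j, intRepFam hA.isHermitian hB.isHermitian hC.isHermitian hD.isHermitian j) ∧
    (∀ t, Lfam (intRepFam hA.isHermitian hB.isHermitian hC.isHermitian hD.isHermitian) t =
      Lsum A t + Lsum B t + Lsum C t + Lsum D t) ∧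
    (∑ j, Real.negMulLog
        (intRepFam hA.isHermitian hB.isHermitian hC.isHermitian hD.isHermitian j) =
      vnEntropy A + vnEntropy B + vnEntropy C + vnEntropy D) := by
  refine ⟨hO.eigenvalues_nonneg, ?_, ?_, ?_, ?_⟩
  · rintro ((j | j) | (j | j))
    · exact hA.eigenvalues_nonneg j
    · exact hB.eigenvalues_nonneg j
    · exact hC.eigenvalues_nonneg j
    · exact hD.eigenvalues_nonneg j
  · have := congrArg Complex.re htr
    simp only [Complex.add_re] at this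
    rw [trace_re_eq_sum hO.isHermitian, trace_re_eq_sum hA.isHermitian,
      trace_re_eq_sum hB.isHermitian, trace_re_eq_sum hC.isHermitian,
      trace_re_eq_sum hD.isHermitian] at this
    rw [this]
    simp [intRepFam, Fintype.sum_sum_type, add_assoc]
  · intro t
    rw [intRepFam, Lfam_sumElim, Lfam_sumElim, Lfam_sumElim, Lsum_eq_Lfam hA.isHermitian,
      Lsum_eq_Lfam hB.isHermitian, Lsum_eq_Lfam hC.isHermitian, Lsum_eq_Lfam hD.isHermitian]
    ring
  · rw [vnEntropy_eq_sum hA.isHermitian, vnEntropy_eq_sum hB.isHermitian,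
      vnEntropy_eq_sum hC.isHermitian, vnEntropy_eq_sum hD.isHermitian]
    simp [intRepFam, Fintype.sum_sum_type, add_assoc]

/-- integrability of `L_O - L_A - L_B - L_C - L_D` when the traces match. -/
theorem intRep_five_integrableOn (hO : O.PosSemidef) (hA : A.PosSemidef) (hB : B.PosSemidef)
    (hC : C.PosSemidef) (hD : D.PosSemidef)
    (htr : O.trace = A.trace + B.trace + C.trace + D.trace) :
    IntegrableOn (fun t => Lsum O t - Lsum A t - Lsum B t - Lsum C t - Lsum D t) (Ioi 0) := by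
  obtain ⟨h1, h2, h3, h4, -⟩ := intRep_five_aux hO hA hB hC hD htr
  have := Lfam_sub_integrableOn _ _ h2 h1 h3.symm
  refine this.congr_fun (fun t _ => ?_) measurableSet_Ioi
  simp only []
  rw [h4, ← Lsum_eq_Lfam]
  ring

/-- `S(O) - S(A) - S(B) - S(C) - S(D) = ∫_{t>0} (L_O - L_A - L_B - L_C - L_D)`. -/
theorem intRep_five_integral (hO : O.PosSemidef) (hA : A.PosSemidef) (hB : B.PosSemidef)
    (hC : C.PosSemidef) (hD : D.PosSemidef)
    (htr : O.trace = A.trace + B.trace + C.trace + D.trace) :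
    ∫ t in Ioi (0:ℝ), (Lsum O t - Lsum A t - Lsum B t - Lsum C t - Lsum D t) =
      vnEntropy O - vnEntropy A - vnEntropy B - vnEntropy C - vnEntropy D := by
  obtain ⟨h1, h2, h3, h4, h5⟩ := intRep_five_aux hO hA hB hC hD htr
  have := integral_Lfam_sub _ _ h2 h1 h3.symm
  rw [h5, ← vnEntropy_eq_sum] at this
  have e : ∀ t, Lsum O t - Lsum A t - Lsum B t - Lsum C t - Lsum D t =
      Lfam hO.isHermitian.eigenvalues t -
        Lfam (intRepFam hA.isHermitian hB.isHermitian hC.isHermitian hD.isHermitian) t := by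
    intro t
    rw [h4, ← Lsum_eq_Lfam]
    ring
  simp_rw [e]
  rw [this]
  ring

end five

section kz

variable {e r : Type*} [Fintype e] [Fintype r] [DecidableEq e] [DecidableEq r]

theorem kzOut_eq_outM (X Z : Matrix e r ℂ) (n0 n1 : Matrix e e ℂ) :
    kzOut X Z n0 n1 = outM X Z n0 n1 := rfl

/-- `D(t) = L_out(t) - L_a(t) - L_b(t) - L_{n0}(t) - L_{n1}(t)`. -/
noncomputable def kzD (X Z : Matrix e r ℂ) (n0 n1 : Matrix e e ℂ) (t : ℝ) : ℝ :=
  Lsum (kzOut X Z n0 n1) t - Lsum (X * Xᴴ) t - Lsum (Z * Zᴴ) t - Lsum n0 t - Lsum n1 t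

theorem kzD_integrableOn (X Z : Matrix e r ℂ) {n0 n1 : Matrix e e ℂ} (h0 : n0.PosSemidef)
    (h1 : n1.PosSemidef) : IntegrableOn (kzD X Z n0 n1) (Ioi 0) :=
  intRep_five_integrableOn (outM_posSemidef X Z h0 h1) (posSemidef_self_mul_conjTranspose X)
    (posSemidef_self_mul_conjTranspose Z) h0 h1 (trace_outM X Z n0 n1)

/-- **(I)** `F = ∫_{t>0} D(t) dt`. -/
theorem integral_kzD (X Z : Matrix e r ℂ) {n0 n1 : Matrix e e ℂ} (h0 : n0.PosSemidef)
    (h1 : n1.PosSemidef) : ∫ t in Ioi (0:ℝ), kzD X Z n0 n1 t = kzF X Z n0 n1 :=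
  intRep_five_integral (outM_posSemidef X Z h0 h1) (posSemidef_self_mul_conjTranspose X)
    (posSemidef_self_mul_conjTranspose Z) h0 h1 (trace_outM X Z n0 n1)

/-- `D(t) = log det (1 + A_t + B_t) - L_a(t) - L_b(t)`. -/
theorem kzD_eq (X Z : Matrix e r ℂ) {n0 n1 : Matrix e e ℂ} (h0 : n0.PosSemidef)
    (h1 : n1.PosSemidef) {t : ℝ} (ht : 0 < t) :
    kzD X Z n0 n1 t =
      Lsum (resv t n0 X + resv t n1 Z) 1 - Lsum (X * Xᴴ) t - Lsum (Z * Zᴴ) t := by
  rw [kzD, kzOut_eq_outM, Lsum_outM h0 h1 ht]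
  ring

/-- the matrix side of the chain: `ofReal (-F) ≤ ∫⁻ ofReal (L_a + L_b - log det (1 + A_t + B_t))`,
no sign hypothesis. -/
theorem ofReal_neg_kzF_le (X Z : Matrix e r ℂ) {n0 n1 : Matrix e e ℂ} (h0 : n0.PosSemidef)
    (h1 : n1.PosSemidef) :
    ENNReal.ofReal (- kzF X Z n0 n1) ≤ ∫⁻ t in Ioi (0:ℝ), ENNReal.ofReal
      (Lsum (X * Xᴴ) t + Lsum (Z * Zᴴ) t - Lsum (resv t n0 X + resv t n1 Z) 1) := by
  rw [← integral_kzD X Z h0 h1, ← integral_neg]
  refine (intRep_ofReal_integral_le (kzD_integrableOn X Z h0 h1).neg).trans (le_of_eq ?_)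
  refine setLIntegral_congr_fun measurableSet_Ioi (fun t ht => ?_)
  simp only [Pi.neg_apply]
  rw [kzD_eq X Z h0 h1 ht]
  congr 1
  ring

end kz

section scalar

/-- `kzOutSc` is positive semidefinite. -/
theorem intRep_kzOutSc_posSemidef {al be v0 v1 : ℝ} (hal : 0 ≤ al) (hbe : 0 ≤ be) (hv0 : 0 ≤ v0)
    (hv1 : 0 ≤ v1) : (kzOutSc al be v0 v1).PosSemidef := by
  set W : Matrix Bool Unit ℂ := Matrix.of fun s _ =>
    if s then ((Real.sqrt be : ℝ) : ℂ) else ((Real.sqrt al : ℝ) : ℂ) with hW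
  set Dg : Matrix Bool Bool ℂ := Matrix.diagonal fun s => if s then ((v1 : ℝ) : ℂ) else ((v0 : ℝ) : ℂ)
    with hDg
  have hD : Dg.PosSemidef := by
    rw [hDg, Matrix.posSemidef_diagonal_iff]
    intro s
    cases s
    · simpa using hv0
    · simpa using hv1
  have e : kzOutSc al be v0 v1 = W * Wᴴ + Dg := by
    have ha : ((Real.sqrt al : ℝ) : ℂ) * ((Real.sqrt al : ℝ) : ℂ) = ((al : ℝ) : ℂ) := by
      rw [← Complex.ofReal_mul, Real.mul_self_sqrt hal]
    have hb : ((Real.sqrt be : ℝ) : ℂ) * ((Real.sqrt be : ℝ) : ℂ) = ((be : ℝ) : ℂ) := by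
      rw [← Complex.ofReal_mul, Real.mul_self_sqrt hbe]
    have hab : ((Real.sqrt (al * be) : ℝ) : ℂ) =
        ((Real.sqrt al : ℝ) : ℂ) * ((Real.sqrt be : ℝ) : ℂ) := by
      rw [← Complex.ofReal_mul, Real.sqrt_mul hal]
    ext s t
    cases s <;> cases t <;>
      simp [hW, hDg, Matrix.mul_apply, ha, hb, hab, mul_comm]
  rw [e]
  exact (posSemidef_self_mul_conjTranspose W).add hD

/-- the scalar integrand, `-D_sc(t)`. -/
noncomputable def kzIsc (al be v0 v1 t : ℝ) : ℝ :=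
  Real.log (1 + al / t) + Real.log (1 + be / t) - Real.log (1 + al / (t + v0) + be / (t + v1))

theorem kzIsc_nonneg {al be v0 v1 t : ℝ} (hal : 0 ≤ al) (hbe : 0 ≤ be) (hv0 : 0 ≤ v0)
    (hv1 : 0 ≤ v1) (ht : 0 < t) : 0 ≤ kzIsc al be v0 v1 t := by
  unfold kzIsc
  have h1 : 0 ≤ al / t := div_nonneg hal ht.le
  have h2 : 0 ≤ be / t := div_nonneg hbe ht.le
  have h3 : 0 ≤ al / (t + v0) := div_nonneg hal (by linarith)
  have h4 : 0 ≤ be / (t + v1) := div_nonneg hbe (by linarith)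
  have h5 : al / (t + v0) ≤ al / t := div_le_div_of_nonneg_left hal ht (by linarith)
  have h6 : be / (t + v1) ≤ be / t := div_le_div_of_nonneg_left hbe ht (by linarith)
  rw [← Real.log_mul (by linarith) (by linarith), sub_nonneg]
  refine Real.log_le_log (by linarith) ?_
  nlinarith [mul_nonneg h1 h2]

theorem intRep_Lsum_kzOutSc {al be v0 v1 t : ℝ} (hal : 0 ≤ al) (hbe : 0 ≤ be) (hv0 : 0 ≤ v0)
    (hv1 : 0 ≤ v1) (ht : 0 < t) :
    Lsum (kzOutSc al be v0 v1) t = Real.log (1 + v0 / t) + Real.log (1 + v1 / t) +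
      Real.log (1 + al / (t + v0) + be / (t + v1)) := by
  rw [Lsum_eq_log_det (intRep_kzOutSc_posSemidef hal hbe hv0 hv1) ht]
  have hdet : (shift t (kzOutSc al be v0 v1)).det =
      (((t + al + v0) * (t + be + v1) - al * be : ℝ) : ℂ) := by
    have h : Real.sqrt (al * be) * Real.sqrt (al * be) = al * be :=
      Real.mul_self_sqrt (mul_nonneg hal hbe)
    have h' : ((Real.sqrt (al * be) : ℝ) : ℂ) * ((Real.sqrt (al * be) : ℝ) : ℂ)
        = ((al * be : ℝ) : ℂ) := by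
      rw [← Complex.ofReal_mul, h]
    rw [kz_det_bool]
    simp only [shift, Matrix.add_apply, Matrix.smul_apply, Matrix.one_apply_eq, kzOutSc_ff,
      kzOutSc_tt, kzOutSc_ft, kzOutSc_tf, ne_eq, Bool.false_eq_true, not_false_eq_true,
      Matrix.one_apply_ne, Bool.true_eq_false, smul_eq_mul, mul_one, mul_zero, zero_add, h']
    push_cast
    ring
  rw [hdet, Complex.ofReal_re]
  have p0 : 0 < t + v0 := by linarith
  have p1 : 0 < t + v1 := by linarith
  have h3 : 0 ≤ al / (t + v0) := div_nonneg hal p0.le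
  have h4 : 0 ≤ be / (t + v1) := div_nonneg hbe p1.le
  have e1 : (t + al + v0) * (t + be + v1) - al * be =
      (t + v0) * (t + v1) * (1 + al / (t + v0) + be / (t + v1)) := by
    field_simp
    ring
  have e2 : 1 + v0 / t = (t + v0) / t := by field_simp
  have e3 : 1 + v1 / t = (t + v1) / t := by field_simp
  rw [e1, e2, e3, Real.log_mul (by positivity) (by linarith), Real.log_mul p0.ne' p1.ne',
    Real.log_div p0.ne' ht.ne', Real.log_div p1.ne' ht.ne']
  simp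
  ring

theorem intRep_scalar_aux {al be v0 v1 : ℝ} (hal : 0 ≤ al) (hbe : 0 ≤ be) (hv0 : 0 ≤ v0)
    (hv1 : 0 ≤ v1) :
    (∀ i, 0 ≤ (kzOutSc_isHermitian al be v0 v1).eigenvalues i) ∧
    (∀ j, 0 ≤ (![al, be, v0, v1] : Fin 4 → ℝ) j) ∧
    (∑ i, (kzOutSc_isHermitian al be v0 v1).eigenvalues i =
      ∑ j, (![al, be, v0, v1] : Fin 4 → ℝ) j) ∧
    (∀ t, 0 < t → Lfam (![al, be, v0, v1] : Fin 4 → ℝ) t -
      Lfam (kzOutSc_isHermitian al be v0 v1).eigenvalues t = kzIsc al be v0 v1 t) ∧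
    (∑ j, Real.negMulLog ((![al, be, v0, v1] : Fin 4 → ℝ) j) -
      ∑ i, Real.negMulLog ((kzOutSc_isHermitian al be v0 v1).eigenvalues i) =
        - kzFsc al be v0 v1) := by
  refine ⟨(intRep_kzOutSc_posSemidef hal hbe hv0 hv1).eigenvalues_nonneg, ?_, ?_, ?_, ?_⟩
  · intro j
    fin_cases j <;> simp [hal, hbe, hv0, hv1]
  · rw [← trace_re_eq_sum, trace_kzOutSc, Complex.ofReal_re]
    simp [Fin.sum_univ_four]
    ring
  · intro t ht
    rw [← Lsum_eq_Lfam, intRep_Lsum_kzOutSc hal hbe hv0 hv1 ht, kzIsc]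
    simp [Lfam, Fin.sum_univ_four]
    ring
  · rw [← vnEntropy_eq_sum, kzFsc]
    simp [Fin.sum_univ_four]
    ring

theorem kzIsc_integrableOn {al be v0 v1 : ℝ} (hal : 0 ≤ al) (hbe : 0 ≤ be) (hv0 : 0 ≤ v0)
    (hv1 : 0 ≤ v1) : IntegrableOn (kzIsc al be v0 v1) (Ioi 0) := by
  obtain ⟨h1, h2, h3, h4, -⟩ := intRep_scalar_aux hal hbe hv0 hv1
  exact (Lfam_sub_integrableOn _ _ h1 h2 h3).congr_fun (fun t ht => h4 t ht) measurableSet_Ioi

/-- **(I)**, scalar side: `-F_sc = ∫_{t>0} I_sc(t) dt`. -/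
theorem integral_kzIsc {al be v0 v1 : ℝ} (hal : 0 ≤ al) (hbe : 0 ≤ be) (hv0 : 0 ≤ v0)
    (hv1 : 0 ≤ v1) : ∫ t in Ioi (0:ℝ), kzIsc al be v0 v1 t = - kzFsc al be v0 v1 := by
  obtain ⟨h1, h2, h3, h4, h5⟩ := intRep_scalar_aux hal hbe hv0 hv1
  rw [← h5, ← integral_Lfam_sub _ _ h1 h2 h3]
  exact setIntegral_congr_fun measurableSet_Ioi (fun t ht => (h4 t ht).symm)

theorem kzFsc_nonpos {al be v0 v1 : ℝ} (hal : 0 ≤ al) (hbe : 0 ≤ be) (hv0 : 0 ≤ v0)
    (hv1 : 0 ≤ v1) : kzFsc al be v0 v1 ≤ 0 := by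
  have h := integral_kzIsc hal hbe hv0 hv1
  have h0 : 0 ≤ ∫ t in Ioi (0:ℝ), kzIsc al be v0 v1 t :=
    setIntegral_nonneg measurableSet_Ioi (fun t ht => kzIsc_nonneg hal hbe hv0 hv1 ht)
  linarith

/-- **(ID=)**, scalar side, in `lintegral` form. -/
theorem lintegral_kzIsc {al be v0 v1 : ℝ} (hal : 0 ≤ al) (hbe : 0 ≤ be) (hv0 : 0 ≤ v0)
    (hv1 : 0 ≤ v1) :
    ∫⁻ t in Ioi (0:ℝ), ENNReal.ofReal (kzIsc al be v0 v1 t) =
      ENNReal.ofReal (- kzFsc al be v0 v1) := by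
  rw [← integral_kzIsc hal hbe hv0 hv1]
  refine (ofReal_integral_eq_lintegral_ofReal (kzIsc_integrableOn hal hbe hv0 hv1) ?_).symm
  rw [Filter.EventuallyLE, ae_restrict_iff' measurableSet_Ioi]
  exact Filter.Eventually.of_forall (fun t ht => kzIsc_nonneg hal hbe hv0 hv1 ht)

end scalar

section glue

variable {e r : Type*} [Fintype e] [Fintype r] [DecidableEq e] [DecidableEq r]

/-- The glue: (KZ'') follows from the comparison of the two `lintegral`s. -/
theorem kzFsc_le_kzF_of_lintegral_le (X Z : Matrix e r ℂ) {n0 n1 : Matrix e e ℂ}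
    (h0 : n0.PosSemidef) (h1 : n1.PosSemidef) {al be v0 v1 : ℝ} (hal : 0 ≤ al) (hbe : 0 ≤ be)
    (hv0 : 0 ≤ v0) (hv1 : 0 ≤ v1)
    (h : ∫⁻ t in Ioi (0:ℝ), ENNReal.ofReal
        (Lsum (X * Xᴴ) t + Lsum (Z * Zᴴ) t - Lsum (resv t n0 X + resv t n1 Z) 1) ≤
      ∫⁻ t in Ioi (0:ℝ), ENNReal.ofReal (kzIsc al be v0 v1 t)) :
    kzFsc al be v0 v1 ≤ kzF X Z n0 n1 := by
  have h2 := (ofReal_neg_kzF_le X Z h0 h1).trans h
  rw [lintegral_kzIsc hal hbe hv0 hv1, ENNReal.ofReal_le_ofReal_iff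
    (by linarith [kzFsc_nonpos hal hbe hv0 hv1])] at h2
  linarith

end glue

end Crest.Agent.GA
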