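import Mathlib
import Crest.Agent.GA_Spec
import Crest.Agent.GA_Det
import Crest.Agent.GA_KZDefs
import Crest.Agent.GA_Aux69

/-!
# Row 341: the scalar (`e = r = Unit`) specialisations (helper69)

`sc1 x` is the `1 × 1` matrix with entry `x`.  We compute `specSum`, `vnEntropy`, `Lsum`, `resv`,
`kzOut`, `kzF` on such matrices.
-/

set_option autoImplicit false
set_option linter.unusedSectionVars false

namespace Crest.Agent.GA.Sc69

open Matrix Crest.Quantum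
open scoped ComplexOrder

/-- The `1 × 1` matrix with (real) entry `x`. -/
def sc1 (x : ℝ) : Matrix Unit Unit ℂ := Matrix.of fun _ _ => (x : ℂ)

@[simp] lemma sc1_apply (x : ℝ) (i j : Unit) : sc1 x i j = (x : ℂ) := rfl

lemma sc1_eq_diagonal (x : ℝ) : sc1 x = diagonal fun _ : Unit => (x : ℂ) := by
  ext i j; simp

lemma sc1_add (x y : ℝ) : sc1 x + sc1 y = sc1 (x + y) := by
  ext i j; simp

lemma sc1_mul (x y : ℝ) : sc1 x * sc1 y = sc1 (x * y) := by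
  ext i j; simp [Matrix.mul_apply]

@[simp] lemma sc1_conjTranspose (x : ℝ) : (sc1 x)ᴴ = sc1 x := by
  ext i j; simp

lemma sc1_isHermitian (x : ℝ) : (sc1 x).IsHermitian := sc1_conjTranspose x

lemma sc1_mul_conjTranspose_sqrt {x : ℝ} (hx : 0 ≤ x) :
    sc1 (Real.sqrt x) * (sc1 (Real.sqrt x))ᴴ = sc1 x := by
  rw [sc1_conjTranspose, sc1_mul, Real.mul_self_sqrt hx]

lemma sc1_conjTranspose_mul_sqrt {x : ℝ} (hx : 0 ≤ x) :
    (sc1 (Real.sqrt x))ᴴ * sc1 (Real.sqrt x) = sc1 x := by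
  rw [sc1_conjTranspose, sc1_mul, Real.mul_self_sqrt hx]

lemma sc1_posSemidef {x : ℝ} (hx : 0 ≤ x) : (sc1 x).PosSemidef := by
  rw [← sc1_mul_conjTranspose_sqrt hx]
  exact posSemidef_self_mul_conjTranspose _

@[simp] lemma trace_sc1 (x : ℝ) : (sc1 x).trace = (x : ℂ) := by
  simp [Matrix.trace]

lemma specSum_sc1 (f : ℝ → ℝ) (x : ℝ) : specSum f (sc1 x) = f x := by
  rw [sc1_eq_diagonal, specSum_diagonal]; simp

lemma vnEntropy_sc1 (x : ℝ) : vnEntropy (sc1 x) = Real.negMulLog x := by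
  rw [vnEntropy_eq_specSum (sc1_isHermitian x), specSum_sc1]

lemma Lsum_sc1 (x t : ℝ) : Lsum (sc1 x) t = Real.log (1 + x / t) := specSum_sc1 _ x

lemma eigenvalues_sc1 (x : ℝ) (h : (sc1 x).IsHermitian) (i : Unit) : h.eigenvalues i = x := by
  rw [aux69_eigenvalues_unique]; simp

lemma shift_sc1 (t x : ℝ) : shift t (sc1 x) = sc1 (t + x) := by
  ext i j; simp [shift]

lemma sc1_inv (x : ℝ) : (sc1 x)⁻¹ = sc1 x⁻¹ := by
  ext i j; rw [aux69_inv_unique]; simp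

lemma resv_sc1 (t v w : ℝ) : resv t (sc1 v) (sc1 w) = sc1 (w * w / (t + v)) := by
  rw [resv, shift_sc1, sc1_inv, sc1_conjTranspose, sc1_mul, sc1_mul]
  congr 1; ring

lemma resv_sc1_sqrt (t v : ℝ) {a : ℝ} (ha : 0 ≤ a) :
    resv t (sc1 v) (sc1 (Real.sqrt a)) = sc1 (a / (t + v)) := by
  rw [resv_sc1, Real.mul_self_sqrt ha]

lemma outM_eq_kzOut {e r : Type*} [Fintype e] [Fintype r] [DecidableEq e] [DecidableEq r]
    (X Z : Matrix e r ℂ) (n0 n1 : Matrix e e ℂ) : outM X Z n0 n1 = kzOut X Z n0 n1 := rfl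

/-- the scalar output matrix is the `Unit` instance of `kzOut`. -/
lemma kzOutSc_eq_submatrix {al be : ℝ} (hal : 0 ≤ al) (hbe : 0 ≤ be) (v0 v1 : ℝ) :
    kzOutSc al be v0 v1
      = (kzOut (sc1 (Real.sqrt al)) (sc1 (Real.sqrt be)) (sc1 v0) (sc1 v1)).submatrix
          (Equiv.prodPUnit Bool).symm (Equiv.prodPUnit Bool).symm := by
  have h1 : Real.sqrt al * Real.sqrt be = Real.sqrt (al * be) := (Real.sqrt_mul hal be).symm
  have h2 : Real.sqrt be * Real.sqrt al = Real.sqrt (al * be) := by rw [mul_comm, h1]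
  unfold kzOut
  rw [sc1_mul_conjTranspose_sqrt hal, sc1_mul_conjTranspose_sqrt hbe, sc1_conjTranspose,
    sc1_conjTranspose, sc1_mul, sc1_mul, sc1_add, sc1_add, h1, h2]
  ext s t
  cases s <;> cases t <;> simp [Equiv.prodPUnit]

lemma specSum_kzOutSc (f : ℝ → ℝ) {al be : ℝ} (hal : 0 ≤ al) (hbe : 0 ≤ be) (v0 v1 : ℝ) :
    specSum f (kzOutSc al be v0 v1)
      = specSum f (kzOut (sc1 (Real.sqrt al)) (sc1 (Real.sqrt be)) (sc1 v0) (sc1 v1)) := by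
  rw [kzOutSc_eq_submatrix hal hbe, specSum_submatrix]

lemma vnEntropy_kzOutSc {al be : ℝ} (hal : 0 ≤ al) (hbe : 0 ≤ be) (v0 v1 : ℝ) :
    vnEntropy (kzOutSc al be v0 v1)
      = vnEntropy (kzOut (sc1 (Real.sqrt al)) (sc1 (Real.sqrt be)) (sc1 v0) (sc1 v1)) := by
  rw [kzOutSc_eq_submatrix hal hbe, vnEntropy_submatrix]

/-- `kzFsc` is the `Unit` instance of `kzF`. -/
theorem kzFsc_eq_kzF {al be : ℝ} (hal : 0 ≤ al) (hbe : 0 ≤ be) (v0 v1 : ℝ) :
    kzFsc al be v0 v1 = kzF (sc1 (Real.sqrt al)) (sc1 (Real.sqrt be)) (sc1 v0) (sc1 v1) := by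
  unfold kzFsc kzF
  rw [vnEntropy_kzOutSc hal hbe, sc1_mul_conjTranspose_sqrt hal, sc1_mul_conjTranspose_sqrt hbe,
    vnEntropy_sc1, vnEntropy_sc1, vnEntropy_sc1, vnEntropy_sc1]

lemma kzOutSc_posSemidef {al be v0 v1 : ℝ} (hal : 0 ≤ al) (hbe : 0 ≤ be) (h0 : 0 ≤ v0)
    (h1 : 0 ≤ v1) : (kzOutSc al be v0 v1).PosSemidef := by
  rw [kzOutSc_eq_submatrix hal hbe]
  exact (outM_posSemidef _ _ (sc1_posSemidef h0) (sc1_posSemidef h1)).submatrix _

/-- the scalar determinant identity in `Lsum` form. -/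
theorem Lsum_kzOutSc {al be v0 v1 : ℝ} (hal : 0 ≤ al) (hbe : 0 ≤ be) (h0 : 0 ≤ v0)
    (h1 : 0 ≤ v1) {t : ℝ} (ht : 0 < t) :
    Lsum (kzOutSc al be v0 v1) t
      = Real.log (1 + v0 / t) + Real.log (1 + v1 / t)
        + Real.log (1 + al / (t + v0) + be / (t + v1)) := by
  unfold Lsum
  rw [specSum_kzOutSc _ hal hbe]
  have h := Lsum_outM (sc1_posSemidef h0) (sc1_posSemidef h1) ht (sc1 (Real.sqrt al))
    (sc1 (Real.sqrt be))
  rw [resv_sc1_sqrt _ _ hal, resv_sc1_sqrt _ _ hbe, sc1_add, Lsum_sc1, Lsum_sc1, Lsum_sc1] at h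
  rw [outM_eq_kzOut] at h
  unfold Lsum at h
  rw [h, div_one, add_assoc (1 : ℝ)]

end Crest.Agent.GA.Sc69
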