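import Mathlib
import Crest.Agent.GA_Spec
import Crest.Agent.GA_Det
import Crest.Agent.GA_Count
import Crest.Agent.GA_Layer
import Crest.Agent.GA_Pot
import Crest.Agent.GA_IntRep
import Crest.Agent.GA_KZDefs
import Crest.Agent.GA_Sc69

/-!
# Row 341: assembly of the key inequality (KZ'')

`kz2 : kzFsc (Tr X Xᴴ) (Tr Z Zᴴ) (Tr n0) (Tr n1) ≤ kzF X Z n0 n1`.

Chain (all in `lintegral` over `t ∈ (0, ∞)`):
`ofReal (-F) ≤ ∫⁻ ofReal (-D) ≤ ∫⁻ ofReal k0 + ∫⁻ ofReal k1 ≤ ∫⁻ ofReal k0sc + ∫⁻ ofReal k1sc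
  ≤ ∫⁻ ofReal (-Dsc) = ofReal (-Fsc)`.
-/

set_option autoImplicit false
set_option linter.unusedSectionVars false

namespace Crest.Agent.GA

open Matrix Crest.Quantum MeasureTheory Set
open scoped ComplexOrder

variable {e r : Type*} [Fintype e] [Fintype r] [DecidableEq e] [DecidableEq r]

/-! ### the integral representation of `kzF` -/

/-- `L_out - L_a - L_b - L_n0 - L_n1`. -/
noncomputable def kz2D (X Z : Matrix e r ℂ) (n0 n1 : Matrix e e ℂ) (t : ℝ) : ℝ :=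
  Lsum (kzOut X Z n0 n1) t - Lsum (X * Xᴴ) t - Lsum (Z * Zᴴ) t - Lsum n0 t - Lsum n1 t

private theorem kz2_ofReal_integral_le {α : Type*} [MeasurableSpace α] {μ : Measure α} {f : α → ℝ}
    (hf : Integrable f μ) : ENNReal.ofReal (∫ x, f x ∂μ) ≤ ∫⁻ x, ENNReal.ofReal (f x) ∂μ := by
  have h1 : ∫ x, f x ∂μ ≤ ∫ x, max (f x) 0 ∂μ :=
    integral_mono hf hf.pos_part (fun x => le_max_left _ _)
  have h2 : ENNReal.ofReal (∫ x, max (f x) 0 ∂μ) = ∫⁻ x, ENNReal.ofReal (max (f x) 0) ∂μ :=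
    ofReal_integral_eq_lintegral_ofReal hf.pos_part
      (Filter.Eventually.of_forall fun x => le_max_right _ _)
  have h3 : ∀ x, ENNReal.ofReal (max (f x) 0) = ENNReal.ofReal (f x) := by
    intro x
    rcases le_total (f x) 0 with h | h
    · rw [max_eq_right h, ENNReal.ofReal_zero, ENNReal.ofReal_of_nonpos h]
    · rw [max_eq_left h]
  calc ENNReal.ofReal (∫ x, f x ∂μ) ≤ ENNReal.ofReal (∫ x, max (f x) 0 ∂μ) :=
        ENNReal.ofReal_le_ofReal h1
    _ = ∫⁻ x, ENNReal.ofReal (max (f x) 0) ∂μ := h2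
    _ = ∫⁻ x, ENNReal.ofReal (f x) ∂μ := by simp_rw [h3]

/-- the family of all eigenvalues of `a, b, n0, n1`. -/
private noncomputable def kz2lam {A B C D : Matrix e e ℂ} (hA : A.IsHermitian) (hB : B.IsHermitian)
    (hC : C.IsHermitian) (hD : D.IsHermitian) : (e ⊕ e) ⊕ (e ⊕ e) → ℝ :=
  Sum.elim (Sum.elim hA.eigenvalues hB.eigenvalues) (Sum.elim hC.eigenvalues hD.eigenvalues)

theorem kz2_integrable_and_integral (X Z : Matrix e r ℂ) {n0 n1 : Matrix e e ℂ}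
    (h0 : n0.PosSemidef) (h1 : n1.PosSemidef) :
    IntegrableOn (kz2D X Z n0 n1) (Ioi 0) ∧ ∫ t in Ioi (0:ℝ), kz2D X Z n0 n1 t = kzF X Z n0 n1 := by
  have hA := posSemidef_self_mul_conjTranspose X
  have hB := posSemidef_self_mul_conjTranspose Z
  have hO : (kzOut X Z n0 n1).PosSemidef := outM_posSemidef X Z h0 h1
  set lam := kz2lam hA.isHermitian hB.isHermitian h0.isHermitian h1.isHermitian with hlam
  set mu := hO.isHermitian.eigenvalues with hmu
  have hl : ∀ i, 0 ≤ lam i := by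
    rintro ((i | i) | (i | i))
    · exact hA.eigenvalues_nonneg i
    · exact hB.eigenvalues_nonneg i
    · exact h0.eigenvalues_nonneg i
    · exact h1.eigenvalues_nonneg i
  have hm : ∀ j, 0 ≤ mu j := fun j => hO.eigenvalues_nonneg j
  have hsum : ∑ i, lam i = ∑ j, mu j := by
    rw [hlam, hmu, ← trace_re_eq_sum hO.isHermitian]
    simp only [kz2lam, Fintype.sum_sum_type, Sum.elim_inl, Sum.elim_inr]
    rw [← trace_re_eq_sum hA.isHermitian, ← trace_re_eq_sum hB.isHermitian,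
      ← trace_re_eq_sum h0.isHermitian, ← trace_re_eq_sum h1.isHermitian]
    have := trace_outM X Z n0 n1
    rw [show kzOut X Z n0 n1 = outM X Z n0 n1 from rfl, this]
    simp only [Complex.add_re]
    ring
  have hD : ∀ t, Lfam mu t - Lfam lam t = kz2D X Z n0 n1 t := by
    intro t
    unfold kz2D Lfam
    rw [Lsum_eq_sum hO.isHermitian, Lsum_eq_sum hA.isHermitian, Lsum_eq_sum hB.isHermitian,
      Lsum_eq_sum h0.isHermitian, Lsum_eq_sum h1.isHermitian]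
    simp only [hlam, kz2lam, Fintype.sum_sum_type, Sum.elim_inl, Sum.elim_inr]
    ring
  constructor
  · have := Lfam_sub_integrableOn lam mu hl hm hsum
    simpa only [hD] using this
  · have := integral_Lfam_sub lam mu hl hm hsum
    simp only [hD] at this
    rw [this]
    unfold kzF
    rw [vnEntropy_eq_sum hO.isHermitian, vnEntropy_eq_sum hA.isHermitian,
      vnEntropy_eq_sum hB.isHermitian, vnEntropy_eq_sum h0.isHermitian,
      vnEntropy_eq_sum h1.isHermitian]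
    simp only [hlam, kz2lam, Fintype.sum_sum_type, Sum.elim_inl, Sum.elim_inr]
    ring

theorem kz2_M (X Z : Matrix e r ℂ) {n0 n1 : Matrix e e ℂ} (h0 : n0.PosSemidef)
    (h1 : n1.PosSemidef) :
    ENNReal.ofReal (-kzF X Z n0 n1) ≤ ∫⁻ t in Ioi (0:ℝ), ENNReal.ofReal
      (Lsum (X * Xᴴ) t + Lsum (Z * Zᴴ) t - Lsum (resv t n0 X + resv t n1 Z) 1) := by
  obtain ⟨hint, hval⟩ := kz2_integrable_and_integral X Z h0 h1
  have h := kz2_ofReal_integral_le hint.neg
  simp only [Pi.neg_apply] at h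
  rw [integral_neg, hval] at h
  refine h.trans (le_of_eq ?_)
  refine setLIntegral_congr_fun measurableSet_Ioi fun t ht => ?_
  have ht' : (0:ℝ) < t := ht
  congr 1
  unfold kz2D
  rw [show kzOut X Z n0 n1 = outM X Z n0 n1 from rfl, Lsum_outM h0 h1 ht']
  ring

/-! ### the scalar side -/

theorem kz2_SC {al be v0 v1 : ℝ} (hal : 0 ≤ al) (hbe : 0 ≤ be) (hv0 : 0 ≤ v0) (hv1 : 0 ≤ v1) :
    0 ≤ -kzFsc al be v0 v1 ∧
    ∫⁻ t in Ioi (0:ℝ), ENNReal.ofReal (Real.log (1 + al / t) + Real.log (1 + be / t)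
      - Real.log (1 + al / (t + v0) + be / (t + v1))) = ENNReal.ofReal (-kzFsc al be v0 v1) := by
  obtain ⟨hint, hval⟩ := kz2_integrable_and_integral (Sc69.sc1 (Real.sqrt al))
    (Sc69.sc1 (Real.sqrt be)) (Sc69.sc1_posSemidef hv0) (Sc69.sc1_posSemidef hv1)
  rw [← Sc69.kzFsc_eq_kzF hal hbe] at hval
  have hD : ∀ t ∈ Ioi (0:ℝ), -kz2D (Sc69.sc1 (Real.sqrt al)) (Sc69.sc1 (Real.sqrt be))
      (Sc69.sc1 v0) (Sc69.sc1 v1) t = Real.log (1 + al / t) + Real.log (1 + be / t)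
      - Real.log (1 + al / (t + v0) + be / (t + v1)) := by
    intro t ht
    have ht' : (0:ℝ) < t := ht
    unfold kz2D
    rw [show kzOut (Sc69.sc1 (Real.sqrt al)) (Sc69.sc1 (Real.sqrt be)) (Sc69.sc1 v0) (Sc69.sc1 v1)
        = outM (Sc69.sc1 (Real.sqrt al)) (Sc69.sc1 (Real.sqrt be)) (Sc69.sc1 v0) (Sc69.sc1 v1)
        from rfl,
      Lsum_outM (Sc69.sc1_posSemidef hv0) (Sc69.sc1_posSemidef hv1) ht',
      Sc69.resv_sc1_sqrt _ _ hal, Sc69.resv_sc1_sqrt _ _ hbe, Sc69.sc1_add,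
      Sc69.sc1_mul_conjTranspose_sqrt hal, Sc69.sc1_mul_conjTranspose_sqrt hbe,
      Sc69.Lsum_sc1, Sc69.Lsum_sc1, Sc69.Lsum_sc1, Sc69.Lsum_sc1, Sc69.Lsum_sc1, div_one,
      add_assoc (1:ℝ)]
    ring
  have hnn : ∀ t ∈ Ioi (0:ℝ), 0 ≤ Real.log (1 + al / t) + Real.log (1 + be / t)
      - Real.log (1 + al / (t + v0) + be / (t + v1)) := by
    intro t ht
    have ht' : (0:ℝ) < t := ht
    have ha : 0 ≤ al / t := by positivity
    have hb : 0 ≤ be / t := by positivity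
    rw [← Real.log_mul (by positivity) (by positivity), sub_nonneg]
    apply Real.log_le_log (by positivity)
    have h1 : al / (t + v0) ≤ al / t := div_le_div_of_nonneg_left hal ht' (by linarith)
    have h2 : be / (t + v1) ≤ be / t := div_le_div_of_nonneg_left hbe ht' (by linarith)
    nlinarith [mul_nonneg ha hb]
  have hnn' : 0 ≤ᵐ[volume.restrict (Ioi (0:ℝ))] fun t => -kz2D (Sc69.sc1 (Real.sqrt al))
      (Sc69.sc1 (Real.sqrt be)) (Sc69.sc1 v0) (Sc69.sc1 v1) t := by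
    filter_upwards [ae_restrict_mem measurableSet_Ioi] with t ht
    rw [hD t ht]; exact hnn t ht
  have hneg : ∫ t in Ioi (0:ℝ), -kz2D (Sc69.sc1 (Real.sqrt al)) (Sc69.sc1 (Real.sqrt be))
      (Sc69.sc1 v0) (Sc69.sc1 v1) t = -kzFsc al be v0 v1 := by
    rw [integral_neg, hval]
  constructor
  · rw [← hneg]; exact integral_nonneg_of_ae hnn'
  · have hE := ofReal_integral_eq_lintegral_ofReal (f := fun t => -kz2D (Sc69.sc1 (Real.sqrt al))
      (Sc69.sc1 (Real.sqrt be)) (Sc69.sc1 v0) (Sc69.sc1 v1) t) hint.neg hnn'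
    rw [← hneg, hE]
    refine setLIntegral_congr_fun measurableSet_Ioi fun t ht => ?_
    rw [hD t ht]

/-! ### the assembly for abstract potentials -/

/-- the primitive of `rho`. -/
noncomputable def kzChi (rho : ℝ → ℝ) (u : ℝ) : ℝ := ∫ s in (0:ℝ)..u, rho s

theorem kz2_of_potentials (X Z : Matrix e r ℂ) {n0 n1 : Matrix e e ℂ} (h0 : n0.PosSemidef)
    (h1 : n1.PosSemidef) (rho0 rho1 : ℝ → ℝ)
    (hm0 : Measurable rho0) (hp0 : ∀ y, 0 < y → 0 ≤ rho0 y) (hb0 : ∀ y, 0 < y → rho0 y ≤ (1 + y)⁻¹)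
    (hm1 : Measurable rho1) (hp1 : ∀ y, 0 < y → 0 ≤ rho1 y) (hb1 : ∀ y, 0 < y → rho1 y ≤ (1 + y)⁻¹)
    (hle : ∀ x y, 0 ≤ x → 0 ≤ y → kzChi rho0 x + kzChi rho1 y ≤ Real.log (1 + x + y))
    (heq : ∀ t, 0 < t → kzChi rho0 ((X * Xᴴ).trace.re / (t + n0.trace.re))
        + kzChi rho1 ((Z * Zᴴ).trace.re / (t + n1.trace.re))
      = Real.log (1 + (X * Xᴴ).trace.re / (t + n0.trace.re)
          + (Z * Zᴴ).trace.re / (t + n1.trace.re))) :
    kzFsc (X * Xᴴ).trace.re (Z * Zᴴ).trace.re n0.trace.re n1.trace.re ≤ kzF X Z n0 n1 := by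
  set al := (X * Xᴴ).trace.re with hal_def
  set be := (Z * Zᴴ).trace.re with hbe_def
  set v0 := n0.trace.re with hv0_def
  set v1 := n1.trace.re with hv1_def
  have hal : 0 ≤ al := (Complex.le_def.1 (posSemidef_self_mul_conjTranspose X).trace_nonneg).1
  have hbe : 0 ≤ be := (Complex.le_def.1 (posSemidef_self_mul_conjTranspose Z).trace_nonneg).1
  have hv0 : 0 ≤ v0 := (Complex.le_def.1 h0.trace_nonneg).1
  have hv1 : 0 ≤ v1 := (Complex.le_def.1 h1.trace_nonneg).1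
  -- the chain
  have step1 := kz2_M X Z h0 h1
  have step2 : ∫⁻ t in Ioi (0:ℝ), ENNReal.ofReal
      (Lsum (X * Xᴴ) t + Lsum (Z * Zᴴ) t - Lsum (resv t n0 X + resv t n1 Z) 1)
      ≤ ∫⁻ t in Ioi (0:ℝ),
        (ENNReal.ofReal (kmat X n0 rho0 t) + ENNReal.ofReal (kmat Z n1 rho1 t)) := by
    refine setLIntegral_mono' measurableSet_Ioi fun t ht => ?_
    have ht' : (0:ℝ) < t := ht
    refine le_trans (ENNReal.ofReal_le_ofReal ?_) ENNReal.ofReal_add_le
    have h := specSum_resv_add_le h0 h1 ht' X Z (kzChi rho0) (kzChi rho1) hle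
    rw [Lsum_outM h0 h1 ht'] at h
    have e0 : kmat X n0 rho0 t = Lsum (X * Xᴴ) t - specSum (kzChi rho0) (resv t n0 X) := rfl
    have e1 : kmat Z n1 rho1 t = Lsum (Z * Zᴴ) t - specSum (kzChi rho1) (resv t n1 Z) := rfl
    rw [e0, e1]
    linarith
  have step3 : ∫⁻ t in Ioi (0:ℝ),
        (ENNReal.ofReal (kmat X n0 rho0 t) + ENNReal.ofReal (kmat Z n1 rho1 t))
      = (∫⁻ t in Ioi (0:ℝ), ENNReal.ofReal (kmat X n0 rho0 t))
        + ∫⁻ t in Ioi (0:ℝ), ENNReal.ofReal (kmat Z n1 rho1 t) :=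
    lintegral_add_left' (aestronglyMeasurable_kmat X h0 hm0 hp0 hb0).aemeasurable.ennreal_ofReal _
  have step4 := add_le_add (branch_le X h0 hm0 hp0 hb0) (branch_le Z h1 hm1 hp1 hb1)
  have step5 : (∫⁻ t in Ioi (0:ℝ), ENNReal.ofReal (ksc al v0 rho0 t))
      + (∫⁻ t in Ioi (0:ℝ), ENNReal.ofReal (ksc be v1 rho1 t))
      ≤ ∫⁻ t in Ioi (0:ℝ), ENNReal.ofReal (Real.log (1 + al / t) + Real.log (1 + be / t)
      - Real.log (1 + al / (t + v0) + be / (t + v1))) := by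
    refine le_trans (le_lintegral_add _ _) ?_
    refine setLIntegral_mono' measurableSet_Ioi fun t ht => ?_
    have ht' : (0:ℝ) < t := ht
    rw [← ENNReal.ofReal_add (ksc_nonneg hm0 hp0 hb0 hal hv0 ht') (ksc_nonneg hm1 hp1 hb1 hbe hv1 ht')]
    refine ENNReal.ofReal_le_ofReal ?_
    have := heq t ht'
    have e0 : ksc al v0 rho0 t = Real.log (1 + al / t) - kzChi rho0 (al / (t + v0)) := rfl
    have e1 : ksc be v1 rho1 t = Real.log (1 + be / t) - kzChi rho1 (be / (t + v1)) := rfl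
    rw [e0, e1]
    linarith
  obtain ⟨hnn, step6⟩ := kz2_SC hal hbe hv0 hv1
  have fin : ENNReal.ofReal (-kzF X Z n0 n1) ≤ ENNReal.ofReal (-kzFsc al be v0 v1) := by
    calc _ ≤ _ := step1
      _ ≤ _ := step2
      _ = _ := step3
      _ ≤ _ := step4
      _ ≤ _ := step5
      _ = _ := step6
  have := (ENNReal.ofReal_le_ofReal_iff hnn).1 fin
  linarith

/-- **(KZ'')** the key inequality. -/
theorem kz2 (X Z : Matrix e r ℂ) {n0 n1 : Matrix e e ℂ} (h0 : n0.PosSemidef)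
    (h1 : n1.PosSemidef) :
    kzFsc (X * Xᴴ).trace.re (Z * Zᴴ).trace.re n0.trace.re n1.trace.re ≤ kzF X Z n0 n1 := by
  have hal : 0 ≤ (X * Xᴴ).trace.re :=
    (Complex.le_def.1 (posSemidef_self_mul_conjTranspose X).trace_nonneg).1
  have hbe : 0 ≤ (Z * Zᴴ).trace.re :=
    (Complex.le_def.1 (posSemidef_self_mul_conjTranspose Z).trace_nonneg).1
  have hv0 : 0 ≤ n0.trace.re := (Complex.le_def.1 h0.trace_nonneg).1
  have hv1 : 0 ≤ n1.trace.re := (Complex.le_def.1 h1.trace_nonneg).1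
  refine kz2_of_potentials X Z h0 h1
    (potRho (X * Xᴴ).trace.re (Z * Zᴴ).trace.re n0.trace.re n1.trace.re)
    (potRho (Z * Zᴴ).trace.re (X * Xᴴ).trace.re n1.trace.re n0.trace.re)
    (potRho_measurable _ _ _ _) (fun y hy => potRho_nonneg hbe hv1 hy.le)
    (fun y hy => by rw [← one_div]; exact potRho_le hbe hv1 hy.le)
    (potRho_measurable _ _ _ _) (fun y hy => potRho_nonneg hal hv0 hy.le)
    (fun y hy => by rw [← one_div]; exact potRho_le hal hv0 hy.le)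
    (fun x y hx hy => potChi_add_le hal hbe hv0 hv1 hx hy)
    (fun t ht => potChi_add_eq hal hbe hv0 hv1 ht)

end Crest.Agent.GA
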