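import Crest.Agent.GA_KZ
import Crest.Agent.GA_KZ2

/-!
# Row 341: the inequality (KZ), unconditional.
-/

set_option autoImplicit false

namespace Crest.Agent.GA

open Matrix Crest.Quantum Crest.MathPhysics.AmpDamp
open scoped ComplexOrder

/-- **(KZ).** For `σ` psd on `Bool × e` of trace one, `p = Tr σ₁₁`:
`g(p) - h(p) + S(σ₀₀) + S(σ₁₁) ≤ S((gadMap ⊗ id) σ)`. -/
theorem kz {e : Type*} [Fintype e] [DecidableEq e] {γ ν : ℝ}
    (hγ : γ ∈ Set.Icc (0 : ℝ) 1) (hν : ν ∈ Set.Icc (0 : ℝ) 1)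
    (σ : Matrix (Bool × e) (Bool × e) ℂ) (hσ : σ.PosSemidef) (htr : σ.trace = 1) :
    gfun γ ν (block σ true true).trace.re - Real.binEntropy (block σ true true).trace.re
      + vnEntropy (block σ false false) + vnEntropy (block σ true true)
      ≤ vnEntropy (gadBlk γ ν σ) :=
  kz_of_kz2 hγ hν (fun X Z _ _ h0 h1 => kz2 X Z h0 h1) σ hσ htr

end Crest.Agent.GA
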