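import Crest.Agent.Lib_helper58_OMTransfer
import Crest.Agent.Lib_helper58_OMDefs

set_option autoImplicit false

namespace Crest.Agent.OM

theorem aval_zero_left {h : ℕ} (i : Fin 61) (d : Aux h) : Aux.aval (Aux.zero i) d = false := by
  cases d <;> rfl

theorem aval_zero_right {h : ℕ} (i : Fin 61) (d : Aux h) : Aux.aval d (Aux.zero i) = false := by
  cases d <;> rfl

theorem val_zero_left {h : ℕ} (i : Fin 61) (a : Fin (2 ^ h)) (y : Lab h) :
    (Lab.aux (Aux.zero i) a).val y = false := by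
  cases y with
  | core y => rfl
  | aux d b => exact aval_zero_left i d

theorem val_zero_right {h : ℕ} (i : Fin 61) (a : Fin (2 ^ h)) (x : Lab h) :
    x.val (Lab.aux (Aux.zero i) a) = false := by
  cases x with
  | core y => rfl
  | aux d b => exact aval_zero_right i d

theorem key_aux_zero {h : ℕ} (i : Fin 61) (a : Fin (2 ^ h)) :
    (Lab.aux (Aux.zero i) a).key = sz h + (4 * h + 4 + i.val) * 2 ^ h + a.val := rfl

/-- extension of five lines by the `61` zero lines with private index `a` -/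
def ext5 {h : ℕ} (a : Fin (2 ^ h)) (r : Fin 5 → Lab h) : Fin 66 → Lab h :=
  fun i => if hi : i.val < 5 then r ⟨i.val, hi⟩
    else Lab.aux (Aux.zero ⟨i.val - 5, by have := i.isLt; omega⟩) a

theorem ext5_strictMono {h : ℕ} (a : Fin (2 ^ h)) (r : Fin 5 → Lab h)
    (hrk : StrictMono (fun i => (r i).key)) (hr4 : (r 4).key < sz h + (4 * h + 4) * 2 ^ h) :
    StrictMono (fun i => (ext5 a r i).key) := by
  intro i j hij
  have hij' : i.val < j.val := hij
  have hj := j.isLt
  simp only [ext5]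
  by_cases hi5 : i.val < 5
  · by_cases hj5 : j.val < 5
    · rw [dif_pos hi5, dif_pos hj5]
      exact hrk (by exact hij')
    · rw [dif_pos hi5, dif_neg hj5]
      have h1 : (r ⟨i.val, hi5⟩).key ≤ (r 4).key := by
        apply hrk.monotone
        show i.val ≤ 4
        omega
      rw [key_aux_zero]
      dsimp only
      have h2 : (4 * h + 4) * 2 ^ h ≤ (4 * h + 4 + (j.val - 5)) * 2 ^ h :=
        Nat.mul_le_mul_right _ (by omega)
      omega
  · have hj5 : ¬ j.val < 5 := by omega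
    rw [dif_neg hi5, dif_neg hj5]
    rw [key_aux_zero, key_aux_zero]
    dsimp only
    have h2 : (4 * h + 4 + (i.val - 5) + 1) * 2 ^ h ≤ (4 * h + 4 + (j.val - 5)) * 2 ^ h :=
      Nat.mul_le_mul_right _ (by omega)
    have h3 : (4 * h + 4 + (i.val - 5) + 1) * 2 ^ h
        = (4 * h + 4 + (i.val - 5)) * 2 ^ h + 2 ^ h := by ring
    have := a.isLt
    omega

/-- A `5 × 5` copy of `H5` on skeleton lines (none of them a zero line) extends to a copy of the
padded pattern. -/
theorem copy_of_five (h : ℕ) (p : Fin (2 ^ h) × Fin (2 ^ h)) (B : Lab h → Lab h → Bool)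
    (hB : ∀ c ∈ Fset h p, B c.1 c.2 = c.1.val c.2) (r c : Fin 5 → Lab h)
    (hr : ∀ i, Priv h p.1 (r i) ∨ OnPath h (p.1.val + p.2.val) (r i))
    (hc : ∀ j, Priv h p.2 (c j) ∨ OnPath h (p.1.val + p.2.val) (c j))
    (hrk : StrictMono (fun i => (r i).key)) (hck : StrictMono (fun j => (c j).key))
    (hr4 : (r 4).key < sz h + (4 * h + 4) * 2 ^ h) (hc4 : (c 4).key < sz h + (4 * h + 4) * 2 ^ h)
    (hv : ∀ i j, B (r i) (c j) = H5 i j) :
    ∃ (f g : Fin 66 → Lab h), StrictMono (fun i => (f i).key) ∧ StrictMono (fun j => (g j).key) ∧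
      ∀ i j, B (f i) (g j) = OMTransfer.pad H5 i j := by
  refine ⟨ext5 p.1 r, ext5 p.2 c, ext5_strictMono _ _ hrk hr4, ext5_strictMono _ _ hck hc4, ?_⟩
  intro i j
  simp only [ext5, OMTransfer.pad]
  by_cases hi5 : i.val < 5
  · by_cases hj5 : j.val < 5
    · rw [dif_pos hi5, dif_pos hj5, dif_pos ⟨hi5, hj5⟩]
      exact hv _ _
    · rw [dif_pos hi5, dif_neg hj5, dif_neg (not_and_of_not_right _ hj5)]
      have hmem : (r ⟨i.val, hi5⟩,
          Lab.aux (Aux.zero ⟨j.val - 5, by have := j.isLt; omega⟩) p.2) ∈ Fset h p := by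
        rcases hr ⟨i.val, hi5⟩ with h1 | h1
        · exact Or.inl ⟨h1, Or.inr ⟨_, rfl⟩⟩
        · exact Or.inr (Or.inr ⟨h1, Or.inr ⟨_, rfl⟩⟩)
      rw [hB _ hmem]
      exact val_zero_right _ _ _
  · rw [dif_neg hi5, dif_neg (not_and_of_not_left _ hi5)]
    have key : ∀ y : Lab h, (Priv h p.2 y ∨ OnPath h (p.1.val + p.2.val) y) →
        B (Lab.aux (Aux.zero ⟨i.val - 5, by have := i.isLt; omega⟩) p.1) y = false := by
      intro y hy
      have hmem : (Lab.aux (Aux.zero ⟨i.val - 5, by have := i.isLt; omega⟩) p.1, y) ∈ Fset h p := by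
        rcases hy with h1 | h1
        · exact Or.inl ⟨Or.inr ⟨_, rfl⟩, h1⟩
        · exact Or.inr (Or.inl ⟨Or.inr ⟨_, rfl⟩, h1⟩)
      rw [hB _ hmem]
      exact val_zero_left _ _ _
    apply key
    by_cases hj5 : j.val < 5
    · rw [dif_pos hj5]; exact hc _
    · rw [dif_neg hj5]; exact Or.inl (Or.inr ⟨_, rfl⟩)

end Crest.Agent.OM
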