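import Mathlib
import Crest.Prelude.Def_AsymptoticConvexity
import Crest.Prelude.Def_Diamond

/-! Distance facts for the countably branching diamond graphs, and the distortion lower bound
for spaces with a quadratic maximum-based midpoint modulus. -/

namespace Crest.Agent.Lib_helper19_Diamond

open Crest.AnalysisR

/-! ### graph facts -/

theorem src_false (k : ℕ) (e : DiamondEdge k) (i : ℕ) :
    diamondSrc (k + 1) (e, i, false) = Sum.inl (diamondSrc k e) := rfl
theorem tgt_false (k : ℕ) (e : DiamondEdge k) (i : ℕ) :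
    diamondTgt (k + 1) (e, i, false) = Sum.inr (e, i) := rfl
theorem src_true (k : ℕ) (e : DiamondEdge k) (i : ℕ) :
    diamondSrc (k + 1) (e, i, true) = Sum.inr (e, i) := rfl
theorem tgt_true (k : ℕ) (e : DiamondEdge k) (i : ℕ) :
    diamondTgt (k + 1) (e, i, true) = Sum.inl (diamondTgt k e) := rfl

theorem edge_nonempty : ∀ k : ℕ, Nonempty (DiamondEdge k)
  | 0 => ⟨()⟩
  | k + 1 => by
      obtain ⟨e⟩ := edge_nonempty k
      exact ⟨(e, 0, false)⟩

theorem src_ne_tgt : ∀ (k : ℕ) (e : DiamondEdge k), diamondSrc k e ≠ diamondTgt k e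
  | 0, _ => Bool.false_ne_true
  | k + 1, (e, i, false) => by
      rw [src_false, tgt_false]; exact Sum.inl_ne_inr
  | k + 1, (e, i, true) => by
      rw [src_true, tgt_true]; exact Sum.inr_ne_inl

theorem adj_src_tgt (k : ℕ) (e : DiamondEdge k) :
    (diamondGraph k).Adj (diamondSrc k e) (diamondTgt k e) := by
  unfold diamondGraph
  rw [SimpleGraph.fromRel_adj]
  exact ⟨src_ne_tgt k e, Or.inl ⟨e, rfl, rfl⟩⟩

theorem adj_iff (k : ℕ) (u v : DiamondVertex k) :
    (diamondGraph k).Adj u v ↔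
      ∃ e : DiamondEdge k, (diamondSrc k e = u ∧ diamondTgt k e = v) ∨
        (diamondSrc k e = v ∧ diamondTgt k e = u) := by
  unfold diamondGraph
  rw [SimpleGraph.fromRel_adj]
  constructor
  · rintro ⟨_, ⟨e, h1, h2⟩ | ⟨e, h1, h2⟩⟩
    · exact ⟨e, Or.inl ⟨h1, h2⟩⟩
    · exact ⟨e, Or.inr ⟨h1, h2⟩⟩
  · rintro ⟨e, ⟨h1, h2⟩ | ⟨h1, h2⟩⟩
    · exact ⟨by rw [← h1, ← h2]; exact src_ne_tgt k e, Or.inl ⟨e, h1, h2⟩⟩
    · exact ⟨by rw [← h1, ← h2]; exact (src_ne_tgt k e).symm, Or.inr ⟨e, h1, h2⟩⟩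

theorem adj_inl_src_mid (k : ℕ) (e : DiamondEdge k) (i : ℕ) :
    (diamondGraph (k + 1)).Adj (Sum.inl (diamondSrc k e)) (Sum.inr (e, i)) :=
  adj_src_tgt (k + 1) (e, i, false)

theorem adj_mid_inl_tgt (k : ℕ) (e : DiamondEdge k) (i : ℕ) :
    (diamondGraph (k + 1)).Adj (Sum.inr (e, i)) (Sum.inl (diamondTgt k e)) :=
  adj_src_tgt (k + 1) (e, i, true)

theorem reachable_inl (k : ℕ) {u v : DiamondVertex k} (h : (diamondGraph k).Reachable u v) :
    (diamondGraph (k + 1)).Reachable (Sum.inl u) (Sum.inl v) := by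
  obtain ⟨w⟩ := h
  induction w with
  | nil => exact SimpleGraph.Reachable.refl _
  | cons hadj _ ih =>
    refine SimpleGraph.Reachable.trans ?_ ih
    obtain ⟨e, ⟨h1, h2⟩ | ⟨h1, h2⟩⟩ := (adj_iff k _ _).1 hadj
    · rw [← h1, ← h2]
      exact (adj_inl_src_mid k e 0).reachable.trans (adj_mid_inl_tgt k e 0).reachable
    · rw [← h1, ← h2]
      exact ((adj_inl_src_mid k e 0).reachable.trans (adj_mid_inl_tgt k e 0).reachable).symm

theorem preconnected : ∀ k : ℕ, (diamondGraph k).Preconnected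
  | 0 => by
      have h : (diamondGraph 0).Reachable false true := (adj_src_tgt 0 ()).reachable
      intro u v
      cases u <;> cases v
      · exact SimpleGraph.Reachable.refl _
      · exact h
      · exact h.symm
      · exact SimpleGraph.Reachable.refl _
  | k + 1 => by
      have ih := preconnected k
      have key : ∀ (u : DiamondVertex (k + 1)), ∃ u' : DiamondVertex k,
          (diamondGraph (k + 1)).Reachable u (Sum.inl u') := by
        intro u
        rcases u with u | ⟨e, i⟩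
        · exact ⟨u, SimpleGraph.Reachable.refl _⟩
        · exact ⟨_, (adj_mid_inl_tgt k e i).reachable⟩
      intro u v
      obtain ⟨u', hu⟩ := key u
      obtain ⟨v', hv⟩ := key v
      exact hu.trans ((reachable_inl k (ih u' v')).trans hv.symm)

/-- A function that changes by at most one along every edge is `1`-Lipschitz for the graph
distance. -/
theorem lipschitz_le_dist (k : ℕ) (H : DiamondVertex k → ℤ)
    (hH : ∀ e : DiamondEdge k, |H (diamondSrc k e) - H (diamondTgt k e)| ≤ 1)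
    (u v : DiamondVertex k) : |H u - H v| ≤ (diamondDist k u v : ℤ) := by
  obtain ⟨w, hw⟩ := (preconnected k u v).exists_walk_length_eq_dist
  unfold diamondDist
  rw [← hw]
  clear hw
  induction w with
  | nil => simp
  | @cons a b c hadj p ih =>
    have h1 : |H a - H b| ≤ 1 := by
      obtain ⟨e, ⟨h1, h2⟩ | ⟨h1, h2⟩⟩ := (adj_iff k _ _).1 hadj
      · rw [← h1, ← h2]; exact hH e
      · rw [← h1, ← h2, abs_sub_comm]; exact hH e
    have h2 : |H a - H c| ≤ |H a - H b| + |H b - H c| := abs_sub_le _ _ _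
    simp only [SimpleGraph.Walk.length_cons]
    push_cast
    linarith

theorem dist_src_tgt (k : ℕ) (e : DiamondEdge k) :
    diamondDist k (diamondSrc k e) (diamondTgt k e) = 1 := by
  unfold diamondDist
  exact SimpleGraph.dist_eq_one_iff_adj.2 (adj_src_tgt k e)

theorem dist_inl_inl_ge (k : ℕ) (u v : DiamondVertex k) :
    2 * diamondDist k u v ≤ diamondDist (k + 1) (Sum.inl u) (Sum.inl v) := by
  -- the base function
  let h : DiamondVertex k → ℤ := fun w => (diamondDist k u w : ℤ)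
  have hh : ∀ e : DiamondEdge k, |h (diamondSrc k e) - h (diamondTgt k e)| ≤ 1 := by
    intro e
    have : Nonempty (DiamondVertex k) := ⟨u⟩
    have hc : (diamondGraph k).Connected := ⟨preconnected k⟩
    have t1 : diamondDist k u (diamondSrc k e) ≤
        diamondDist k u (diamondTgt k e) + diamondDist k (diamondTgt k e) (diamondSrc k e) :=
      hc.dist_triangle
    have t2 : diamondDist k u (diamondTgt k e) ≤
        diamondDist k u (diamondSrc k e) + diamondDist k (diamondSrc k e) (diamondTgt k e) :=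
      hc.dist_triangle
    have e1 := dist_src_tgt k e
    have e2 : diamondDist k (diamondTgt k e) (diamondSrc k e) = 1 := by
      unfold diamondDist at e1 ⊢
      rw [SimpleGraph.dist_comm]; exact e1
    rw [e2] at t1
    rw [e1] at t2
    rw [abs_le]
    simp only [h]
    constructor <;> omega
  let H : DiamondVertex (k + 1) → ℤ := fun w =>
    match w with
    | Sum.inl w => 2 * h w
    | Sum.inr (e, _) => h (diamondSrc k e) + h (diamondTgt k e)
  have hH : ∀ e : DiamondEdge (k + 1),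
      |H (diamondSrc (k + 1) e) - H (diamondTgt (k + 1) e)| ≤ 1 := by
    rintro ⟨e, i, b⟩
    have := hh e
    cases b
    · rw [src_false, tgt_false]
      show |2 * h (diamondSrc k e) - (h (diamondSrc k e) + h (diamondTgt k e))| ≤ 1
      have e3 : 2 * h (diamondSrc k e) - (h (diamondSrc k e) + h (diamondTgt k e)) =
        h (diamondSrc k e) - h (diamondTgt k e) := by ring
      rw [e3]; exact this
    · rw [src_true, tgt_true]
      show |h (diamondSrc k e) + h (diamondTgt k e) - 2 * h (diamondTgt k e)| ≤ 1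
      have e3 : h (diamondSrc k e) + h (diamondTgt k e) - 2 * h (diamondTgt k e) =
        h (diamondSrc k e) - h (diamondTgt k e) := by ring
      rw [e3]; exact this
  have := lipschitz_le_dist (k + 1) H hH (Sum.inl u) (Sum.inl v)
  simp only [H, h] at this
  have h0 : diamondDist k u u = 0 := by unfold diamondDist; simp
  rw [h0] at this
  rw [abs_le] at this
  have := this.1
  push_cast at this
  omega

theorem dist_mid_mid_ge (k : ℕ) (e : DiamondEdge k) {i j : ℕ} (hij : i ≠ j) :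
    2 ≤ diamondDist (k + 1) (Sum.inr (e, i)) (Sum.inr (e, j)) := by
  have hne : (Sum.inr (e, i) : DiamondVertex (k + 1)) ≠ Sum.inr (e, j) := by
    intro h
    have := Sum.inr.inj h
    exact hij (Prod.mk.inj this).2
  have h0 : diamondDist (k + 1) (Sum.inr (e, i)) (Sum.inr (e, j)) ≠ 0 := by
    unfold diamondDist
    intro h
    exact hne (((preconnected (k + 1)) _ _).dist_eq_zero_iff.1 h)
  have h1 : diamondDist (k + 1) (Sum.inr (e, i)) (Sum.inr (e, j)) ≠ 1 := by
    unfold diamondDist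
    intro h
    have hadj := SimpleGraph.dist_eq_one_iff_adj.1 h
    obtain ⟨⟨e', i', b⟩, ⟨h1, h2⟩ | ⟨h1, h2⟩⟩ := (adj_iff (k + 1) _ _).1 hadj
    · cases b
      · rw [src_false] at h1; exact Sum.inl_ne_inr h1
      · rw [tgt_true] at h2; exact Sum.inl_ne_inr h2
    · cases b
      · rw [src_false] at h1; exact Sum.inl_ne_inr h1
      · rw [tgt_true] at h2; exact Sum.inl_ne_inr h2
  omega

/-! ### the analytic part -/

section analytic

variable {V : Type*} [NormedAddCommGroup V] [NormedSpace ℝ V]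

/-- Pigeonhole in a finite-dimensional quotient: a bounded sequence has two terms whose difference
is close to the closed finite-codimensional subspace `S`. -/
theorem exists_pair_near (S : Submodule ℝ V) (hS : IsClosed (S : Set V))
    (hfin : FiniteDimensional ℝ (V ⧸ S)) (w : ℕ → V) (C : ℝ) (hw : ∀ i, ‖w i‖ ≤ C)
    {ε : ℝ} (hε : 0 < ε) : ∃ i j : ℕ, i ≠ j ∧ ∃ d ∈ S, ‖(w i - w j) - d‖ < ε := by
  have : IsClosed (S : Set V) := hS
  have : ProperSpace (V ⧸ S) := FiniteDimensional.proper_real (V ⧸ S)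
  let q : ℕ → V ⧸ S := fun i => S.mkQ (w i)
  have hq : ∀ i, q i ∈ Metric.closedBall (0 : V ⧸ S) C := by
    intro i
    rw [mem_closedBall_zero_iff]
    exact (Submodule.Quotient.norm_mk_le S (w i)).trans (hw i)
  obtain ⟨a, -, φ, hφ, hlim⟩ := tendsto_subseq_of_bounded Metric.isBounded_closedBall hq
  have hev : ∀ᶠ n in Filter.atTop, dist ((q ∘ φ) n) a < ε / 4 :=
    (Metric.tendsto_nhds.1 hlim) (ε / 4) (by positivity)
  obtain ⟨N, hN⟩ := Filter.eventually_atTop.1 hev
  have h1 := hN N le_rfl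
  have h2 := hN (N + 1) (Nat.le_succ N)
  have h3 : ‖q (φ N) - q (φ (N + 1))‖ < ε / 2 := by
    rw [← dist_eq_norm]
    calc dist (q (φ N)) (q (φ (N + 1))) ≤ dist (q (φ N)) a + dist a (q (φ (N + 1))) :=
          dist_triangle _ _ _
      _ < ε / 4 + ε / 4 := by
          rw [dist_comm a]
          exact add_lt_add h1 h2
      _ = ε / 2 := by ring
  refine ⟨φ N, φ (N + 1), (hφ (Nat.lt_succ_self N)).ne, ?_⟩
  have h4 : q (φ N) - q (φ (N + 1)) = S.mkQ (w (φ N) - w (φ (N + 1))) := by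
    simp only [q, map_sub]
  obtain ⟨m, hm1, hm2⟩ := Submodule.Quotient.norm_mk_lt (q (φ N) - q (φ (N + 1)))
    (show (0 : ℝ) < ε / 2 by positivity)
  refine ⟨(w (φ N) - w (φ (N + 1))) - m, ?_, ?_⟩
  · rw [← Submodule.Quotient.mk_eq_zero, Submodule.Quotient.mk_sub, hm1, h4]
    simp
  · have : (w (φ N) - w (φ (N + 1))) - ((w (φ N) - w (φ (N + 1))) - m) = m := by abel
    rw [this]
    linarith

/-- The quadratic maximum-based midpoint modulus, in type-class form. -/
def MaxMod (V : Type*) [NormedAddCommGroup V] [NormedSpace ℝ V] : Prop :=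
  ∀ t : ℝ, 0 < t → ∀ x : V, ‖x‖ = 1 → ∀ η : ℝ, 0 < η →
    ∃ S : Submodule ℝ V, IsClosed (S : Set V) ∧ FiniteDimensional ℝ (V ⧸ S) ∧
      ∀ y ∈ S, ‖y‖ = 1 →
        Real.sqrt (1 + t ^ 2 / 4) - 1 - η ≤ max ‖x + t • y‖ ‖x - t • y‖ - 1

theorem norm_le_max_of_seg (z d : V) {σ τ : ℝ} (hσ : 0 ≤ σ) (hτ : 0 < τ) (hστ : σ ≤ τ) :
    ‖z + (σ / τ) • d‖ ≤ max ‖z + d‖ ‖z - d‖ := by
  set l : ℝ := (1 + σ / τ) / 2 with hl
  have hq0 : 0 ≤ σ / τ := div_nonneg hσ hτ.le
  have hq1 : σ / τ ≤ 1 := (div_le_one hτ).2 hστ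
  have hl0 : 0 ≤ l := by rw [hl]; linarith
  have hl1 : 0 ≤ 1 - l := by rw [hl]; linarith
  have e : z + (σ / τ) • d = l • (z + d) + (1 - l) • (z - d) := by
    have : σ / τ = 2 * l - 1 := by rw [hl]; ring
    rw [this]
    module
  rw [e]
  calc ‖l • (z + d) + (1 - l) • (z - d)‖ ≤ ‖l • (z + d)‖ + ‖(1 - l) • (z - d)‖ := norm_add_le _ _
    _ = l * ‖z + d‖ + (1 - l) * ‖z - d‖ := by
        rw [norm_smul, norm_smul, Real.norm_of_nonneg hl0, Real.norm_of_nonneg hl1]
    _ ≤ l * max ‖z + d‖ ‖z - d‖ + (1 - l) * max ‖z + d‖ ‖z - d‖ := by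
        gcongr
        · exact le_max_left _ _
        · exact le_max_right _ _
    _ = max ‖z + d‖ ‖z - d‖ := by ring

theorem midpoint_step (hV : MaxMod V) (a b : V) (m : ℕ → V) (L s : ℝ) (hs : 0 < s)
    (h1 : ∀ i, ‖a - m i‖ ≤ L) (h2 : ∀ i, ‖m i - b‖ ≤ L)
    (h3 : ∀ i j, i ≠ j → 2 * s ≤ ‖m i - m j‖) : ‖a - b‖ ^ 2 ≤ 4 * L ^ 2 - s ^ 2 := by
  have hL : s ≤ L := by
    have e1 := h3 0 1 (by norm_num)
    have e2 : ‖m 0 - m 1‖ ≤ ‖a - m 0‖ + ‖a - m 1‖ := by
      have : m 0 - m 1 = (a - m 1) - (a - m 0) := by abel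
      rw [this]
      linarith [norm_sub_le (a - m 1) (a - m 0)]
    linarith [h1 0, h1 1]
  obtain ⟨z, hz⟩ : ∃ z : V, z = (1 / 2 : ℝ) • (b - a) := ⟨_, rfl⟩
  have hab : ‖a - b‖ = 2 * ‖z‖ := by
    rw [hz, norm_smul, norm_sub_rev, Real.norm_of_nonneg (by norm_num)]
    ring
  rw [hab]
  suffices hmain : ‖z‖ ^ 2 + s ^ 2 / 4 ≤ L ^ 2 by nlinarith
  by_cases hz0 : z = 0
  · rw [hz0]; simp; nlinarith
  obtain ⟨r, hr⟩ : ∃ r : ℝ, r = ‖z‖ := ⟨_, rfl⟩
  rw [← hr]
  have hr0 : 0 < r := by rw [hr]; exact norm_pos_iff.2 hz0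
  by_contra hcon
  rw [not_le] at hcon
  have hL0 : 0 ≤ L := hs.le.trans hL
  have hlt : L < Real.sqrt (r ^ 2 + s ^ 2 / 4) := by
    rw [← Real.sqrt_sq hL0]
    exact Real.sqrt_lt_sqrt (by positivity) hcon
  let g : ℝ → ℝ := fun ε => Real.sqrt (r ^ 2 + (s - ε) ^ 2 / 4) - ε * r - ε
  have hg : Continuous g := by
    simp only [g]
    fun_prop
  have hg0 : L < g 0 := by simpa [g] using hlt
  have hev : ∀ᶠ ε in nhds (0 : ℝ), L < g ε := (hg.tendsto 0).eventually (lt_mem_nhds hg0)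
  obtain ⟨δ, hδ, hδ'⟩ := Metric.eventually_nhds_iff.1 hev
  set ε : ℝ := min (δ / 2) (s / 2) with hε
  have hε0 : 0 < ε := lt_min (by positivity) (by positivity)
  have hεs : ε < s := (min_le_right _ _).trans_lt (by linarith)
  have hεδ : ε < δ := (min_le_left _ _).trans_lt (by linarith)
  have hgε : L < g ε := hδ' (by rw [Real.dist_eq, sub_zero, abs_of_pos hε0]; exact hεδ)
  set σ : ℝ := s - ε with hσ
  have hσ0 : 0 < σ := by rw [hσ]; linarith
  obtain ⟨x, hx⟩ : ∃ x : V, x = r⁻¹ • z := ⟨_, rfl⟩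
  have hx1 : ‖x‖ = 1 := by
    rw [hx, norm_smul, norm_inv, Real.norm_of_nonneg hr0.le, ← hr]
    exact inv_mul_cancel₀ hr0.ne'
  obtain ⟨S, hSc, hSf, hSm⟩ := hV (σ / r) (by positivity) x hx1 ε hε0
  obtain ⟨i, j, hij, d, hdS, hd⟩ := exists_pair_near S hSc hSf (fun i => (1 / 2 : ℝ) • m i)
    ((1 / 2) * (‖a‖ + L)) (by
      intro i
      rw [norm_smul]
      have : ‖m i‖ ≤ ‖a‖ + L := by
        have : m i = a - (a - m i) := by abel
        rw [this]
        linarith [norm_sub_le a (a - m i), h1 i]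
      norm_num
      linarith) hε0
  obtain ⟨v, hv⟩ : ∃ v : V, v = (1 / 2 : ℝ) • m i - (1 / 2 : ℝ) • m j := ⟨_, rfl⟩
  change ‖((1 / 2 : ℝ) • m i - (1 / 2 : ℝ) • m j) - d‖ < ε at hd
  rw [← hv] at hd
  have hvs : s ≤ ‖v‖ := by
    have : v = (1 / 2 : ℝ) • (m i - m j) := by rw [hv, smul_sub]
    rw [this, norm_smul]
    have := h3 i j hij
    norm_num
    linarith
  have hdn : σ ≤ ‖d‖ := by
    have : ‖v‖ ≤ ‖v - d‖ + ‖d‖ := by
      have : v = (v - d) + d := by abel
      calc ‖v‖ = ‖(v - d) + d‖ := by rw [← this]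
        _ ≤ _ := norm_add_le _ _
    rw [hσ]; linarith
  obtain ⟨τ, hτ⟩ : ∃ τ : ℝ, τ = ‖d‖ := ⟨_, rfl⟩
  rw [← hτ] at hdn
  have hτ0 : 0 < τ := hσ0.trans_le hdn
  obtain ⟨y, hy⟩ : ∃ y : V, y = τ⁻¹ • d := ⟨_, rfl⟩
  have hyS : y ∈ S := by rw [hy]; exact S.smul_mem _ hdS
  have hy1 : ‖y‖ = 1 := by
    rw [hy, norm_smul, norm_inv, Real.norm_of_nonneg hτ0.le, ← hτ]
    exact inv_mul_cancel₀ hτ0.ne'
  have hmod := hSm y hyS hy1
  -- scaling
  have hsc1 : r * ‖x + (σ / r) • y‖ = ‖z + (σ / τ) • d‖ := by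
    have : z + (σ / τ) • d = r • (x + (σ / r) • y) := by
      have e1 : r * r⁻¹ = 1 := mul_inv_cancel₀ hr0.ne'
      have e2 : r * (σ / r) * τ⁻¹ = σ / τ := by field_simp
      rw [hx, hy, smul_add, smul_smul, smul_smul, smul_smul, e1, e2, one_smul]
    rw [this, norm_smul, Real.norm_of_nonneg hr0.le]
  have hsc2 : r * ‖x - (σ / r) • y‖ = ‖z + (σ / τ) • (-d)‖ := by
    have : z + (σ / τ) • (-d) = r • (x - (σ / r) • y) := by
      have e1 : r * r⁻¹ = 1 := mul_inv_cancel₀ hr0.ne'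
      have e2 : r * (σ / r) * τ⁻¹ = σ / τ := by field_simp
      rw [hx, hy, smul_sub, smul_smul, smul_smul, smul_smul, e1, e2, one_smul,
        smul_neg, ← sub_eq_add_neg]
    rw [this, norm_smul, Real.norm_of_nonneg hr0.le]
  have hsq : r * Real.sqrt (1 + (σ / r) ^ 2 / 4) = Real.sqrt (r ^ 2 + σ ^ 2 / 4) := by
    have : r ^ 2 + σ ^ 2 / 4 = r ^ 2 * (1 + (σ / r) ^ 2 / 4) := by
      field_simp
    rw [this, Real.sqrt_mul (by positivity), Real.sqrt_sq hr0.le]
  have hb1 : ‖z + d‖ ≤ L + ε := by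
    have e : z + d = (1 / 2 : ℝ) • ((b - m j) - (a - m i)) - (v - d) := by
      rw [hz, hv]; module
    rw [e]
    have n1 : ‖(1 / 2 : ℝ) • ((b - m j) - (a - m i))‖ ≤ L := by
      rw [norm_smul]
      have := norm_sub_le (b - m j) (a - m i)
      have := h1 i
      have h2j := h2 j
      rw [norm_sub_rev] at h2j
      norm_num
      linarith
    linarith [norm_sub_le ((1 / 2 : ℝ) • ((b - m j) - (a - m i))) (v - d)]
  have hb2 : ‖z - d‖ ≤ L + ε := by
    have e : z - d = (1 / 2 : ℝ) • ((b - m i) - (a - m j)) + (v - d) := by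
      rw [hz, hv]; module
    rw [e]
    have n1 : ‖(1 / 2 : ℝ) • ((b - m i) - (a - m j))‖ ≤ L := by
      rw [norm_smul]
      have := norm_sub_le (b - m i) (a - m j)
      have := h1 j
      have h2i := h2 i
      rw [norm_sub_rev] at h2i
      norm_num
      linarith
    linarith [norm_add_le ((1 / 2 : ℝ) • ((b - m i) - (a - m j))) (v - d)]
  have hm1 : ‖z + (σ / τ) • d‖ ≤ L + ε :=
    (norm_le_max_of_seg z d hσ0.le hτ0 hdn).trans (max_le hb1 hb2)
  have hm2 : ‖z + (σ / τ) • (-d)‖ ≤ L + ε := by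
    refine (norm_le_max_of_seg z (-d) hσ0.le hτ0 hdn).trans (max_le ?_ ?_)
    · rw [← sub_eq_add_neg]; exact hb2
    · rw [sub_neg_eq_add]; exact hb1
  have hmax : r * max ‖x + (σ / r) • y‖ ‖x - (σ / r) • y‖ ≤ L + ε := by
    rcases max_cases ‖x + (σ / r) • y‖ ‖x - (σ / r) • y‖ with ⟨h, _⟩ | ⟨h, _⟩
    · rw [h, hsc1]; exact hm1
    · rw [h, hsc2]; exact hm2
  have hfin : Real.sqrt (r ^ 2 + σ ^ 2 / 4) - ε * r ≤ L + ε := by
    rw [← hsq]
    have : r * (Real.sqrt (1 + (σ / r) ^ 2 / 4) - ε) ≤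
        r * max ‖x + (σ / r) • y‖ ‖x - (σ / r) • y‖ :=
      mul_le_mul_of_nonneg_left (by linarith) hr0.le
    nlinarith
  simp only [g] at hgε
  linarith

theorem distortion_aux (hV : MaxMod V) : ∀ (k : ℕ) (f : DiamondVertex k → V) (s Lsq : ℝ),
    0 < s → (∀ u v, s * (diamondDist k u v : ℝ) ≤ ‖f u - f v‖) →
    (∀ e : DiamondEdge k, ‖f (diamondSrc k e) - f (diamondTgt k e)‖ ^ 2 ≤ Lsq) →
    s ^ 2 * (1 + (k : ℝ) / 4) ≤ Lsq
  | 0, f, s, Lsq, hs, hlow, hup => by
      obtain ⟨e0⟩ := edge_nonempty 0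
      have h1 := hlow (diamondSrc 0 e0) (diamondTgt 0 e0)
      rw [dist_src_tgt] at h1
      have h2 := hup e0
      simp only [Nat.cast_one, mul_one] at h1
      simp only [Nat.cast_zero, zero_div, add_zero, mul_one]
      nlinarith
  | k + 1, f, s, Lsq, hs, hlow, hup => by
      obtain ⟨e0⟩ := edge_nonempty (k + 1)
      have hLsq : 0 ≤ Lsq := (sq_nonneg _).trans (hup e0)
      have hL : ∀ e : DiamondEdge (k + 1),
          ‖f (diamondSrc (k + 1) e) - f (diamondTgt (k + 1) e)‖ ≤ Real.sqrt Lsq :=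
        fun e => Real.le_sqrt_of_sq_le (hup e)
      have ih := distortion_aux hV k (fun u => f (Sum.inl u)) (2 * s) (4 * Lsq - s ^ 2)
        (by positivity) ?_ ?_
      · push_cast
        nlinarith
      · intro u v
        have h1 := hlow (Sum.inl u) (Sum.inl v)
        have h2 := dist_inl_inl_ge k u v
        have h3 : (2 * (diamondDist k u v : ℝ)) ≤
            (diamondDist (k + 1) (Sum.inl u) (Sum.inl v) : ℝ) := by exact_mod_cast h2
        have h4 : s * (2 * (diamondDist k u v : ℝ)) ≤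
            s * (diamondDist (k + 1) (Sum.inl u) (Sum.inl v) : ℝ) :=
          mul_le_mul_of_nonneg_left h3 hs.le
        calc 2 * s * (diamondDist k u v : ℝ) = s * (2 * (diamondDist k u v : ℝ)) := by ring
          _ ≤ _ := h4
          _ ≤ _ := h1
      · intro e
        have := midpoint_step hV (f (Sum.inl (diamondSrc k e))) (f (Sum.inl (diamondTgt k e)))
          (fun i => f (Sum.inr (e, i))) (Real.sqrt Lsq) s hs ?_ ?_ ?_
        · rw [Real.sq_sqrt hLsq] at this; exact this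
        · intro i; exact hL (e, i, false)
        · intro i; exact hL (e, i, true)
        · intro i j hij
          have h1 := hlow (Sum.inr (e, i)) (Sum.inr (e, j))
          have h2 := dist_mid_mid_ge k e hij
          have h3 : (2 : ℝ) ≤ (diamondDist (k + 1) (Sum.inr (e, i)) (Sum.inr (e, j)) : ℝ) := by
            exact_mod_cast h2
          have h4 : s * 2 ≤ s * (diamondDist (k + 1) (Sum.inr (e, i)) (Sum.inr (e, j)) : ℝ) :=
            mul_le_mul_of_nonneg_left h3 hs.le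
          calc 2 * s = s * 2 := by ring
            _ ≤ _ := h4
            _ ≤ _ := h1

/-- Distortion lower bound in type-class form. -/
theorem distortion_of_maxMod (hV : MaxMod V) (k : ℕ) (f : DiamondVertex k → V) (D : ℝ)
    (h : ∃ s : ℝ, 0 < s ∧ ∀ u v : DiamondVertex k,
      s * (diamondDist k u v : ℝ) ≤ ‖f u - f v‖ ∧ ‖f u - f v‖ ≤ D * s * (diamondDist k u v : ℝ)) :
    1 + (k : ℝ) / 4 ≤ D ^ 2 := by
  obtain ⟨s, hs, hsf⟩ := h
  have := distortion_aux hV k f s ((D * s) ^ 2) hs (fun u v => (hsf u v).1) (by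
    intro e
    have h1 := (hsf (diamondSrc k e) (diamondTgt k e)).2
    rw [dist_src_tgt] at h1
    simp only [Nat.cast_one, mul_one] at h1
    exact pow_le_pow_left₀ (norm_nonneg _) h1 2)
  have hs2 : 0 < s ^ 2 := by positivity
  have e : (D * s) ^ 2 = s ^ 2 * D ^ 2 := by ring
  rw [e] at this
  exact le_of_mul_le_mul_left this hs2

end analytic

/-- The distortion lower bound for the bundled record: a quadratic maximum-based midpoint modulus
forces `1 + k / 4 ≤ D ^ 2` for every distortion-`D` embedding of the `k`-th diamond. -/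
theorem diamond_distortion (E : RealBanach)
    (hmax : ∀ t : ℝ, 0 < t → E.MaxMidpointModulusGE E.norm t (Real.sqrt (1 + t ^ 2 / 4) - 1))
    (k : ℕ) (f : DiamondVertex k → E.X) (D : ℝ) (h : E.HasDistortionLE k f D) :
    1 + (k : ℝ) / 4 ≤ D ^ 2 := by
  letI := E.normed
  letI := E.space
  refine distortion_of_maxMod (V := E.X) ?_ k f D h
  intro t ht x hx η hη
  obtain ⟨F, ⟨S, hSF, hcl, hfd⟩, hF⟩ := hmax t ht x hx η hη
  refine ⟨S, by rw [hSF]; exact hcl, hfd, ?_⟩
  intro y hy hy1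
  exact hF y (by rw [← hSF]; exact hy) hy1

end Crest.Agent.Lib_helper19_Diamond
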