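import Crest.Agent.Lib_helper38_Area2

set_option autoImplicit false
open MeasureTheory Measure Set
open scoped ENNReal
open Crest.Agent.Lib_helper38_Area Crest.Agent.Lib_helper38_Area2

namespace Crest.Agent.Lib_helper38_Transport

/-- the standard regular tetrahedron of side 2 -/
noncomputable def K0 : Set E3 :=
  convexHull ℝ {!₂[1, 0, 0], !₂[-1, 0, 0], !₂[0, 1, Real.sqrt 2], !₂[0, -1, Real.sqrt 2]}

/-- An orthonormal triple gives a linear isometry equivalence of `ℝ³`. -/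
theorem exists_isometry_of_orthonormal (f : Fin 3 → E3) (hf : Orthonormal ℝ f) :
    ∃ U : E3 ≃ₗᵢ[ℝ] E3, ∀ x : E3, U x = x 0 • f 0 + x 1 • f 1 + x 2 • f 2 := by
  obtain ⟨b, hb⟩ := Orthonormal.exists_orthonormalBasis_extension_of_card_eq (𝕜 := ℝ) (E := E3)
    (ι := Fin 3) (by simp) (v := f) (s := Set.univ)
    (by
      have : (Set.univ : Set (Fin 3)).domRestrict f = f ∘ (Subtype.val) := rfl
      rw [this]
      exact hf.comp _ Subtype.val_injective)
  refine ⟨b.repr.symm, fun x => ?_⟩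
  rw [← b.sum_repr_symm, Fin.sum_univ_three, hb 0 (Set.mem_univ _), hb 1 (Set.mem_univ _),
    hb 2 (Set.mem_univ _)]

theorem frame_orthonormal {V : Type*} [NormedAddCommGroup V] [InnerProductSpace ℝ V]
    (a b c : V) (ℓ : ℝ) (hℓ : 0 < ℓ)
    (haa : inner ℝ a a = ℓ ^ 2) (hbb : inner ℝ b b = ℓ ^ 2) (hcc : inner ℝ c c = ℓ ^ 2)
    (hab : inner ℝ a b = ℓ ^ 2 / 2) (hac : inner ℝ a c = ℓ ^ 2 / 2)
    (hbc : inner ℝ b c = ℓ ^ 2 / 2) :
    Orthonormal ℝ ![(-ℓ⁻¹) • a, ℓ⁻¹ • (b - c), ((Real.sqrt 2)⁻¹ * ℓ⁻¹) • (b + c - a)] := by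
  have hba : inner ℝ b a = ℓ ^ 2 / 2 := by rw [real_inner_comm]; exact hab
  have hca : inner ℝ c a = ℓ ^ 2 / 2 := by rw [real_inner_comm]; exact hac
  have hcb : inner ℝ c b = ℓ ^ 2 / 2 := by rw [real_inner_comm]; exact hbc
  have hs2 : Real.sqrt 2 ^ 2 = 2 := Real.sq_sqrt (by norm_num)
  have hs0 : (0 : ℝ) < Real.sqrt 2 := by positivity
  rw [orthonormal_iff_ite]
  intro i j
  fin_cases i <;> fin_cases j <;>
    first
    | rw [if_pos rfl]
    | rw [if_neg (by decide)]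
  all_goals
    simp only [Fin.zero_eta, Fin.mk_one, Fin.reduceFinMk, Matrix.cons_val_zero,
      Matrix.cons_val_one, Matrix.cons_val, inner_smul_left, inner_smul_right, inner_sub_left,
      inner_sub_right, inner_add_left, inner_add_right, haa, hbb, hcc, hab, hac, hbc, hba, hca,
      hcb, conj_trivial]
  all_goals try field_simp
  all_goals try ring_nf
  all_goals try linarith

/-- The frame of a regular tetrahedron. -/
theorem exists_frame (w : Fin 4 → E3) (ℓ : ℝ) (hℓ : 0 < ℓ)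
    (hw : ∀ i j, i ≠ j → dist (w i) (w j) = ℓ) :
    ∃ (U : E3 ≃ₗᵢ[ℝ] E3) (o : E3),
      o + (ℓ / 2) • U !₂[1, 0, 0] = w 0 ∧ o + (ℓ / 2) • U !₂[-1, 0, 0] = w 1 ∧
      o + (ℓ / 2) • U !₂[0, 1, Real.sqrt 2] = w 2 ∧
      o + (ℓ / 2) • U !₂[0, -1, Real.sqrt 2] = w 3 := by
  obtain ⟨a, ha⟩ : ∃ a, a = w 1 - w 0 := ⟨_, rfl⟩
  obtain ⟨b, hb⟩ : ∃ b, b = w 2 - w 0 := ⟨_, rfl⟩
  obtain ⟨c, hc⟩ : ∃ c, c = w 3 - w 0 := ⟨_, rfl⟩
  have hn : ∀ i j, i ≠ j → ‖w i - w j‖ ^ 2 = ℓ ^ 2 := by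
    intro i j hij
    rw [← dist_eq_norm, hw i j hij]
  have haa : inner ℝ a a = ℓ ^ 2 := by
    rw [real_inner_self_eq_norm_sq, ha]; exact hn 1 0 (by decide)
  have hbb : inner ℝ b b = ℓ ^ 2 := by
    rw [real_inner_self_eq_norm_sq, hb]; exact hn 2 0 (by decide)
  have hcc : inner ℝ c c = ℓ ^ 2 := by
    rw [real_inner_self_eq_norm_sq, hc]; exact hn 3 0 (by decide)
  have hab : inner ℝ a b = ℓ ^ 2 / 2 := by
    have h := hn 1 2 (by decide)
    have e : w 1 - w 2 = a - b := by rw [ha, hb]; abel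
    rw [e, ← real_inner_self_eq_norm_sq, inner_sub_left, inner_sub_right, inner_sub_right,
      real_inner_comm a b] at h
    linarith
  have hac : inner ℝ a c = ℓ ^ 2 / 2 := by
    have h := hn 1 3 (by decide)
    have e : w 1 - w 3 = a - c := by rw [ha, hc]; abel
    rw [e, ← real_inner_self_eq_norm_sq, inner_sub_left, inner_sub_right, inner_sub_right,
      real_inner_comm a c] at h
    linarith
  have hbc : inner ℝ b c = ℓ ^ 2 / 2 := by
    have h := hn 2 3 (by decide)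
    have e : w 2 - w 3 = b - c := by rw [hb, hc]; abel
    rw [e, ← real_inner_self_eq_norm_sq, inner_sub_left, inner_sub_right, inner_sub_right,
      real_inner_comm b c] at h
    linarith
  have hs0 : Real.sqrt 2 ≠ 0 := by positivity
  obtain ⟨U, hU⟩ := exists_isometry_of_orthonormal _
    (frame_orthonormal a b c ℓ hℓ haa hbb hcc hab hac hbc)
  have hℓ0 : ℓ ≠ 0 := hℓ.ne'
  have e1 : w 1 = w 0 + a := by rw [ha]; abel
  have e2 : w 2 = w 0 + b := by rw [hb]; abel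
  have e3 : w 3 = w 0 + c := by rw [hc]; abel
  refine ⟨U, w 0 + (1 / 2 : ℝ) • a, ?_, ?_, ?_, ?_⟩
  · rw [hU]
    simp only [Matrix.cons_val_zero, Matrix.cons_val_one, Matrix.cons_val]
    match_scalars <;> field_simp <;> ring
  · rw [hU, e1]
    simp only [Matrix.cons_val_zero, Matrix.cons_val_one, Matrix.cons_val]
    match_scalars <;> field_simp <;> ring
  · rw [hU, e2]
    simp only [Matrix.cons_val_zero, Matrix.cons_val_one, Matrix.cons_val]
    match_scalars <;> field_simp <;> ring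
  · rw [hU, e3]
    simp only [Matrix.cons_val_zero, Matrix.cons_val_one, Matrix.cons_val]
    match_scalars <;> field_simp <;> ring

/-- the similarity `x ↦ o + l • U x` as an affine map -/
noncomputable def simMap (U : E3 ≃ₗᵢ[ℝ] E3) (o : E3) (l : ℝ) : E3 →ᵃ[ℝ] E3 :=
  (l • U.toLinearEquiv.toLinearMap).toAffineMap + AffineMap.const ℝ E3 o

@[simp] theorem simMap_apply (U : E3 ≃ₗᵢ[ℝ] E3) (o : E3) (l : ℝ) (x : E3) :
    simMap U o l x = o + l • U x := by
  simp [simMap, add_comm]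

theorem coe_simMap (U : E3 ≃ₗᵢ[ℝ] E3) (o : E3) (l : ℝ) :
    ⇑(simMap U o l) = fun x => o + l • U x := by
  ext1 x; simp

theorem simMap_image_triple (U : E3 ≃ₗᵢ[ℝ] E3) (o : E3) (l : ℝ) (p q r : E3) :
    simMap U o l '' convexHull ℝ {p, q, r} =
      convexHull ℝ {simMap U o l p, simMap U o l q, simMap U o l r} := by
  rw [AffineMap.image_convexHull]
  congr 1
  simp [Set.image_insert_eq]

theorem range_fin4 (w : Fin 4 → E3) : Set.range w = {w 0, w 1, w 2, w 3} := by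
  ext x
  constructor
  · rintro ⟨i, rfl⟩
    fin_cases i <;> simp
  · intro hx
    simp only [Set.mem_insert_iff, Set.mem_singleton_iff] at hx
    rcases hx with rfl | rfl | rfl | rfl <;> exact ⟨_, rfl⟩

/-- Every regular tetrahedron is a similar image of `K0`. -/
theorem exists_similarity (w : Fin 4 → E3) (ℓ : ℝ) (hℓ : 0 < ℓ)
    (hw : ∀ i j, i ≠ j → dist (w i) (w j) = ℓ) :
    ∃ (U : E3 ≃ₗᵢ[ℝ] E3) (o : E3), convexHull ℝ (Set.range w) = simMap U o (ℓ / 2) '' K0 := by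
  obtain ⟨U, o, h0, h1, h2, h3⟩ := exists_frame w ℓ hℓ hw
  refine ⟨U, o, ?_⟩
  rw [K0, AffineMap.image_convexHull, range_fin4]
  congr 1
  simp only [Set.image_insert_eq, Set.image_singleton, simMap_apply, h0, h1, h2, h3]

theorem projL_simMap (U : E3 ≃ₗᵢ[ℝ] E3) (o : E3) (l : ℝ) (v x : E3) :
    projL v (simMap U o l x) = simMap U (projL v o) l (projL (U.symm v) x) := by
  have h1 : inner ℝ (U x) v = inner ℝ x (U.symm v) := by
    conv_lhs => rw [← U.apply_symm_apply v]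
    rw [U.inner_map_map]
  simp only [simMap_apply, projL_apply, map_sub, map_smul, U.apply_symm_apply, inner_add_left,
    inner_smul_left, h1, conj_trivial]
  module

/-- Area of the projections of a similar image. -/
theorem muHE_proj_simMap_image (U : E3 ≃ₗᵢ[ℝ] E3) (o : E3) {l : ℝ} (hl : l ≠ 0) (v : E3)
    (S : Set E3) :
    μHE[2] ((fun y => y - inner ℝ y v • v) '' (simMap U o l '' S)) =
      ENNReal.ofReal (l ^ 2) *
        μHE[2] ((fun y => y - inner ℝ y (U.symm v) • (U.symm v)) '' S) := by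
  have h := muHE_similarity U.toLinearIsometry (projL v o) hl
    ((fun y => y - inner ℝ y (U.symm v) • (U.symm v)) '' S)
  rw [← h, Set.image_image, Set.image_image]
  congr 1
  apply Set.image_congr
  intro x _
  have := projL_simMap U o l v x
  simpa using this

theorem gramArea_smul_smul {V : Type*} [NormedAddCommGroup V] [InnerProductSpace ℝ V]
    {s t : ℝ} (hs : 0 ≤ s) (ht : 0 ≤ t) (a b : V) :
    gramArea (s • a) (t • b) = s * t * gramArea a b := by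
  rw [gramArea, gramArea, norm_smul, norm_smul, inner_smul_left, inner_smul_right,
    ← Real.sqrt_sq (mul_nonneg hs ht), ← Real.sqrt_mul (sq_nonneg _)]
  congr 1
  simp only [Real.norm_eq_abs, conj_trivial, mul_pow, sq_abs]
  ring

theorem gramArea_map (U : E3 ≃ₗᵢ[ℝ] E3) (a b : E3) : gramArea (U a) (U b) = gramArea a b := by
  rw [gramArea, gramArea, U.norm_map, U.norm_map, U.inner_map_map]

theorem gramArea_simMap (U : E3 ≃ₗᵢ[ℝ] E3) (o : E3) (l : ℝ) (p q r : E3) :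
    gramArea (simMap U o l q - simMap U o l p) (simMap U o l r - simMap U o l p) =
      l ^ 2 * gramArea (q - p) (r - p) := by
  have h1 : ∀ x y : E3, simMap U o l x - simMap U o l y = l • U (x - y) := by
    intro x y
    simp only [simMap_apply, map_sub, smul_sub]
    abel
  rw [h1, h1]
  rcases le_total 0 l with hl | hl
  · rw [gramArea_smul_smul hl hl, gramArea_map]; ring
  · have h2 : ∀ x : E3, l • x = (-l) • (-x) := by intro x; simp
    rw [h2, h2 (U (r - p)), gramArea_smul_smul (by linarith) (by linarith), ← map_neg, ← map_neg,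
      gramArea_map]
    have : gramArea (-(q - p)) (-(r - p)) = gramArea (q - p) (r - p) := by
      rw [gramArea, gramArea, norm_neg, norm_neg, inner_neg_neg]
    rw [this]; ring

/-- Transport of a cover by triangle cylinders under a similarity. -/
theorem transport_cover {ι : Type*} (U : E3 ≃ₗᵢ[ℝ] E3) (o : E3) (l : ℝ) (u p q r : ι → E3)
    (S : Set E3)
    (hcov : S ⊆ ⋃ i, {x : E3 | ∃ b ∈ convexHull ℝ {p i, q i, r i}, ∃ t : ℝ, x = b + t • u i}) :
    simMap U o l '' S ⊆ ⋃ i, {x : E3 | ∃ b ∈ convexHull ℝ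
      {simMap U (projL (U (u i)) o) l (p i), simMap U (projL (U (u i)) o) l (q i),
        simMap U (projL (U (u i)) o) l (r i)}, ∃ t : ℝ, x = b + t • U (u i)} := by
  rintro _ ⟨x, hx, rfl⟩
  obtain ⟨i, hi⟩ := Set.mem_iUnion.1 (hcov hx)
  obtain ⟨b, hb, t, rfl⟩ := hi
  refine Set.mem_iUnion.2 ⟨i, simMap U (projL (U (u i)) o) l b, ?_,
    inner ℝ o (U (u i)) + l * t, ?_⟩
  · rw [← simMap_image_triple]
    exact ⟨b, hb, rfl⟩
  · simp only [simMap_apply, projL_apply, map_add, map_smul]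
    module

theorem inner_simMap_perp (U : E3 ≃ₗᵢ[ℝ] E3) (o : E3) (l : ℝ) {u p : E3} (hu : ‖u‖ = 1)
    (hp : inner ℝ p u = 0) : inner ℝ (simMap U (projL (U u) o) l p) (U u) = 0 := by
  have hUu : ‖U u‖ = 1 := by rw [U.norm_map, hu]
  rw [simMap_apply, inner_add_left, inner_projL_self hUu, inner_smul_left, U.inner_map_map, hp]
  simp

/-- A triangle is covered by `m` parallelogram strips. -/
theorem triangle_subset_strips {V : Type*} [NormedAddCommGroup V] [InnerProductSpace ℝ V]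
    (p q r : V) (m : ℕ) (hm : 0 < m) :
    convexHull ℝ {p, q, r} ⊆ ⋃ j : Fin m, {x : V | ∃ s ∈ Set.Icc (0 : ℝ) 1,
      ∃ t ∈ Set.Icc (0 : ℝ) 1, x = (p + ((j : ℕ) / (m : ℝ)) • (r - p)) +
        s • ((1 - ((j : ℕ) : ℝ) / (m : ℝ)) • (q - p)) + t • ((1 / (m : ℝ)) • (r - p))} := by
  intro x hx
  rw [mem_convexHull_triple] at hx
  obtain ⟨s, t, hs, ht, hst, rfl⟩ := hx
  have hm0 : (0 : ℝ) < m := by exact_mod_cast hm
  obtain ⟨j, hj1, hj2⟩ : ∃ j : Fin m, ((j : ℕ) : ℝ) ≤ t * m ∧ t * m ≤ ((j : ℕ) : ℝ) + 1 := by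
    by_cases h : t * m < m
    · refine ⟨⟨⌊t * m⌋₊, ?_⟩, ?_, ?_⟩
      · exact (Nat.floor_lt (by positivity)).2 h
      · exact Nat.floor_le (by positivity)
      · exact (Nat.lt_floor_add_one _).le
    · refine ⟨⟨m - 1, by omega⟩, ?_, ?_⟩
      · have : ((m - 1 : ℕ) : ℝ) = m - 1 := by
          rw [Nat.cast_sub (by omega)]; simp
        simp only [this]
        linarith
      · have : ((m - 1 : ℕ) : ℝ) = m - 1 := by
          rw [Nat.cast_sub (by omega)]; simp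
        simp only [this]
        nlinarith
  have hjm : ((j : ℕ) : ℝ) + 1 ≤ m := by exact_mod_cast j.2
  have hpos : 0 < 1 - ((j : ℕ) : ℝ) / (m : ℝ) := by
    rw [sub_pos, div_lt_one hm0]; linarith
  have hjt : ((j : ℕ) : ℝ) / (m : ℝ) ≤ t := by
    rw [div_le_iff₀ hm0]; exact hj1
  refine Set.mem_iUnion.2 ⟨j, s / (1 - ((j : ℕ) : ℝ) / (m : ℝ)), ⟨by positivity, ?_⟩,
    t * m - (j : ℕ), ⟨by linarith, by linarith⟩, ?_⟩
  · rw [div_le_one hpos]; linarith
  · have h1 : s / (1 - ((j : ℕ) : ℝ) / (m : ℝ)) * (1 - ((j : ℕ) : ℝ) / (m : ℝ)) = s :=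
      div_mul_cancel₀ _ hpos.ne'
    have h2 : ((j : ℕ) : ℝ) / (m : ℝ) + (t * m - (j : ℕ)) * (1 / (m : ℝ)) = t := by
      field_simp; ring
    rw [smul_smul, smul_smul, h1]
    nth_rewrite 1 [← h2]
    rw [add_smul]
    abel

theorem sum_range_cast (n : ℕ) : ∑ j ∈ Finset.range n, (j : ℝ) = n * (n - 1) / 2 := by
  induction n with
  | zero => simp
  | succ k ih => rw [Finset.sum_range_succ, ih]; push_cast; ring

theorem sum_strips (m : ℕ) (hm : 0 < m) :
    ∑ j : Fin m, (1 - ((j : ℕ) : ℝ) / (m : ℝ)) * (1 / (m : ℝ)) = (1 + 1 / (m : ℝ)) / 2 := by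
  have hm0 : (m : ℝ) ≠ 0 := by positivity
  rw [Fin.sum_univ_eq_sum_range (fun j => (1 - (j : ℝ) / (m : ℝ)) * (1 / (m : ℝ))) m,
    ← Finset.sum_mul, Finset.sum_sub_distrib, ← Finset.sum_div, sum_range_cast]
  simp
  field_simp
  ring

/-- Final bookkeeping for covers by parallelogram cylinders. -/
theorem part1_final {ι : Type*} [Fintype ι] (K : Set E3) (u c a b : ι → E3)
    (hu : ∀ i, ‖u i‖ = 1)
    (hperp : ∀ i, inner ℝ (c i) (u i) = 0 ∧ inner ℝ (a i) (u i) = 0 ∧ inner ℝ (b i) (u i) = 0)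
    (hcov : K ⊆ ⋃ i, {x : E3 | ∃ s ∈ Set.Icc (0 : ℝ) 1, ∃ t ∈ Set.Icc (0 : ℝ) 1, ∃ τ : ℝ,
      x = c i + s • a i + t • b i + τ • u i})
    (m₀ : ℝ) (hm₀ : 0 < m₀)
    (hP : ∀ v : E3, ‖v‖ = 1 → m₀ ≤ (μHE[2] ((fun y => y - inner ℝ y v • v) '' K)).toReal)
    (hA : ∑ i, gramArea (a i) (b i) < m₀ / 2) :
    ∃ (k : ℕ) (u c a b : Fin k → EuclideanSpace ℝ (Fin 3)),
      (∀ i, ‖u i‖ = 1) ∧
      (∀ i, inner ℝ (c i) (u i) = 0 ∧ inner ℝ (a i) (u i) = 0 ∧ inner ℝ (b i) (u i) = 0) ∧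
      K ⊆ ⋃ i, {x : EuclideanSpace ℝ (Fin 3) |
        ∃ s ∈ Set.Icc (0 : ℝ) 1, ∃ t ∈ Set.Icc (0 : ℝ) 1, ∃ τ : ℝ, x = c i + s • a i + t • b i + τ • u i} ∧
      (∃ δ : ℝ, 0 < δ ∧ ∀ v : EuclideanSpace ℝ (Fin 3), ‖v‖ = 1 →
        (∑ i, (μHE[2] {x : EuclideanSpace ℝ (Fin 3) |
            ∃ s ∈ Set.Icc (0 : ℝ) 1, ∃ t ∈ Set.Icc (0 : ℝ) 1, x = c i + s • a i + t • b i}).toReal) + δ ≤
          (μHE[2] ((fun y => y - inner ℝ y v • v) '' K)).toReal / 2) ∧
      ∑ i, (μHE[2] {x : EuclideanSpace ℝ (Fin 3) |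
            ∃ s ∈ Set.Icc (0 : ℝ) 1, ∃ t ∈ Set.Icc (0 : ℝ) 1, x = c i + s • a i + t • b i}).toReal /
          (μHE[2] ((fun y => y - inner ℝ y (u i) • u i) '' K)).toReal < 1 / 2 := by
  set e : Fin (Fintype.card ι) ≃ ι := (Fintype.equivFin ι).symm with he
  refine ⟨Fintype.card ι, u ∘ e, c ∘ e, a ∘ e, b ∘ e, fun i => hu _, fun i => hperp _, ?_, ?_, ?_⟩
  · intro x hx
    obtain ⟨i, hi⟩ := Set.mem_iUnion.1 (hcov hx)
    refine Set.mem_iUnion.2 ⟨e.symm i, ?_⟩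
    simpa using hi
  · refine ⟨m₀ / 2 - ∑ i, gramArea (a i) (b i), by linarith, fun v hv => ?_⟩
    simp only [muHE_parallelogram_toReal, Function.comp]
    rw [Equiv.sum_comp e (fun i => gramArea (a i) (b i))]
    linarith [hP v hv]
  · simp only [muHE_parallelogram_toReal, Function.comp]
    rw [Equiv.sum_comp e (fun i => gramArea (a i) (b i) /
      (μHE[2] ((fun y => y - inner ℝ y (u i) • u i) '' K)).toReal)]
    calc ∑ i, gramArea (a i) (b i) / (μHE[2] ((fun y => y - inner ℝ y (u i) • u i) '' K)).toReal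
        ≤ ∑ i, gramArea (a i) (b i) / m₀ := by
          apply Finset.sum_le_sum
          intro i _
          exact div_le_div_of_nonneg_left (gramArea_nonneg _ _) hm₀ (hP _ (hu i))
      _ = (∑ i, gramArea (a i) (b i)) / m₀ := by rw [Finset.sum_div]
      _ < 1 / 2 := by
          rw [div_lt_iff₀ hm₀]; linarith

/-- Final bookkeeping for covers by cylinders with relatively open bases. -/
theorem part2_final {ι : Type*} [Fintype ι] (K : Set E3) (u : ι → E3) (T : ι → Set E3)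
    (hu : ∀ i, ‖u i‖ = 1) (hTc : ∀ i, IsCompact (T i))
    (hTu : ∀ i, ∀ x ∈ T i, inner ℝ x (u i) = 0)
    (hcov : K ⊆ ⋃ i, {x : E3 | ∃ y ∈ T i, ∃ τ : ℝ, x = y + τ • u i})
    (m₀ : ℝ) (hm₀ : 0 < m₀)
    (hP : ∀ v : E3, ‖v‖ = 1 → m₀ ≤ (μHE[2] ((fun y => y - inner ℝ y v • v) '' K)).toReal)
    (hA : ∑ i, (μHE[2] (T i)).toReal < m₀ / 2) :
    ∃ (k : ℕ) (u : Fin k → EuclideanSpace ℝ (Fin 3)) (B : Fin k → Set (EuclideanSpace ℝ (Fin 3))),
      (∀ i, ‖u i‖ = 1) ∧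
      (∀ i, Bornology.IsBounded (B i) ∧ ∃ O : Set (EuclideanSpace ℝ (Fin 3)), IsOpen O ∧
        B i = O ∩ {x | inner ℝ x (u i) = 0}) ∧
      K ⊆
        ⋃ i, {x : EuclideanSpace ℝ (Fin 3) | ∃ y ∈ B i, ∃ τ : ℝ, x = y + τ • u i} ∧
      (∃ δ : ℝ, 0 < δ ∧ ∀ v : EuclideanSpace ℝ (Fin 3), ‖v‖ = 1 →
        (∑ i, (μHE[2] (B i)).toReal) + δ ≤
          (μHE[2] ((fun y => y - inner ℝ y v • v) '' K)).toReal / 2) ∧
      ∑ i, (μHE[2] (B i)).toReal /
          (μHE[2] ((fun y => y - inner ℝ y (u i) • u i) '' K)).toReal < 1 / 2 := by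
  set e : Fin (Fintype.card ι) ≃ ι := (Fintype.equivFin ι).symm with he
  set A := ∑ i, (μHE[2] (T i)).toReal with hAdef
  set ε : ℝ := (m₀ / 2 - A) / (2 * ((Fintype.card ι : ℝ) + 1)) with hε
  have hn : (0 : ℝ) < 2 * ((Fintype.card ι : ℝ) + 1) := by positivity
  have hε0 : 0 < ε := div_pos (by linarith) hn
  have hu0 : ∀ i, u i ≠ 0 := by
    intro i h
    have := hu i
    rw [h] at this
    simp at this
  choose O hO1 hO2 hO3 hO4 using fun i => exists_open_base (hu0 i) (hTc i) (hTu i) hε0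
  set B : ι → Set E3 := fun i => O i ∩ {x | inner ℝ x (u i) = 0} with hB
  have hsum : ∑ i, (μHE[2] (B i)).toReal < m₀ / 2 := by
    calc ∑ i, (μHE[2] (B i)).toReal ≤ ∑ i, ((μHE[2] (T i)).toReal + ε) :=
          Finset.sum_le_sum (fun i _ => hO4 i)
      _ = A + (Fintype.card ι : ℝ) * ε := by
          rw [Finset.sum_add_distrib, ← hAdef]; simp
      _ < m₀ / 2 := by
          have h1 : (Fintype.card ι : ℝ) * ε ≤ (m₀ / 2 - A) / 2 := by
            rw [hε, ← mul_div_assoc, div_le_div_iff₀ hn (by norm_num)]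
            have : (0 : ℝ) ≤ Fintype.card ι := by positivity
            nlinarith
          linarith
  refine ⟨Fintype.card ι, u ∘ e, B ∘ e, fun i => hu _,
    fun i => ⟨hO3 _, O (e i), hO1 _, rfl⟩, ?_, ?_, ?_⟩
  · intro x hx
    obtain ⟨i, y, hy, τ, rfl⟩ := Set.mem_iUnion.1 (hcov hx)
    refine Set.mem_iUnion.2 ⟨e.symm i, y, ?_, τ, by simp⟩
    simp only [Function.comp, Equiv.apply_symm_apply]
    exact ⟨hO2 i hy, hTu i y hy⟩
  · refine ⟨m₀ / 2 - ∑ i, (μHE[2] (B i)).toReal, by linarith, fun v hv => ?_⟩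
    simp only [Function.comp]
    rw [Equiv.sum_comp e (fun i => (μHE[2] (B i)).toReal)]
    linarith [hP v hv]
  · simp only [Function.comp]
    rw [Equiv.sum_comp e (fun i => (μHE[2] (B i)).toReal /
      (μHE[2] ((fun y => y - inner ℝ y (u i) • u i) '' K)).toReal)]
    calc ∑ i, (μHE[2] (B i)).toReal / (μHE[2] ((fun y => y - inner ℝ y (u i) • u i) '' K)).toReal
        ≤ ∑ i, (μHE[2] (B i)).toReal / m₀ := by
          apply Finset.sum_le_sum
          intro i _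
          exact div_le_div_of_nonneg_left ENNReal.toReal_nonneg hm₀ (hP _ (hu i))
      _ = (∑ i, (μHE[2] (B i)).toReal) / m₀ := by rw [Finset.sum_div]
      _ < 1 / 2 := by
          rw [div_lt_iff₀ hm₀]; linarith

/-- From triangle cylinders to parallelogram cylinders. -/
theorem part1_of_triangles {M : ℕ} (K : Set E3) (u p q r : Fin M → E3)
    (hu : ∀ i, ‖u i‖ = 1)
    (hperp : ∀ i, inner ℝ (p i) (u i) = 0 ∧ inner ℝ (q i) (u i) = 0 ∧ inner ℝ (r i) (u i) = 0)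
    (hcov : K ⊆ ⋃ i, {x : E3 | ∃ b ∈ convexHull ℝ {p i, q i, r i}, ∃ t : ℝ, x = b + t • u i})
    (m₀ : ℝ)
    (hA : ∑ i, gramArea (q i - p i) (r i - p i) / 2 < m₀ / 2) :
    ∃ (m : ℕ) (u' c a b : Fin M × Fin m → E3), (∀ i, ‖u' i‖ = 1) ∧
      (∀ i, inner ℝ (c i) (u' i) = 0 ∧ inner ℝ (a i) (u' i) = 0 ∧ inner ℝ (b i) (u' i) = 0) ∧
      (K ⊆ ⋃ i, {x : E3 | ∃ s ∈ Set.Icc (0 : ℝ) 1, ∃ t ∈ Set.Icc (0 : ℝ) 1, ∃ τ : ℝ,
        x = c i + s • a i + t • b i + τ • u' i}) ∧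
      ∑ i, gramArea (a i) (b i) < m₀ / 2 := by
  set S := ∑ i, gramArea (q i - p i) (r i - p i) / 2 with hS
  have hS0 : 0 ≤ S := Finset.sum_nonneg (fun i _ => by
    have := gramArea_nonneg (q i - p i) (r i - p i); positivity)
  obtain ⟨n, hn⟩ := exists_nat_one_div_lt (K := ℝ) (ε := (m₀ / 2 - S) / (S + 1))
    (div_pos (by linarith) (by linarith))
  set m : ℕ := n + 1 with hm
  have hm0 : 0 < m := Nat.succ_pos n
  have hm1 : 1 / (m : ℝ) < (m₀ / 2 - S) / (S + 1) := by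
    rw [hm]; push_cast; exact hn
  refine ⟨m, fun ij => u ij.1,
    fun ij => p ij.1 + ((ij.2 : ℕ) / (m : ℝ)) • (r ij.1 - p ij.1),
    fun ij => (1 - ((ij.2 : ℕ) : ℝ) / (m : ℝ)) • (q ij.1 - p ij.1),
    fun ij => (1 / (m : ℝ)) • (r ij.1 - p ij.1), fun ij => hu _, ?_, ?_, ?_⟩
  · rintro ⟨i, j⟩
    obtain ⟨h1, h2, h3⟩ := hperp i
    simp only [inner_add_left, inner_smul_left, inner_sub_left, h1, h2, h3]
    simp
  · intro x hx
    obtain ⟨i, b, hb, t, rfl⟩ := Set.mem_iUnion.1 (hcov hx)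
    obtain ⟨j, s, hs, t', ht', rfl⟩ := Set.mem_iUnion.1 (triangle_subset_strips _ _ _ m hm0 hb)
    exact Set.mem_iUnion.2 ⟨(i, j), s, hs, t', ht', t, rfl⟩
  · rw [Fintype.sum_prod_type]
    have h1 : ∀ i : Fin M, ∑ j : Fin m, gramArea ((1 - ((j : ℕ) : ℝ) / (m : ℝ)) • (q i - p i))
        ((1 / (m : ℝ)) • (r i - p i)) =
        (1 + 1 / (m : ℝ)) * (gramArea (q i - p i) (r i - p i) / 2) := by
      intro i
      have h2 : ∀ j : Fin m, gramArea ((1 - ((j : ℕ) : ℝ) / (m : ℝ)) • (q i - p i))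
          ((1 / (m : ℝ)) • (r i - p i)) =
          ((1 - ((j : ℕ) : ℝ) / (m : ℝ)) * (1 / (m : ℝ))) * gramArea (q i - p i) (r i - p i) := by
        intro j
        apply gramArea_smul_smul _ (by positivity)
        have hjm : ((j : ℕ) : ℝ) ≤ m := by exact_mod_cast j.2.le
        have : ((j : ℕ) : ℝ) / (m : ℝ) ≤ 1 := by
          rw [div_le_one (by exact_mod_cast hm0)]; exact hjm
        linarith
      simp only [h2]
      rw [← Finset.sum_mul, sum_strips m hm0]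
      ring
    simp only [h1]
    rw [← Finset.mul_sum, ← hS]
    have h3 : 1 / (m : ℝ) * (S + 1) < m₀ / 2 - S := by
      rwa [lt_div_iff₀ (by linarith)] at hm1
    have h4 : (0 : ℝ) < 1 / (m : ℝ) := by positivity
    nlinarith

/-- `S0327` from a core cover of the standard tetrahedron and its minimal projection area. -/
theorem S0327_of
    (hCC : ∃ (M : ℕ) (u p q r : Fin M → E3), (∀ i, ‖u i‖ = 1) ∧
      (∀ i, inner ℝ (p i) (u i) = 0 ∧ inner ℝ (q i) (u i) = 0 ∧ inner ℝ (r i) (u i) = 0) ∧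
      K0 ⊆ ⋃ i, {x : E3 | ∃ b ∈ convexHull ℝ {p i, q i, r i}, ∃ t : ℝ, x = b + t • u i} ∧
      ∑ i, gramArea (q i - p i) (r i - p i) / 2 < Real.sqrt 2 / 2)
    (hMP : ∀ v : E3, ‖v‖ = 1 →
      Real.sqrt 2 ≤ (μHE[2] ((fun y => y - inner ℝ y v • v) '' K0)).toReal)
    (w : Fin 4 → EuclideanSpace ℝ (Fin 3)) (ℓ : ℝ) (hℓ : 0 < ℓ)
    (hw : ∀ i j, i ≠ j → dist (w i) (w j) = ℓ) :
    (∃ (k : ℕ) (u c a b : Fin k → EuclideanSpace ℝ (Fin 3)),
      (∀ i, ‖u i‖ = 1) ∧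
      (∀ i, inner ℝ (c i) (u i) = 0 ∧ inner ℝ (a i) (u i) = 0 ∧ inner ℝ (b i) (u i) = 0) ∧
      convexHull ℝ (Set.range w) ⊆ ⋃ i, {x : EuclideanSpace ℝ (Fin 3) |
        ∃ s ∈ Set.Icc (0 : ℝ) 1, ∃ t ∈ Set.Icc (0 : ℝ) 1, ∃ τ : ℝ, x = c i + s • a i + t • b i + τ • u i} ∧
      (∃ δ : ℝ, 0 < δ ∧ ∀ v : EuclideanSpace ℝ (Fin 3), ‖v‖ = 1 →
        (∑ i, (μHE[2] {x : EuclideanSpace ℝ (Fin 3) |
            ∃ s ∈ Set.Icc (0 : ℝ) 1, ∃ t ∈ Set.Icc (0 : ℝ) 1, x = c i + s • a i + t • b i}).toReal) + δ ≤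
          (μHE[2] ((fun y => y - inner ℝ y v • v) '' convexHull ℝ (Set.range w))).toReal / 2) ∧
      ∑ i, (μHE[2] {x : EuclideanSpace ℝ (Fin 3) |
            ∃ s ∈ Set.Icc (0 : ℝ) 1, ∃ t ∈ Set.Icc (0 : ℝ) 1, x = c i + s • a i + t • b i}).toReal /
          (μHE[2] ((fun y => y - inner ℝ y (u i) • u i) '' convexHull ℝ (Set.range w))).toReal < 1 / 2) ∧
    (∃ (k : ℕ) (u : Fin k → EuclideanSpace ℝ (Fin 3)) (B : Fin k → Set (EuclideanSpace ℝ (Fin 3))),
      (∀ i, ‖u i‖ = 1) ∧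
      (∀ i, Bornology.IsBounded (B i) ∧ ∃ O : Set (EuclideanSpace ℝ (Fin 3)), IsOpen O ∧
        B i = O ∩ {x | inner ℝ x (u i) = 0}) ∧
      convexHull ℝ (Set.range w) ⊆
        ⋃ i, {x : EuclideanSpace ℝ (Fin 3) | ∃ y ∈ B i, ∃ τ : ℝ, x = y + τ • u i} ∧
      (∃ δ : ℝ, 0 < δ ∧ ∀ v : EuclideanSpace ℝ (Fin 3), ‖v‖ = 1 →
        (∑ i, (μHE[2] (B i)).toReal) + δ ≤
          (μHE[2] ((fun y => y - inner ℝ y v • v) '' convexHull ℝ (Set.range w))).toReal / 2) ∧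
      ∑ i, (μHE[2] (B i)).toReal /
          (μHE[2] ((fun y => y - inner ℝ y (u i) • u i) '' convexHull ℝ (Set.range w))).toReal < 1 / 2) := by
  obtain ⟨U, o, hK⟩ := exists_similarity w ℓ hℓ hw
  obtain ⟨M, u, p, q, r, hu, hperp, hcov, hA⟩ := hCC
  set l : ℝ := ℓ / 2 with hl
  have hl0 : 0 < l := by positivity
  set m₀ : ℝ := l ^ 2 * Real.sqrt 2 with hm₀
  have hm₀pos : 0 < m₀ := by positivity
  have hP : ∀ v : E3, ‖v‖ = 1 → m₀ ≤
      (μHE[2] ((fun y => y - inner ℝ y v • v) '' convexHull ℝ (Set.range w))).toReal := by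
    intro v hv
    rw [hK, muHE_proj_simMap_image U o hl0.ne', ENNReal.toReal_mul,
      ENNReal.toReal_ofReal (by positivity)]
    exact mul_le_mul_of_nonneg_left (hMP _ (by rw [U.symm.norm_map, hv])) (by positivity)
  set u' : Fin M → E3 := fun i => U (u i) with hu'
  set p' : Fin M → E3 := fun i => simMap U (projL (U (u i)) o) l (p i) with hp'
  set q' : Fin M → E3 := fun i => simMap U (projL (U (u i)) o) l (q i) with hq'
  set r' : Fin M → E3 := fun i => simMap U (projL (U (u i)) o) l (r i) with hr'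
  have hu1 : ∀ i, ‖u' i‖ = 1 := fun i => by rw [hu', U.norm_map, hu]
  have hperp' : ∀ i, inner ℝ (p' i) (u' i) = 0 ∧ inner ℝ (q' i) (u' i) = 0 ∧
      inner ℝ (r' i) (u' i) = 0 := fun i =>
    ⟨inner_simMap_perp U o l (hu i) (hperp i).1, inner_simMap_perp U o l (hu i) (hperp i).2.1,
      inner_simMap_perp U o l (hu i) (hperp i).2.2⟩
  have hcov' : convexHull ℝ (Set.range w) ⊆ ⋃ i, {x : E3 | ∃ b ∈ convexHull ℝ {p' i, q' i, r' i},
      ∃ t : ℝ, x = b + t • u' i} := by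
    rw [hK]
    exact transport_cover U o l u p q r K0 hcov
  have hA' : ∑ i, gramArea (q' i - p' i) (r' i - p' i) / 2 < m₀ / 2 := by
    have h1 : ∀ i, gramArea (q' i - p' i) (r' i - p' i) / 2 =
        l ^ 2 * (gramArea (q i - p i) (r i - p i) / 2) := by
      intro i
      rw [hq', hp', hr']
      simp only [gramArea_simMap]
      ring
    simp only [h1]
    rw [← Finset.mul_sum, hm₀, mul_div_assoc]
    exact mul_lt_mul_of_pos_left hA (by positivity)
  constructor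
  · obtain ⟨m, u'', c, a, b, h1, h2, h3, h4⟩ :=
      part1_of_triangles _ u' p' q' r' hu1 hperp' hcov' m₀ hA'
    exact part1_final _ u'' c a b h1 h2 h3 m₀ hm₀pos hP h4
  · refine part2_final _ u' (fun i => convexHull ℝ {p' i, q' i, r' i}) hu1
      (fun i => isCompact_convexHull_triple _ _ _) ?_ hcov' m₀ hm₀pos hP ?_
    · intro i x hx
      rw [mem_convexHull_triple] at hx
      obtain ⟨s, t, _, _, _, rfl⟩ := hx
      obtain ⟨h1, h2, h3⟩ := hperp' i
      simp only [inner_add_left, inner_smul_left, inner_sub_left, h1, h2, h3]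
      simp
    · simp only [muHE_triangle_toReal]
      exact hA'

end Crest.Agent.Lib_helper38_Transport
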