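import Mathlib

set_option autoImplicit false

namespace Crest.Agent.Lib_helper41_L1Cut

open Finset

/-- indicator of membership as a real number -/
noncomputable def ind {n : ℕ} (S : Finset (Fin n)) (i : Fin n) : ℝ := if i ∈ S then 1 else 0

/-- telescoping for a function on `Fin (m+1)` -/
theorem mono_cut {m : ℕ} (h : Fin (m+1) → ℝ) (p : Fin (m+1)) :
    h p = h 0 + ∑ l : Fin m, (h l.succ - h l.castSucc) * (if l.castSucc < p then 1 else 0) := by
  induction p using Fin.induction with
  | zero => simp
  | succ q ih =>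
    have key : ∀ l : Fin m, (h l.succ - h l.castSucc) * (if l.castSucc < q.succ then (1:ℝ) else 0)
        = (h l.succ - h l.castSucc) * (if l.castSucc < q.castSucc then 1 else 0)
          + (if l = q then (h l.succ - h l.castSucc) else 0) := by
      intro l
      rcases lt_trichotomy l q with hlq | hlq | hlq
      · have h1 : l.castSucc < q.succ := by
          simp only [Fin.lt_def, Fin.val_castSucc, Fin.val_succ] at *; omega
        have h2 : l.castSucc < q.castSucc := by
          simp only [Fin.lt_def, Fin.val_castSucc] at *; omega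
        simp [h1, h2, hlq.ne]
      · subst hlq
        have h1 : l.castSucc < l.succ := by
          simp only [Fin.lt_def, Fin.val_castSucc, Fin.val_succ] at *; omega
        simp [h1]
      · have h1 : ¬ l.castSucc < q.succ := by
          simp only [Fin.lt_def, Fin.val_castSucc, Fin.val_succ] at *; omega
        have h2 : ¬ l.castSucc < q.castSucc := by
          simp only [Fin.lt_def, Fin.val_castSucc] at *; omega
        simp [h1, h2, hlq.ne']
    rw [Finset.sum_congr rfl (fun l _ => key l), Finset.sum_add_distrib, Finset.sum_ite_eq' ]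
    simp only [Finset.mem_univ, if_true]
    linarith [ih]


theorem mono_cut_abs_aux {m : ℕ} (h : Fin (m+1) → ℝ) (hh : Monotone h) (p q : Fin (m+1))
    (hpq : p ≤ q) :
    ∑ l : Fin m, (h l.succ - h l.castSucc) *
      |(if l.castSucc < p then (1:ℝ) else 0) - (if l.castSucc < q then 1 else 0)| = |h p - h q| := by
  have key : ∀ l : Fin m, (h l.succ - h l.castSucc) *
      |(if l.castSucc < p then (1:ℝ) else 0) - (if l.castSucc < q then 1 else 0)|
      = (h l.succ - h l.castSucc) * (if l.castSucc < q then 1 else 0)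
        - (h l.succ - h l.castSucc) * (if l.castSucc < p then 1 else 0) := by
    intro l
    by_cases h1 : l.castSucc < p
    · have h2 : l.castSucc < q := lt_of_lt_of_le h1 hpq
      simp [h1, h2]
    · by_cases h2 : l.castSucc < q <;> simp [h1, h2]
  rw [Finset.sum_congr rfl (fun l _ => key l), Finset.sum_sub_distrib]
  have e1 := mono_cut h p
  have e2 := mono_cut h q
  have e3 : h p ≤ h q := hh hpq
  rw [abs_of_nonpos (by linarith)]
  linarith

theorem mono_cut_abs {m : ℕ} (h : Fin (m+1) → ℝ) (hh : Monotone h) (p q : Fin (m+1)) :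
    ∑ l : Fin m, (h l.succ - h l.castSucc) *
      |(if l.castSucc < p then (1:ℝ) else 0) - (if l.castSucc < q then 1 else 0)| = |h p - h q| := by
  rcases le_total p q with hpq | hpq
  · exact mono_cut_abs_aux h hh p q hpq
  · have := mono_cut_abs_aux h hh q p hpq
    rw [abs_sub_comm (h p) (h q), ← this]
    refine Finset.sum_congr rfl (fun l _ => ?_)
    rw [abs_sub_comm]

/-- Cut decomposition of a real function on `Fin n`. -/
theorem real_cut {n : ℕ} (g : Fin n → ℝ) :
    ∃ (m : ℝ) (c : Finset (Fin n) → ℝ), (∀ S, 0 ≤ c S) ∧ |m| ≤ ∑ i, |g i| ∧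
      (∀ S, c S ≤ 2 * ∑ i, |g i|) ∧
      (∀ i, g i = m + ∑ S, c S * ind S i) ∧
      (∀ i j, ∑ S, c S * |ind S i - ind S j| = |g i - g j|) := by
  rcases n with _ | m
  · refine ⟨0, fun _ => 0, fun _ => le_rfl, by simp, by simp, fun i => i.elim0, fun i => i.elim0⟩
  · set σ := Tuple.sort g with hσ
    set h : Fin (m+1) → ℝ := g ∘ σ with hh
    have hmono : Monotone h := Tuple.monotone_sort g
    set T : Fin m → Finset (Fin (m+1)) := fun l => univ.filter (fun i => l.castSucc < σ.symm i) with hT
    set gap : Fin m → ℝ := fun l => h l.succ - h l.castSucc with hgap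
    have hgap0 : ∀ l, 0 ≤ gap l := fun l => sub_nonneg.2 (hmono (Fin.castSucc_lt_succ).le)
    set c : Finset (Fin (m+1)) → ℝ := fun S => ∑ l, gap l * (if T l = S then 1 else 0) with hc
    have hsum : ∀ F : Finset (Fin (m+1)) → ℝ, ∑ S, c S * F S = ∑ l, gap l * F (T l) := by
      intro F
      simp only [hc, Finset.sum_mul]
      rw [Finset.sum_comm]
      refine Finset.sum_congr rfl (fun l _ => ?_)
      have : ∀ S, gap l * (if T l = S then (1:ℝ) else 0) * F S = if T l = S then gap l * F S else 0 := by
        intro S; split_ifs <;> simp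
      rw [Finset.sum_congr rfl (fun S _ => this S), Finset.sum_ite_eq]
      simp
    have hind : ∀ l i, ind (T l) i = if l.castSucc < σ.symm i then 1 else 0 := by
      intro l i
      simp [ind, hT]
    have hg : ∀ i, g i = h (σ.symm i) := by intro i; simp [hh]
    have hle : ∀ i, |g i| ≤ ∑ i, |g i| := fun i =>
      Finset.single_le_sum (f := fun i => |g i|) (fun i _ => abs_nonneg _) (Finset.mem_univ i)
    refine ⟨h 0, c, ?_, ?_, ?_, ?_, ?_⟩
    · intro S
      exact Finset.sum_nonneg (fun l _ => mul_nonneg (hgap0 l) (by split_ifs <;> norm_num))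
    · exact hle _
    · intro S
      have h1 : c S ≤ ∑ l, gap l := by
        refine Finset.sum_le_sum (fun l _ => ?_)
        have := hgap0 l
        split_ifs <;> simp [this]
      have h2 := mono_cut h (Fin.last m)
      have h3 : ∑ l : Fin m, (h l.succ - h l.castSucc) *
          (if l.castSucc < Fin.last m then (1:ℝ) else 0) = ∑ l, gap l := by
        refine Finset.sum_congr rfl (fun l _ => ?_)
        simp [hgap, Fin.castSucc_lt_last]
      rw [h3] at h2
      have h4 : |h (Fin.last m)| ≤ ∑ i, |g i| := hle _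
      have h5 : |h 0| ≤ ∑ i, |g i| := hle _
      have h6 := le_abs_self (h (Fin.last m))
      have h7 := neg_abs_le (h 0)
      linarith
    · intro i
      rw [hsum (fun S => ind S i), hg i, mono_cut h (σ.symm i)]
      congr 1
      refine Finset.sum_congr rfl (fun l _ => ?_)
      rw [hind]
    · intro i j
      rw [hsum (fun S => |ind S i - ind S j|), hg i, hg j, ← mono_cut_abs h hmono]
      refine Finset.sum_congr rfl (fun l _ => ?_)
      rw [hind, hind]


theorem l1_summable (f : lp (fun _ : ℕ => ℝ) 1) : Summable (fun k => |f k|) := by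
  have := (lp.memℓp f).summable (by simp)
  simpa using this

theorem l1_norm (f : lp (fun _ : ℕ => ℝ) 1) : ‖f‖ = ∑' k, |f k| := by
  have := lp.norm_eq_tsum_rpow (p := 1) (by simp) f
  simpa using this

theorem l1_mem (f : ℕ → ℝ) (hf : Summable (fun k => |f k|)) :
    Memℓp (E := fun _ : ℕ => ℝ) f 1 := by
  apply memℓp_gen
  simpa using hf

/-- **Cut decomposition in `ℓ₁`.** -/
theorem cut {n : ℕ} (x : Fin n → lp (fun _ : ℕ => ℝ) 1) :
    ∃ (b : lp (fun _ : ℕ => ℝ) 1) (v : Finset (Fin n) → lp (fun _ : ℕ => ℝ) 1),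
      (∀ i, x i = b + ∑ S, ind S i • v S) ∧
      (∀ i j, ∑ S, ‖v S‖ * |ind S i - ind S j| = ‖x i - x j‖) := by
  choose m c hc0 hm hcb hdec habs using fun k : ℕ => real_cut (fun i => x i k)
  have hsum : Summable (fun k => ∑ i, |x i k|) := summable_sum (fun i _ => l1_summable (x i))
  have hmS : Summable (fun k => |m k|) :=
    Summable.of_nonneg_of_le (fun k => abs_nonneg _) hm hsum
  have hcS : ∀ S, Summable (fun k => |c k S|) := by
    intro S
    refine Summable.of_nonneg_of_le (fun k => abs_nonneg _) (fun k => ?_) (hsum.mul_left 2)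
    rw [abs_of_nonneg (hc0 k S)]
    exact hcb k S
  refine ⟨⟨fun k => m k, l1_mem _ hmS⟩, fun S => ⟨fun k => c k S, l1_mem _ (hcS S)⟩, ?_, ?_⟩
  · intro i
    ext k
    rw [lp.coeFn_add, Pi.add_apply, lp.coeFn_sum, Finset.sum_apply]
    simp only [lp.coeFn_smul, Pi.smul_apply, smul_eq_mul]
    rw [hdec k i]
    congr 1
    exact Finset.sum_congr rfl (fun S _ => mul_comm _ _)
  · intro i j
    rw [l1_norm (x i - x j)]
    have h1 : ∀ S, ‖(⟨fun k => c k S, l1_mem _ (hcS S)⟩ : lp (fun _ : ℕ => ℝ) 1)‖
        * |ind S i - ind S j| = ∑' k, c k S * |ind S i - ind S j| := by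
      intro S
      rw [l1_norm, ← tsum_mul_right]
      refine tsum_congr (fun k => ?_)
      show |c k S| * _ = _
      rw [abs_of_nonneg (hc0 k S)]
    rw [Finset.sum_congr rfl (fun S _ => h1 S), ← Summable.tsum_finsetSum]
    · refine tsum_congr (fun k => ?_)
      rw [habs k i j, lp.coeFn_sub, Pi.sub_apply]
    · intro S _
      have := (hcS S).mul_right (|ind S i - ind S j|)
      refine this.congr (fun k => ?_)
      rw [abs_of_nonneg (hc0 k S)]

end Crest.Agent.Lib_helper41_L1Cut
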