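import Crest.Agent.Lib_helper45_CoreCover

/-! # Core cover for row 211: nondegenerate version (helper45) -/

set_option autoImplicit false

namespace Crest.Agent.Lib_helper45_CC

theorem areaTerm_pos (m : ℝ) : 0 < areaTerm m := by
  unfold areaTerm
  have hk := kk_pos
  have hl := lam_pos
  have hG : 0 ≤ Gf m := by unfold Gf; positivity
  have hH : 0 < Hf m := by
    unfold Hf Rtop
    positivity
  have hs : 0 < Real.sqrt (1 + lam ^ 2 * Wf m) := by
    apply Real.sqrt_pos.mpr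
    have : 0 ≤ lam ^ 2 * Wf m := by unfold Wf; positivity
    linarith
  positivity

theorem fans_area_pos (i : Fin (Nn + Nn)) : 0 < cylArea (fans i) := by
  have hs : 0 < Real.sqrt 2 := by positivity
  unfold fans
  refine Fin.addCases (fun i => ?_) (fun i => ?_) i
  · rw [Fin.append_left, lowCyl_area]; exact mul_pos hs (areaTerm_pos _)
  · rw [Fin.append_right, upCyl_area]; exact mul_pos hs (areaTerm_pos _)

end Crest.Agent.Lib_helper45_CC

namespace Crest.Agent.Lib_helper45_CoreCover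

open Crest.Agent.Lib_helper45_CC

/-- **Core cover**, nondegenerate triangles. -/
theorem core_cover_nondeg :
    ∃ (u p q r : Fin 2000000 → EuclideanSpace ℝ (Fin 3)),
      (∀ i, ‖u i‖ = 1) ∧
      (∀ i, inner ℝ (p i) (u i) = 0 ∧ inner ℝ (q i) (u i) = 0 ∧ inner ℝ (r i) (u i) = 0) ∧
      (∀ i, 0 < ‖q i - p i‖ ^ 2 * ‖r i - p i‖ ^ 2 - inner ℝ (q i - p i) (r i - p i) ^ 2) ∧
      convexHull ℝ {!₂[1, 0, 0], !₂[-1, 0, 0], !₂[0, 1, Real.sqrt 2], !₂[0, -1, Real.sqrt 2]} ⊆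
        ⋃ i, {x : EuclideanSpace ℝ (Fin 3) | ∃ b ∈ convexHull ℝ {p i, q i, r i}, ∃ t : ℝ,
          x = b + t • u i} ∧
      ∑ i, Real.sqrt (‖q i - p i‖ ^ 2 * ‖r i - p i‖ ^ 2 - inner ℝ (q i - p i) (r i - p i) ^ 2) / 2
        ≤ Real.sqrt 2 * (1 / 2 - 1 / 10 ^ 7) := by
  have hN : Nn + Nn = 2000000 := by unfold Nn; norm_num
  rw [← hN]
  refine ⟨fun i => (fans i).1, fun i => (fans i).2.1, fun i => (fans i).2.2.1,
    fun i => (fans i).2.2.2, fun i => (fans_good i).1, fun i => (fans_good i).2, fun i => ?_,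
    fans_cov, fans_area⟩
  have h := fans_area_pos i
  unfold cylArea at h
  have h2 : 0 < Real.sqrt (‖(fans i).2.2.1 - (fans i).2.1‖ ^ 2 * ‖(fans i).2.2.2 - (fans i).2.1‖ ^ 2
    - inner ℝ ((fans i).2.2.1 - (fans i).2.1) ((fans i).2.2.2 - (fans i).2.1) ^ 2) := by linarith
  exact Real.sqrt_pos.mp h2

end Crest.Agent.Lib_helper45_CoreCover
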