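import Mathlib

/-!
# Computable arithmetic on `ℚ` (for Mathlib's `Primcodable ℚ`, which comes from `Denumerable ℚ`)

All lemmas are in "composition form".
-/

set_option autoImplicit false

namespace Crest.Agent.RatComp

open Encodable Denumerable

/-- the code of a rational in `Rat.instEncodable`. -/
def cQ (q : ℚ) : ℕ := Nat.pair (encode q.num) q.den

/-- explicit description of the valid codes -/
def validQ (m : ℕ) : Prop :=
  0 < m.unpair.2 ∧ Nat.Coprime ((m.unpair.1 + 1) / 2) m.unpair.2

theorem encode_int_natAbs (z : ℤ) : (encode z + 1) / 2 = z.natAbs := by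
  cases z with
  | ofNat n =>
    have : encode (Int.ofNat n) = 2 * n := rfl
    rw [this]; simp; omega
  | negSucc n =>
    have : encode (Int.negSucc n) = 2 * n + 1 := rfl
    rw [this]; simp; omega

theorem validQ_iff (m : ℕ) : validQ m ↔ ∃ q : ℚ, cQ q = m := by
  constructor
  · rintro ⟨h1, h2⟩
    refine ⟨⟨ofNat ℤ m.unpair.1, m.unpair.2, h1.ne', ?_⟩, ?_⟩
    · rw [← encode_int_natAbs, encode_ofNat]; exact h2
    · show Nat.pair (encode (ofNat ℤ m.unpair.1)) m.unpair.2 = m
      rw [encode_ofNat, Nat.pair_unpair]
  · rintro ⟨q, rfl⟩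
    refine ⟨?_, ?_⟩
    · simp [cQ, q.den_pos]
    · simp only [cQ, Nat.unpair_pair]
      rw [encode_int_natAbs]; exact q.reduced

theorem cQ_injective : Function.Injective cQ := by
  intro a b h
  have h' := congrArg Nat.unpair h
  simp only [cQ, Nat.unpair_pair, Prod.mk.injEq] at h'
  exact Rat.ext (encode_injective h'.1) h'.2

theorem coprime_iff_forall (a b : ℕ) (hb : 0 < b) :
    Nat.Coprime a b ↔ ∀ x < b + 1, ¬ (2 ≤ x ∧ x ∣ a ∧ x ∣ b) := by
  constructor
  · intro h x _ ⟨h2, ha, hb'⟩
    have := Nat.eq_one_of_dvd_coprimes h ha hb'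
    omega
  · intro h
    by_contra hc
    have hg : Nat.gcd a b ≠ 1 := hc
    have hg0 : 0 < Nat.gcd a b := Nat.gcd_pos_of_pos_right a hb
    have hle : Nat.gcd a b ≤ b := Nat.le_of_dvd hb (Nat.gcd_dvd_right a b)
    exact h (Nat.gcd a b) (by omega) ⟨by omega, Nat.gcd_dvd_left a b, Nat.gcd_dvd_right a b⟩

theorem primrecRel_dvd : PrimrecRel (fun a b : ℕ => a ∣ b) := by
  have : PrimrecRel (fun a b : ℕ => b % a = 0) :=
    Primrec.eq.comp (Primrec.nat_mod.comp Primrec.snd Primrec.fst) (Primrec.const 0)
  exact this.of_eq fun a b => (Nat.dvd_iff_mod_eq_zero).symm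

theorem primrecPred_validQ : PrimrecPred validQ := by
  have hu1 : Primrec (fun m : ℕ => (m.unpair.1 + 1) / 2) :=
    Primrec.nat_div.comp (Primrec.succ.comp (Primrec.fst.comp Primrec.unpair)) (Primrec.const 2)
  have hu2 : Primrec (fun m : ℕ => m.unpair.2) := Primrec.snd.comp Primrec.unpair
  have hR : PrimrecRel (fun x m : ℕ =>
      ¬ (2 ≤ x ∧ x ∣ (m.unpair.1 + 1) / 2 ∧ x ∣ m.unpair.2)) := by
    refine PrimrecPred.not (PrimrecPred.and ?_ (PrimrecPred.and ?_ ?_))
    · exact Primrec.nat_le.comp (Primrec.const 2) Primrec.fst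
    · exact primrecRel_dvd.comp Primrec.fst (hu1.comp Primrec.snd)
    · exact primrecRel_dvd.comp Primrec.fst (hu2.comp Primrec.snd)
  have hA : PrimrecPred (fun m : ℕ => ∀ x < m.unpair.2 + 1,
      ¬ (2 ≤ x ∧ x ∣ (m.unpair.1 + 1) / 2 ∧ x ∣ m.unpair.2)) :=
    hR.forall_lt.comp (Primrec.succ.comp hu2) Primrec.id
  have hB : PrimrecPred (fun m : ℕ => 0 < m.unpair.2) :=
    Primrec.nat_lt.comp (Primrec.const 0) hu2
  refine (hB.and hA).of_eq fun m => ?_
  unfold validQ
  constructor
  · rintro ⟨h1, h2⟩; exact ⟨h1, (coprime_iff_forall _ _ h1).2 h2⟩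
  · rintro ⟨h1, h2⟩; exact ⟨h1, (coprime_iff_forall _ _ h1).1 h2⟩

instance instDecValidQ : DecidablePred validQ := fun _ => inferInstanceAs (Decidable (_ ∧ _))

/-- the code of a rational for `Primcodable ℚ` (the one used by `Computable`). -/
def eQ (q : ℚ) : ℕ := @encode ℚ Primcodable.toEncodable q

theorem primrec_eQ : Primrec eQ := Primrec.encode

theorem eQ_eq (q : ℚ) : eQ q = Nat.count validQ (cQ q) := by
  have h : eQ q = @List.countP ℕ (fun x => @decide (x ∈ Set.range (@encode ℚ Rat.instEncodable))
      (@decidableRangeEncode ℚ Rat.instEncodable x))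
      (List.range (@encode ℚ Rat.instEncodable q)) := rfl
  rw [h]
  have hc : @encode ℚ Rat.instEncodable q = cQ q := rfl
  rw [hc, Nat.count]
  apply List.countP_congr
  intro x _
  simp only [decide_eq_true_eq]
  rw [validQ_iff]
  exact Iff.rfl

theorem primrec_count_validQ : Primrec (Nat.count validQ) := by
  have h : Primrec (fun n : ℕ => Nat.rec (motive := fun _ => ℕ) 0
      (fun k ih => ih + if validQ k then 1 else 0) n) := by
    refine Primrec.nat_rec₁ 0 ?_
    refine Primrec.nat_add.comp Primrec.snd ?_
    exact Primrec.ite (primrecPred_validQ.comp Primrec.fst) (Primrec.const 1) (Primrec.const 0)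
  refine h.of_eq fun n => ?_
  induction n with
  | zero => simp
  | succ k ih => rw [Nat.count_succ, ← ih]

theorem validQ_cQ (q : ℚ) : validQ (cQ q) := (validQ_iff _).2 ⟨q, rfl⟩

/-- `cQ` is computable (by unbounded search). -/
theorem computable_cQ : Computable cQ := by
  have hp : Partrec₂ (fun (q : ℚ) => ((fun (m : ℕ) =>
      Part.some (decide (validQ m ∧ Nat.count validQ m = eQ q))) : ℕ →. Bool)) := by
    refine Computable.partrec (f := fun p : ℚ × ℕ =>
      decide (validQ p.2 ∧ Nat.count validQ p.2 = eQ p.1)) ?_
    refine Primrec.to_comp ?_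
    refine PrimrecPred.decide ?_
    refine PrimrecPred.and (primrecPred_validQ.comp Primrec.snd) ?_
    exact Primrec.eq.comp (primrec_count_validQ.comp Primrec.snd)
      (primrec_eQ.comp Primrec.fst)
  refine (Partrec.rfind hp).of_eq_tot fun q => ?_
  refine Nat.mem_rfind.2 ⟨?_, ?_⟩
  · simp [validQ_cQ, eQ_eq]
  · intro m hm
    simp only [Part.mem_some_iff, Bool.false_eq, decide_eq_false_iff_not, not_and]
    intro hv he
    rw [eQ_eq] at he
    have := Nat.count_injective hv (validQ_cQ q) he
    omega

/-- positive part of the numerator -/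
def ratP (q : ℚ) : ℕ := q.num.toNat
/-- negative part of the numerator -/
def ratM (q : ℚ) : ℕ := (-q.num).toNat
/-- denominator -/
def ratD (q : ℚ) : ℕ := q.den

theorem toNat_of_encode (z : ℤ) : z.toNat = if encode z % 2 = 0 then encode z / 2 else 0 := by
  cases z with
  | ofNat n =>
    have : encode (Int.ofNat n) = 2 * n := rfl
    rw [this]; simp
  | negSucc n =>
    have : encode (Int.negSucc n) = 2 * n + 1 := rfl
    rw [this]
    have h2 : (2 * n + 1) % 2 ≠ 0 := by omega
    simp

theorem neg_toNat_of_encode (z : ℤ) :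
    (-z).toNat = if encode z % 2 = 0 then 0 else (encode z + 1) / 2 := by
  cases z with
  | ofNat n =>
    have : encode (Int.ofNat n) = 2 * n := rfl
    rw [this]; simp
  | negSucc n =>
    have : encode (Int.negSucc n) = 2 * n + 1 := rfl
    rw [this]
    have h2 : (2 * n + 1) % 2 ≠ 0 := by omega
    simp only [h2, if_false]
    have : -Int.negSucc n = ((n + 1 : ℕ) : ℤ) := rfl
    rw [this, Int.toNat_natCast]; omega

theorem computable_ratP : Computable ratP := by
  have h : Primrec (fun c : ℕ => if c.unpair.1 % 2 = 0 then c.unpair.1 / 2 else 0) := by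
    have h1 : Primrec (fun c : ℕ => c.unpair.1) := Primrec.fst.comp Primrec.unpair
    refine Primrec.ite ?_ (Primrec.nat_div.comp h1 (Primrec.const 2)) (Primrec.const 0)
    exact Primrec.eq.comp (Primrec.nat_mod.comp h1 (Primrec.const 2)) (Primrec.const 0)
  refine (h.to_comp.comp computable_cQ).of_eq fun q => ?_
  simp only [cQ, Nat.unpair_pair, ratP]
  rw [toNat_of_encode]

theorem computable_ratM : Computable ratM := by
  have h : Primrec (fun c : ℕ => if c.unpair.1 % 2 = 0 then 0 else (c.unpair.1 + 1) / 2) := by
    have h1 : Primrec (fun c : ℕ => c.unpair.1) := Primrec.fst.comp Primrec.unpair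
    refine Primrec.ite ?_ (Primrec.const 0)
      (Primrec.nat_div.comp (Primrec.succ.comp h1) (Primrec.const 2))
    exact Primrec.eq.comp (Primrec.nat_mod.comp h1 (Primrec.const 2)) (Primrec.const 0)
  refine (h.to_comp.comp computable_cQ).of_eq fun q => ?_
  simp only [cQ, Nat.unpair_pair, ratM]
  rw [neg_toNat_of_encode]

theorem computable_ratD : Computable ratD := by
  have h : Primrec (fun c : ℕ => c.unpair.2) := Primrec.snd.comp Primrec.unpair
  refine (h.to_comp.comp computable_cQ).of_eq fun q => ?_
  simp only [cQ, Nat.unpair_pair, ratD]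

theorem ratD_pos (q : ℚ) : 0 < ratD q := q.den_pos

theorem rat_eq_frac (q : ℚ) : q = ((ratP q : ℚ) - (ratM q : ℚ)) / (ratD q : ℚ) := by
  have h1 : ((ratP q : ℚ) - (ratM q : ℚ)) = (q.num : ℚ) := by
    unfold ratP ratM
    have : ((q.num.toNat : ℤ) - ((-q.num).toNat : ℤ)) = q.num := by omega
    exact_mod_cast congrArg (Int.cast : ℤ → ℚ) this
  rw [h1]
  exact (Rat.num_div_den q).symm

theorem frac_eq_iff (q : ℚ) (p m d : ℕ) (hd : d ≠ 0) :
    q = ((p : ℚ) - (m : ℚ)) / (d : ℚ) ↔ ratP q * d + m * ratD q = p * ratD q + ratM q * d := by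
  have hD : (ratD q : ℚ) ≠ 0 := by exact_mod_cast (ratD_pos q).ne'
  have hd' : (d : ℚ) ≠ 0 := by exact_mod_cast hd
  conv_lhs => rw [rat_eq_frac q]
  rw [div_eq_div_iff hD hd']
  constructor
  · intro h
    have : ((ratP q * d + m * ratD q : ℕ) : ℚ) = ((p * ratD q + ratM q * d : ℕ) : ℚ) := by
      push_cast; linarith
    exact_mod_cast this
  · intro h
    have : ((ratP q * d + m * ratD q : ℕ) : ℚ) = ((p * ratD q + ratM q * d : ℕ) : ℚ) := by
      rw [h]
    push_cast at this; linarith

variable {α : Type*} [Primcodable α]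

/-- Main tool: a `ℚ`-valued function with a computable fraction representation is computable. -/
theorem computable_of_frac {F : α → ℚ} {p m d : α → ℕ} (hp : Computable p) (hm : Computable m)
    (hd : Computable d) (hd0 : ∀ a, d a ≠ 0)
    (h : ∀ a, F a = ((p a : ℚ) - (m a : ℚ)) / (d a : ℚ)) : Computable F := by
  have hadd : Computable₂ ((· + ·) : ℕ → ℕ → ℕ) := Primrec.nat_add.to_comp
  have hmul : Computable₂ ((· * ·) : ℕ → ℕ → ℕ) := Primrec.nat_mul.to_comp
  have hof : Computable (fun x : α × ℕ => ofNat ℚ x.2) := (Computable.ofNat ℚ).comp Computable.snd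
  have hP : Computable (fun x : α × ℕ => ratP (ofNat ℚ x.2)) := computable_ratP.comp hof
  have hM : Computable (fun x : α × ℕ => ratM (ofNat ℚ x.2)) := computable_ratM.comp hof
  have hD : Computable (fun x : α × ℕ => ratD (ofNat ℚ x.2)) := computable_ratD.comp hof
  have hp' : Computable (fun x : α × ℕ => p x.1) := hp.comp Computable.fst
  have hm' : Computable (fun x : α × ℕ => m x.1) := hm.comp Computable.fst
  have hd' : Computable (fun x : α × ℕ => d x.1) := hd.comp Computable.fst
  have hL : Computable (fun x : α × ℕ => ratP (ofNat ℚ x.2) * d x.1 + m x.1 * ratD (ofNat ℚ x.2)) :=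
    hadd.comp (hmul.comp hP hd') (hmul.comp hm' hD)
  have hR : Computable (fun x : α × ℕ => p x.1 * ratD (ofNat ℚ x.2) + ratM (ofNat ℚ x.2) * d x.1) :=
    hadd.comp (hmul.comp hp' hD) (hmul.comp hM hd')
  have heq : Computable (fun x : α × ℕ => decide
      (ratP (ofNat ℚ x.2) * d x.1 + m x.1 * ratD (ofNat ℚ x.2)
        = p x.1 * ratD (ofNat ℚ x.2) + ratM (ofNat ℚ x.2) * d x.1)) :=
    (Primrec.eq (α := ℕ)).decide.to_comp.comp hL hR
  have hpr : Partrec₂ (fun (a : α) => ((fun (n : ℕ) => Part.some (decide
      (ratP (ofNat ℚ n) * d a + m a * ratD (ofNat ℚ n)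
        = p a * ratD (ofNat ℚ n) + ratM (ofNat ℚ n) * d a))) : ℕ →. Bool)) :=
    Computable.partrec heq
  have hE : Computable (fun a => eQ (F a)) := by
    refine (Partrec.rfind hpr).of_eq_tot fun a => ?_
    refine Nat.mem_rfind.2 ⟨?_, ?_⟩
    · simp only [Part.mem_some_iff, Bool.true_eq, decide_eq_true_eq]
      rw [← frac_eq_iff _ _ _ _ (hd0 a), ← h a]
      exact ofNat_encode (F a)
    · intro n hn
      simp only [Part.mem_some_iff, Bool.false_eq, decide_eq_false_iff_not]
      rw [← frac_eq_iff _ _ _ _ (hd0 a), ← h a]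
      intro he
      have : eQ (F a) = n := by rw [← he]; exact encode_ofNat n
      omega
  exact Computable.encode_iff.1 hE

/-! ### natural number helpers (composition form) -/

section nat
variable {f g : α → ℕ}

theorem nat_add (hf : Computable f) (hg : Computable g) : Computable fun a => f a + g a :=
  Primrec.nat_add.to_comp.comp hf hg
theorem nat_mul (hf : Computable f) (hg : Computable g) : Computable fun a => f a * g a :=
  Primrec.nat_mul.to_comp.comp hf hg
theorem nat_sub (hf : Computable f) (hg : Computable g) : Computable fun a => f a - g a :=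
  Primrec.nat_sub.to_comp.comp hf hg
theorem nat_div (hf : Computable f) (hg : Computable g) : Computable fun a => f a / g a :=
  Primrec.nat_div.to_comp.comp hf hg
theorem nat_mod (hf : Computable f) (hg : Computable g) : Computable fun a => f a % g a :=
  Primrec.nat_mod.to_comp.comp hf hg
theorem nat_max (hf : Computable f) (hg : Computable g) : Computable fun a => max (f a) (g a) :=
  Primrec.nat_max.to_comp.comp hf hg
theorem nat_min (hf : Computable f) (hg : Computable g) : Computable fun a => min (f a) (g a) :=
  Primrec.nat_min.to_comp.comp hf hg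
theorem nat_succ (hf : Computable f) : Computable fun a => f a + 1 :=
  Computable.succ.comp hf
theorem nat_pow (hf : Computable f) (hg : Computable g) : Computable fun a => f a ^ g a :=
  (Primrec₂.unpaired'.1 Nat.Primrec.pow).to_comp.comp hf hg
theorem nat_le_decide (hf : Computable f) (hg : Computable g) :
    Computable fun a => decide (f a ≤ g a) :=
  Primrec.nat_le.decide.to_comp.comp hf hg
theorem nat_lt_decide (hf : Computable f) (hg : Computable g) :
    Computable fun a => decide (f a < g a) :=
  Primrec.nat_lt.decide.to_comp.comp hf hg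
theorem nat_eq_decide (hf : Computable f) (hg : Computable g) :
    Computable fun a => decide (f a = g a) :=
  (Primrec.eq (α := ℕ)).decide.to_comp.comp hf hg

theorem primrec_factorial : Primrec Nat.factorial := by
  have h : Primrec (fun n : ℕ => Nat.rec (motive := fun _ => ℕ) 1 (fun k ih => (k + 1) * ih) n) :=
    Primrec.nat_rec₁ 1 (Primrec.nat_mul.comp (Primrec.succ.comp Primrec.fst) Primrec.snd)
  refine h.of_eq fun n => ?_
  induction n with
  | zero => rfl
  | succ k ih => rw [Nat.factorial_succ, ← ih]

theorem nat_factorial (hf : Computable f) : Computable fun a => (f a).factorial :=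
  primrec_factorial.to_comp.comp hf

theorem nat_choose (hf : Computable f) (hg : Computable g) :
    Computable fun a => (f a).choose (g a) := by
  have h : Computable fun a => if g a ≤ f a then
      (f a).factorial / ((g a).factorial * (f a - g a).factorial) else 0 := by
    have hc := nat_le_decide hg hf
    have h1 := nat_div (nat_factorial hf) (nat_mul (nat_factorial hg) (nat_factorial (nat_sub hf hg)))
    refine (Computable.cond hc h1 (Computable.const 0)).of_eq fun a => ?_
    by_cases hh : g a ≤ f a <;> simp [hh]
  refine h.of_eq fun a => ?_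
  by_cases hh : g a ≤ f a
  · simp [hh, Nat.choose_eq_factorial_div_factorial hh]
  · simp [hh, Nat.choose_eq_zero_of_lt (not_le.1 hh)]

end nat

/-- `if`-`then`-`else` in composition form. -/
theorem comp_ite {σ : Type*} [Primcodable σ] {c : α → Prop} [DecidablePred c] {f g : α → σ}
    (hc : Computable fun a => decide (c a)) (hf : Computable f) (hg : Computable g) :
    Computable fun a => if c a then f a else g a :=
  (Computable.cond hc hf hg).of_eq fun a => by by_cases h : c a <;> simp [h]

theorem bool_and {b c : α → Bool} (hb : Computable b) (hc : Computable c) :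
    Computable fun a => (b a && c a) := Primrec.and.to_comp.comp hb hc
theorem bool_or {b c : α → Bool} (hb : Computable b) (hc : Computable c) :
    Computable fun a => (b a || c a) := Primrec.or.to_comp.comp hb hc
theorem bool_not {b : α → Bool} (hb : Computable b) :
    Computable fun a => !(b a) := Primrec.not.to_comp.comp hb

/-! ### rational arithmetic (composition form) -/

section rat
variable {f g : α → ℚ}

theorem rat_P (hf : Computable f) : Computable fun a => ratP (f a) := computable_ratP.comp hf
theorem rat_M (hf : Computable f) : Computable fun a => ratM (f a) := computable_ratM.comp hf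
theorem rat_D (hf : Computable f) : Computable fun a => ratD (f a) := computable_ratD.comp hf

theorem ratD_ne (q : ℚ) : (ratD q : ℚ) ≠ 0 := by exact_mod_cast (ratD_pos q).ne'

theorem rat_add (hf : Computable f) (hg : Computable g) : Computable fun a => f a + g a := by
  refine computable_of_frac
    (p := fun a => ratP (f a) * ratD (g a) + ratP (g a) * ratD (f a))
    (m := fun a => ratM (f a) * ratD (g a) + ratM (g a) * ratD (f a))
    (d := fun a => ratD (f a) * ratD (g a))
    (nat_add (nat_mul (rat_P hf) (rat_D hg)) (nat_mul (rat_P hg) (rat_D hf)))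
    (nat_add (nat_mul (rat_M hf) (rat_D hg)) (nat_mul (rat_M hg) (rat_D hf)))
    (nat_mul (rat_D hf) (rat_D hg))
    (fun a => Nat.mul_ne_zero (ratD_pos _).ne' (ratD_pos _).ne') fun a => ?_
  conv_lhs => rw [rat_eq_frac (f a), rat_eq_frac (g a)]
  have h1 := ratD_ne (f a)
  have h2 := ratD_ne (g a)
  push_cast
  field_simp
  ring

theorem rat_neg (hf : Computable f) : Computable fun a => - f a := by
  refine computable_of_frac (p := fun a => ratM (f a)) (m := fun a => ratP (f a))
    (d := fun a => ratD (f a)) (rat_M hf) (rat_P hf) (rat_D hf)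
    (fun a => (ratD_pos _).ne') fun a => ?_
  conv_lhs => rw [rat_eq_frac (f a)]
  ring

theorem rat_sub (hf : Computable f) (hg : Computable g) : Computable fun a => f a - g a :=
  (rat_add hf (rat_neg hg)).of_eq fun a => by ring

theorem rat_mul (hf : Computable f) (hg : Computable g) : Computable fun a => f a * g a := by
  refine computable_of_frac
    (p := fun a => ratP (f a) * ratP (g a) + ratM (f a) * ratM (g a))
    (m := fun a => ratP (f a) * ratM (g a) + ratM (f a) * ratP (g a))
    (d := fun a => ratD (f a) * ratD (g a))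
    (nat_add (nat_mul (rat_P hf) (rat_P hg)) (nat_mul (rat_M hf) (rat_M hg)))
    (nat_add (nat_mul (rat_P hf) (rat_M hg)) (nat_mul (rat_M hf) (rat_P hg)))
    (nat_mul (rat_D hf) (rat_D hg))
    (fun a => Nat.mul_ne_zero (ratD_pos _).ne' (ratD_pos _).ne') fun a => ?_
  conv_lhs => rw [rat_eq_frac (f a), rat_eq_frac (g a)]
  have h1 := ratD_ne (f a)
  have h2 := ratD_ne (g a)
  push_cast
  field_simp
  ring

theorem rat_natCast {k : α → ℕ} (hk : Computable k) : Computable fun a => ((k a : ℕ) : ℚ) :=
  computable_of_frac (p := k) (m := fun _ => 0) (d := fun _ => 1) hk (Computable.const 0)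
    (Computable.const 1) (fun _ => one_ne_zero) fun a => by simp

theorem rat_inv (hf : Computable f) : Computable fun a => (f a)⁻¹ := by
  refine computable_of_frac
    (p := fun a => if ratM (f a) < ratP (f a) then ratD (f a) else 0)
    (m := fun a => if ratP (f a) < ratM (f a) then ratD (f a) else 0)
    (d := fun a => if ratP (f a) = ratM (f a) then 1
      else (ratP (f a) - ratM (f a)) + (ratM (f a) - ratP (f a)))
    (comp_ite (nat_lt_decide (rat_M hf) (rat_P hf)) (rat_D hf) (Computable.const 0))
    (comp_ite (nat_lt_decide (rat_P hf) (rat_M hf)) (rat_D hf) (Computable.const 0))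
    (comp_ite (nat_eq_decide (rat_P hf) (rat_M hf)) (Computable.const 1)
      (nat_add (nat_sub (rat_P hf) (rat_M hf)) (nat_sub (rat_M hf) (rat_P hf))))
    (fun a => ?_) fun a => ?_
  · split_ifs with h
    · exact one_ne_zero
    · omega
  · conv_lhs => rw [rat_eq_frac (f a)]
    have h1 := ratD_ne (f a)
    rcases lt_trichotomy (ratP (f a)) (ratM (f a)) with h | h | h
    · have h' : ¬ ratM (f a) < ratP (f a) := by omega
      have h'' : ratP (f a) ≠ ratM (f a) := by omega
      have h3 : ratP (f a) - ratM (f a) = 0 := by omega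
      simp only [h, h', h'', if_true, if_false, h3, zero_add]
      rw [Nat.cast_sub h.le, inv_div]
      have : ((ratM (f a) : ℚ) - ratP (f a)) ≠ 0 := by
        have : (ratP (f a) : ℚ) < ratM (f a) := by exact_mod_cast h
        linarith
      have h4 : ((ratP (f a) : ℚ) - ratM (f a)) ≠ 0 := by
        intro h5; apply this; linarith
      field_simp
      push_cast
      ring
    · simp [h]
    · have h' : ¬ ratP (f a) < ratM (f a) := by omega
      have h'' : ratP (f a) ≠ ratM (f a) := by omega
      have h3 : ratM (f a) - ratP (f a) = 0 := by omega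
      simp only [h, h', h'', if_true, if_false, h3, add_zero]
      rw [Nat.cast_sub h.le, inv_div]
      simp

theorem rat_div (hf : Computable f) (hg : Computable g) : Computable fun a => f a / g a :=
  (rat_mul hf (rat_inv hg)).of_eq fun a => by rw [div_eq_mul_inv]

theorem le_iff_frac (q r : ℚ) :
    q ≤ r ↔ ratP q * ratD r + ratM r * ratD q ≤ ratP r * ratD q + ratM q * ratD r := by
  have hq : (0 : ℚ) < ratD q := by exact_mod_cast ratD_pos q
  have hr : (0 : ℚ) < ratD r := by exact_mod_cast ratD_pos r
  conv_lhs => rw [rat_eq_frac q, rat_eq_frac r]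
  rw [div_le_div_iff₀ hq hr]
  constructor
  · intro h
    have : ((ratP q * ratD r + ratM r * ratD q : ℕ) : ℚ)
        ≤ ((ratP r * ratD q + ratM q * ratD r : ℕ) : ℚ) := by push_cast; linarith
    exact_mod_cast this
  · intro h
    have : ((ratP q * ratD r + ratM r * ratD q : ℕ) : ℚ)
        ≤ ((ratP r * ratD q + ratM q * ratD r : ℕ) : ℚ) := by exact_mod_cast h
    push_cast at this; linarith

theorem rat_le_decide (hf : Computable f) (hg : Computable g) :
    Computable fun a => decide (f a ≤ g a) :=
  (nat_le_decide (nat_add (nat_mul (rat_P hf) (rat_D hg)) (nat_mul (rat_M hg) (rat_D hf)))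
    (nat_add (nat_mul (rat_P hg) (rat_D hf)) (nat_mul (rat_M hf) (rat_D hg)))).of_eq fun a => by
      simp only [le_iff_frac (f a) (g a)]

theorem rat_lt_decide (hf : Computable f) (hg : Computable g) :
    Computable fun a => decide (f a < g a) :=
  (bool_not (rat_le_decide hg hf)).of_eq fun a => by
    by_cases h : f a < g a
    · simp [h]
    · simp [h, not_lt.1 h]

theorem rat_eq_decide (hf : Computable f) (hg : Computable g) :
    Computable fun a => decide (f a = g a) :=
  (Primrec.eq (α := ℚ)).decide.to_comp.comp hf hg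

theorem rat_abs (hf : Computable f) : Computable fun a => |f a| :=
  (comp_ite (rat_le_decide (Computable.const 0) hf) hf (rat_neg hf)).of_eq fun a => by
    by_cases h : 0 ≤ f a
    · simp [h, abs_of_nonneg h]
    · simp [h, abs_of_neg (not_le.1 h)]

theorem rat_max (hf : Computable f) (hg : Computable g) : Computable fun a => max (f a) (g a) :=
  (comp_ite (rat_le_decide hf hg) hg hf).of_eq fun a => by
    by_cases h : f a ≤ g a
    · simp [h]
    · simp [h, (not_le.1 h).le]

theorem rat_min (hf : Computable f) (hg : Computable g) : Computable fun a => min (f a) (g a) :=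
  (comp_ite (rat_le_decide hf hg) hf hg).of_eq fun a => by
    by_cases h : f a ≤ g a
    · simp [h]
    · simp [h, (not_le.1 h).le]

theorem rat_pow {k : α → ℕ} (hf : Computable f) (hk : Computable k) :
    Computable fun a => f a ^ k a := by
  have h : Computable fun a => Nat.rec (motive := fun _ => ℚ) 1
      (fun _ ih => ih * f a) (k a) := by
    refine Computable.nat_rec (h := fun a (x : ℕ × ℚ) => x.2 * f a) hk (Computable.const 1) ?_
    exact rat_mul (Computable.snd.comp Computable.snd) (hf.comp Computable.fst)
  refine h.of_eq fun a => ?_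
  induction k a with
  | zero => simp
  | succ n ih => rw [pow_succ, ← ih]

/-- a computable natural upper bound of `|q|`. -/
def ratUB (q : ℚ) : ℕ := ratP q + ratM q

theorem abs_le_ratUB (q : ℚ) : |q| ≤ (ratUB q : ℚ) := by
  have hD : (1 : ℚ) ≤ ratD q := by exact_mod_cast ratD_pos q
  have hP : (0 : ℚ) ≤ ratP q := Nat.cast_nonneg _
  have hM : (0 : ℚ) ≤ ratM q := Nat.cast_nonneg _
  conv_lhs => rw [rat_eq_frac q]
  rw [abs_div, abs_of_pos (by linarith : (0 : ℚ) < ratD q), div_le_iff₀ (by linarith)]
  unfold ratUB
  push_cast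
  have h1 : |(ratP q : ℚ) - ratM q| ≤ ratP q + ratM q := by
    rw [abs_le]; constructor <;> linarith
  nlinarith

theorem abs_le_ratUB_real (q : ℚ) : |(q : ℝ)| ≤ (ratUB q : ℝ) := by
  have := abs_le_ratUB q
  exact_mod_cast this

theorem rat_UB (hf : Computable f) : Computable fun a => ratUB (f a) :=
  nat_add (rat_P hf) (rat_M hf)

theorem rat_sum_range {k : α → ℕ} {F : α → ℕ → ℚ} (hk : Computable k) (hF : Computable₂ F) :
    Computable fun a => ∑ i ∈ Finset.range (k a), F a i := by
  have h : Computable fun a => Nat.rec (motive := fun _ => ℚ) 0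
      (fun i ih => ih + F a i) (k a) := by
    refine Computable.nat_rec (h := fun a (x : ℕ × ℚ) => x.2 + F a x.1) hk (Computable.const 0) ?_
    exact rat_add (Computable.snd.comp Computable.snd)
      (hF.comp Computable.fst (Computable.fst.comp Computable.snd))
  refine h.of_eq fun a => ?_
  induction k a with
  | zero => simp
  | succ n ih => rw [Finset.sum_range_succ, ← ih]

theorem rat_prod_range {k : α → ℕ} {F : α → ℕ → ℚ} (hk : Computable k) (hF : Computable₂ F) :
    Computable fun a => ∏ i ∈ Finset.range (k a), F a i := by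
  have h : Computable fun a => Nat.rec (motive := fun _ => ℚ) 1
      (fun i ih => ih * F a i) (k a) := by
    refine Computable.nat_rec (h := fun a (x : ℕ × ℚ) => x.2 * F a x.1) hk (Computable.const 1) ?_
    exact rat_mul (Computable.snd.comp Computable.snd)
      (hF.comp Computable.fst (Computable.fst.comp Computable.snd))
  refine h.of_eq fun a => ?_
  induction k a with
  | zero => simp
  | succ n ih => rw [Finset.prod_range_succ, ← ih]

end rat

theorem nat_sum_range {k : α → ℕ} {F : α → ℕ → ℕ} (hk : Computable k) (hF : Computable₂ F) :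
    Computable fun a => ∑ i ∈ Finset.range (k a), F a i := by
  have h : Computable fun a => Nat.rec (motive := fun _ => ℕ) 0
      (fun i ih => ih + F a i) (k a) := by
    refine Computable.nat_rec (h := fun a (x : ℕ × ℕ) => x.2 + F a x.1) hk (Computable.const 0) ?_
    exact nat_add (Computable.snd.comp Computable.snd)
      (hF.comp Computable.fst (Computable.fst.comp Computable.snd))
  refine h.of_eq fun a => ?_
  induction k a with
  | zero => simp
  | succ n ih => rw [Finset.sum_range_succ, ← ih]

/-! ### functions into / out of `Fin n → σ`, lists -/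

theorem computable_pi {σ : Type*} [Primcodable σ] {n : ℕ} {F : α → Fin n → σ}
    (h : ∀ j, Computable fun a => F a j) : Computable F :=
  ((Primrec.vector_get' (α := σ) (n := n)).to_comp.comp
    (Computable.vector_ofFn (f := fun j a => F a j) h)).of_eq fun a => by
      funext j; simp

theorem computable_app {σ : Type*} [Primcodable σ] {n : ℕ} {v : α → Fin n → σ}
    (hv : Computable v) (j : Fin n) : Computable fun a => v a j :=
  Computable.fin_app.comp hv (Computable.const j)

theorem list_count {β : Type*} [Primcodable β] [DecidableEq β] {l : α → List β}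
    (hl : Computable l) (b : β) : Computable fun a => (l a).count b := by
  have hp : PrimrecPred (fun x : β => x = b) := Primrec.eq.comp Primrec.id (Primrec.const b)
  have h : Primrec fun L : List β => (L.filter (fun x => decide (x = b))).length :=
    Primrec.list_length.comp (Primrec.listFilter hp)
  refine (h.to_comp.comp hl).of_eq fun a => ?_
  rw [List.count, List.countP_eq_length_filter]
  congr 1

end Crest.Agent.RatComp
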