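import Mathlib

/-!
Helper library for S0328 (radial sweep): coordinates in the plane `e^⊥` of `ℝ³`,
projection along `e + w`, Gram areas, planar triangle containment, Riemann sums over
`Fin`-indexed tagged partitions.
-/

set_option autoImplicit false
open MeasureTheory
open scoped ENNReal

namespace Crest.Agent.Lib_helper72_Sweep

abbrev E3 := EuclideanSpace ℝ (Fin 3)

/-- Gram determinant of two linearly independent vectors is positive. -/
theorem gram_pos {a b : E3} (hab : LinearIndependent ℝ ![a, b]) :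
    0 < ‖a‖ ^ 2 * ‖b‖ ^ 2 - inner ℝ a b ^ 2 := by
  have hpair := LinearIndependent.pair_iff.mp hab
  have hb0 : b ≠ 0 := by
    intro h
    have := hpair 0 1 (by simp [h])
    exact one_ne_zero this.2
  have hB : 0 < ‖b‖ ^ 2 := by positivity
  have hz : (‖b‖ ^ 2) • a + (-(inner ℝ a b)) • b ≠ 0 := by
    intro h
    have := hpair _ _ h
    exact (ne_of_gt hB) this.1
  have hpos : 0 < ‖(‖b‖ ^ 2) • a + (-(inner ℝ a b)) • b‖ ^ 2 := by
    have := norm_pos_iff.mpr hz
    positivity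
  have hexp : ‖(‖b‖ ^ 2) • a + (-(inner ℝ a b)) • b‖ ^ 2
      = ‖b‖ ^ 2 * (‖a‖ ^ 2 * ‖b‖ ^ 2 - inner ℝ a b ^ 2) := by
    rw [← real_inner_self_eq_norm_sq]
    simp only [inner_add_left, inner_add_right, inner_smul_left, inner_smul_right,
      real_inner_self_eq_norm_sq, real_inner_comm a b]
    simp
    ring
  rw [hexp] at hpos
  exact (mul_pos_iff_of_pos_left hB).mp hpos

/-- Every vector orthogonal to the unit vector `e` is a combination of `a`, `b`. -/
theorem span_rep {e a b : E3} (he : ‖e‖ = 1) (ha : inner ℝ a e = 0) (hb : inner ℝ b e = 0)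
    (hab : LinearIndependent ℝ ![a, b]) (v : E3) (hv : inner ℝ v e = 0) :
    ∃ x y : ℝ, v = x • a + y • b := by
  have he0 : e ≠ 0 := by
    intro h; rw [h] at he; simp at he
  have : Fact (Module.finrank ℝ E3 = 2 + 1) := ⟨by simp⟩
  have hfin : Module.finrank ℝ (ℝ ∙ e)ᗮ = 2 := Submodule.finrank_orthogonal_span_singleton he0
  have hmem : ∀ z : E3, inner ℝ z e = 0 → z ∈ (ℝ ∙ e)ᗮ := by
    intro z hz
    rw [Submodule.mem_orthogonal_singleton_iff_inner_left]
    exact hz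
  let a' : (ℝ ∙ e)ᗮ := ⟨a, hmem a ha⟩
  let b' : (ℝ ∙ e)ᗮ := ⟨b, hmem b hb⟩
  have hli : LinearIndependent ℝ ![a', b'] := by
    rw [LinearIndependent.pair_iff]
    intro s t hst
    have := congrArg (Subtype.val) hst
    simp only [Submodule.coe_add, Submodule.coe_smul, Submodule.coe_zero] at this
    exact LinearIndependent.pair_iff.mp hab s t this
  have hspan : Submodule.span ℝ (Set.range ![a', b']) = ⊤ :=
    hli.span_eq_top_of_card_eq_finrank (by simp [hfin])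
  have hv' : (⟨v, hmem v hv⟩ : (ℝ ∙ e)ᗮ) ∈ Submodule.span ℝ (Set.range ![a', b']) := by
    rw [hspan]; trivial
  have hrange : Set.range ![a', b'] = {a', b'} := by
    ext z; simp [Matrix.range_cons, Matrix.range_empty, or_comm]
  rw [hrange, Submodule.mem_span_pair] at hv'
  obtain ⟨x, y, hxy⟩ := hv'
  refine ⟨x, y, ?_⟩
  have := congrArg (Subtype.val) hxy
  simpa using this.symm

/-- Dual coordinate functionals on `e^⊥ = span {a, b}`. -/
theorem exists_dual {e a b : E3} (he : ‖e‖ = 1) (ha : inner ℝ a e = 0) (hb : inner ℝ b e = 0)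
    (hab : LinearIndependent ℝ ![a, b]) :
    ∃ fa fb : E3 →L[ℝ] ℝ, fa a = 1 ∧ fa b = 0 ∧ fb a = 0 ∧ fb b = 1 ∧
      ∀ v : E3, inner ℝ v e = 0 → v = fa v • a + fb v • b := by
  have hG := gram_pos hab
  set G := ‖a‖ ^ 2 * ‖b‖ ^ 2 - inner ℝ a b ^ 2 with hGdef
  have hG0 : G ≠ 0 := ne_of_gt hG
  let fa : E3 →L[ℝ] ℝ := (‖b‖ ^ 2 / G) • innerSL ℝ a - (inner ℝ a b / G) • innerSL ℝ b
  let fb : E3 →L[ℝ] ℝ := (‖a‖ ^ 2 / G) • innerSL ℝ b - (inner ℝ a b / G) • innerSL ℝ a
  have h1 : fa a = 1 := by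
    simp only [fa, sub_apply, smul_apply, innerSL_apply_apply,
      real_inner_self_eq_norm_sq, real_inner_comm a b, smul_eq_mul]
    field_simp
    rw [hGdef]; ring
  have h2 : fa b = 0 := by
    simp only [fa, sub_apply, smul_apply, innerSL_apply_apply,
      real_inner_self_eq_norm_sq, smul_eq_mul]
    field_simp
    ring
  have h3 : fb a = 0 := by
    simp only [fb, sub_apply, smul_apply, innerSL_apply_apply,
      real_inner_self_eq_norm_sq, real_inner_comm a b, smul_eq_mul]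
    field_simp
    ring
  have h4 : fb b = 1 := by
    simp only [fb, sub_apply, smul_apply, innerSL_apply_apply,
      real_inner_self_eq_norm_sq, smul_eq_mul]
    field_simp
    rw [hGdef]
  refine ⟨fa, fb, h1, h2, h3, h4, ?_⟩
  intro v hv
  obtain ⟨x, y, rfl⟩ := span_rep he ha hb hab v hv
  simp only [map_add, map_smul, h1, h2, h3, h4, smul_eq_mul]
  simp

/-- Increment of the direction field in the adapted frame. -/
theorem increment {e a b : E3} {fa fb : E3 →L[ℝ] ℝ}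
    (h1 : fa a = 1) (h2 : fa b = 0) (h3 : fb a = 0) (h4 : fb b = 1)
    (hrep : ∀ v : E3, inner ℝ v e = 0 → v = fa v • a + fb v • b)
    {w : ℝ → E3} {lam : ℝ → ℝ} {α β M : ℝ}
    (hw : ∀ t ∈ Set.Icc α β, inner ℝ (w t) e = 0)
    (hw' : ∀ t ∈ Set.Icc α β, HasDerivWithinAt w (lam t • (a + t • b)) (Set.Icc α β) t)
    (hM : ∀ t ∈ Set.Icc α β, |lam t| ≤ M)
    {t0 t1 c τ : ℝ} (h0 : α ≤ t0) (hβ : t1 ≤ β) (hc : c ∈ Set.Icc t0 t1) (hτ : τ ∈ Set.Icc t0 t1) :
    ∃ Λ μ : ℝ, w τ - w c = Λ • (a + c • b) + μ • b ∧ |Λ| ≤ M * (t1 - t0) ∧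
      |μ| ≤ M * (t1 - t0) ^ 2 := by
  have hsub : Set.Icc t0 t1 ⊆ Set.Icc α β := Set.Icc_subset_Icc h0 hβ
  have hM0 : 0 ≤ M := le_trans (abs_nonneg _) (hM c (hsub hc))
  have hd : 0 ≤ t1 - t0 := by linarith [hc.1, hc.2]
  have hdist : |τ - c| ≤ t1 - t0 := by
    rw [abs_le]; constructor <;> linarith [hc.1, hc.2, hτ.1, hτ.2]
  -- derivative of the coordinates
  have hX : ∀ t ∈ Set.Icc t0 t1, HasDerivWithinAt (fun t => fa (w t)) (lam t) (Set.Icc t0 t1) t := by
    intro t ht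
    have := (fa.hasFDerivAt (x := w t)).comp_hasDerivWithinAt t ((hw' t (hsub ht)).mono hsub)
    have hval : fa (lam t • (a + t • b)) = lam t := by
      simp [map_add, map_smul, h1, h2]
    rw [hval] at this
    exact this
  have hY0 : ∀ t ∈ Set.Icc t0 t1, HasDerivWithinAt (fun t => fb (w t)) (lam t * t) (Set.Icc t0 t1) t := by
    intro t ht
    have := (fb.hasFDerivAt (x := w t)).comp_hasDerivWithinAt t ((hw' t (hsub ht)).mono hsub)
    have hval : fb (lam t • (a + t • b)) = lam t * t := by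
      simp [map_add, map_smul, h3, h4]
    rw [hval] at this
    exact this
  have hY : ∀ t ∈ Set.Icc t0 t1, HasDerivWithinAt (fun t => fb (w t) - c * fa (w t))
      (lam t * t - c * lam t) (Set.Icc t0 t1) t := by
    intro t ht
    exact (hY0 t ht).sub ((hX t ht).const_mul c)
  have hbX : ‖fa (w τ) - fa (w c)‖ ≤ M * ‖τ - c‖ :=
    Convex.norm_image_sub_le_of_norm_hasDerivWithin_le hX
      (fun t ht => by simpa using hM t (hsub ht)) (convex_Icc t0 t1) hc hτ
  have hbY : ‖(fb (w τ) - c * fa (w τ)) - (fb (w c) - c * fa (w c))‖ ≤ (M * (t1 - t0)) * ‖τ - c‖ :=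
    Convex.norm_image_sub_le_of_norm_hasDerivWithin_le (f := fun t => fb (w t) - c * fa (w t)) hY
      (fun t ht => by
        have e1 : lam t * t - c * lam t = lam t * (t - c) := by ring
        rw [e1, norm_mul]
        have e2 : ‖t - c‖ ≤ t1 - t0 := by
          rw [Real.norm_eq_abs, abs_le]; constructor <;> linarith [hc.1, hc.2, ht.1, ht.2]
        exact mul_le_mul (by simpa using hM t (hsub ht)) e2 (norm_nonneg _) hM0)
      (convex_Icc t0 t1) hc hτ
  refine ⟨fa (w τ) - fa (w c), (fb (w τ) - c * fa (w τ)) - (fb (w c) - c * fa (w c)), ?_, ?_, ?_⟩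
  · have hperp : inner ℝ (w τ - w c) e = 0 := by
      rw [inner_sub_left, hw τ (hsub hτ), hw c (hsub hc)]; ring
    have := hrep _ hperp
    rw [this]
    simp only [map_sub, smul_add, smul_smul]
    module
  · rw [Real.norm_eq_abs, Real.norm_eq_abs] at hbX
    exact le_trans hbX (mul_le_mul_of_nonneg_left hdist hM0)
  · rw [Real.norm_eq_abs, Real.norm_eq_abs] at hbY
    refine le_trans hbY ?_
    have : M * (t1 - t0) * |τ - c| ≤ M * (t1 - t0) * (t1 - t0) :=
      mul_le_mul_of_nonneg_left hdist (mul_nonneg hM0 hd)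
    nlinarith [this]

/-- A convex combination of three points lies in their convex hull. -/
theorem tri_mem (P Q R : E3) {x y z : ℝ} (hx : 0 ≤ x) (hy : 0 ≤ y) (hz : 0 ≤ z)
    (hsum : x + y + z = 1) : x • P + y • Q + z • R ∈ convexHull ℝ ({P, Q, R} : Set E3) := by
  have hP : P ∈ convexHull ℝ ({P, Q, R} : Set E3) := subset_convexHull ℝ _ (by simp)
  have hQ : Q ∈ convexHull ℝ ({P, Q, R} : Set E3) := subset_convexHull ℝ _ (by simp)
  have hR : R ∈ convexHull ℝ ({P, Q, R} : Set E3) := subset_convexHull ℝ _ (by simp)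
  have hconv := convex_convexHull ℝ ({P, Q, R} : Set E3)
  have := hconv.sum_mem (t := (Finset.univ : Finset (Fin 3))) (w := ![x, y, z]) (z := ![P, Q, R])
    (by intro i _; fin_cases i <;> simp [hx, hy, hz])
    (by simp [Fin.sum_univ_three, hsum])
    (by intro i _; fin_cases i <;> simp [hP, hQ, hR])
  simpa [Fin.sum_univ_three] using this

/-- point with coordinates `(X, Y)` in the affine frame `(p₀; a, b)`. -/
noncomputable def pt (p₀ a b : E3) (X Y : ℝ) : E3 := p₀ + X • a + Y • b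

/-- Planar triangle membership in frame coordinates. -/
theorem planar_mem (p₀ a b : E3) {h X1 c m1 m2 X Y : ℝ} (hX1 : 0 < X1 + h) (hm : m1 < m2)
    (hXl : -h ≤ X) (hXu : X ≤ X1) (hl : (X + h) * m1 ≤ Y - c * X) (hu : Y - c * X ≤ (X + h) * m2) :
    pt p₀ a b X Y ∈ convexHull ℝ ({pt p₀ a b (-h) (-(c * h)),
      pt p₀ a b X1 (c * X1 + (X1 + h) * m1), pt p₀ a b X1 (c * X1 + (X1 + h) * m2)} : Set E3) := by
  have hD : 0 < (X1 + h) * (m2 - m1) := mul_pos hX1 (by linarith)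
  set D := (X1 + h) * (m2 - m1) with hDdef
  set wQ := ((X + h) * m2 - (Y - c * X)) / D with hwQ
  set wR := ((Y - c * X) - (X + h) * m1) / D with hwR
  have hQ0 : 0 ≤ wQ := div_nonneg (by linarith) hD.le
  have hR0 : 0 ≤ wR := div_nonneg (by linarith) hD.le
  have hm0 : m2 - m1 ≠ 0 := by linarith
  have hX10 : X1 + h ≠ 0 := ne_of_gt hX1
  have hsum : wQ + wR = (X + h) / (X1 + h) := by
    rw [hwQ, hwR, hDdef]; field_simp; ring
  have hP0 : 0 ≤ 1 - wQ - wR := by
    have : (X + h) / (X1 + h) ≤ 1 := by rw [div_le_one hX1]; linarith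
    linarith
  have key := tri_mem (pt p₀ a b (-h) (-(c * h))) (pt p₀ a b X1 (c * X1 + (X1 + h) * m1))
    (pt p₀ a b X1 (c * X1 + (X1 + h) * m2)) hP0 hQ0 hR0 (by ring)
  have ea : (1 - wQ - wR) * (-h) + wQ * X1 + wR * X1 = X := by
    have : (1 - wQ - wR) * (-h) + wQ * X1 + wR * X1 = -h + (wQ + wR) * (X1 + h) := by ring
    rw [this, hsum]; field_simp; ring
  have eb : (1 - wQ - wR) * (-(c * h)) + wQ * (c * X1 + (X1 + h) * m1)
      + wR * (c * X1 + (X1 + h) * m2) = Y := by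
    have e1 : (1 - wQ - wR) * (-(c * h)) + wQ * (c * X1 + (X1 + h) * m1)
      + wR * (c * X1 + (X1 + h) * m2)
      = c * (-h + (wQ + wR) * (X1 + h)) + (X1 + h) * (wQ * m1 + wR * m2) := by ring
    have e2 : -h + (wQ + wR) * (X1 + h) = X := by rw [hsum]; field_simp; ring
    have e3 : (X1 + h) * (wQ * m1 + wR * m2) = Y - c * X := by
      rw [hwQ, hwR, hDdef]; field_simp; ring
    rw [e1, e2, e3]; ring
  have hfin : pt p₀ a b X Y = (1 - wQ - wR) • pt p₀ a b (-h) (-(c * h))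
      + wQ • pt p₀ a b X1 (c * X1 + (X1 + h) * m1) + wR • pt p₀ a b X1 (c * X1 + (X1 + h) * m2) := by
    have : (1 - wQ - wR) • pt p₀ a b (-h) (-(c * h))
      + wQ • pt p₀ a b X1 (c * X1 + (X1 + h) * m1) + wR • pt p₀ a b X1 (c * X1 + (X1 + h) * m2)
      = p₀ + ((1 - wQ - wR) * (-h) + wQ * X1 + wR * X1) • a
        + ((1 - wQ - wR) * (-(c * h)) + wQ * (c * X1 + (X1 + h) * m1)
      + wR * (c * X1 + (X1 + h) * m2)) • b := by
      unfold pt; module
    rw [this, ea, eb]; rfl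
  rw [hfin]; exact key

/-- The real inequalities placing a sweep point inside the enlarged planar triangle. -/
theorem sweep_ineq {ρ τ s Λ μ c t0 t1 L M h Rc : ℝ} (hh : 0 < h) (hL : 0 ≤ L) (hM : 0 ≤ M)
    (hρ0 : 0 ≤ ρ) (hρ : ρ ≤ Rc + h) (hτ0 : t0 ≤ τ) (hτ1 : τ ≤ t1) (hc0 : t0 ≤ c) (hc1 : c ≤ t1)
    (hs : |s| ≤ L) (hΛ : |Λ| ≤ M * (t1 - t0)) (hμ : |μ| ≤ M * (t1 - t0) ^ 2)
    (hsmall : L * M * (t1 - t0) ≤ h / 2) :
    -h ≤ ρ + s * Λ ∧ ρ + s * Λ ≤ Rc + 2 * h ∧
    ((ρ + s * Λ) + h) * (t0 - c - 2 * L * M * (t1 - t0) ^ 2 / h)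
      ≤ (ρ * τ + s * Λ * c + s * μ) - c * (ρ + s * Λ) ∧
    (ρ * τ + s * Λ * c + s * μ) - c * (ρ + s * Λ)
      ≤ ((ρ + s * Λ) + h) * (t1 - c + 2 * L * M * (t1 - t0) ^ 2 / h) := by
  have hd : 0 ≤ t1 - t0 := by linarith
  have h1 : |s * Λ| ≤ h / 2 := by
    rw [abs_mul]
    calc |s| * |Λ| ≤ L * (M * (t1 - t0)) := mul_le_mul hs hΛ (abs_nonneg _) hL
      _ = L * M * (t1 - t0) := by ring
      _ ≤ h / 2 := hsmall
  have h2 : |s * μ| ≤ L * M * (t1 - t0) ^ 2 := by
    rw [abs_mul]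
    calc |s| * |μ| ≤ L * (M * (t1 - t0) ^ 2) := mul_le_mul hs hμ (abs_nonneg _) hL
      _ = L * M * (t1 - t0) ^ 2 := by ring
  obtain ⟨h1a, h1b⟩ := abs_le.mp h1
  obtain ⟨h2a, h2b⟩ := abs_le.mp h2
  set γ := 2 * L * M * (t1 - t0) ^ 2 / h with hγ
  have hγ0 : 0 ≤ γ := by positivity
  have hγh : γ * (h / 2) = L * M * (t1 - t0) ^ 2 := by rw [hγ]; field_simp
  set X := ρ + s * Λ with hX
  have hXh : h / 2 ≤ X + h := by linarith
  have hγX : L * M * (t1 - t0) ^ 2 ≤ (X + h) * γ := by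
    rw [← hγh]; nlinarith
  have hρX : ρ ≤ X + h := by linarith
  refine ⟨by linarith, by linarith, ?_, ?_⟩
  · have e : (ρ * τ + s * Λ * c + s * μ) - c * X = ρ * (τ - c) + s * μ := by rw [hX]; ring
    rw [e]
    have a1 : (X + h) * (t0 - c) ≤ ρ * (τ - c) := by
      have b1 : ρ * (t0 - c) ≤ ρ * (τ - c) := mul_le_mul_of_nonneg_left (by linarith) hρ0
      have b2 : (X + h) * (t0 - c) ≤ ρ * (t0 - c) := by nlinarith
      linarith
    nlinarith
  · have e : (ρ * τ + s * Λ * c + s * μ) - c * X = ρ * (τ - c) + s * μ := by rw [hX]; ring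
    rw [e]
    have a1 : ρ * (τ - c) ≤ (X + h) * (t1 - c) := by
      have b1 : ρ * (τ - c) ≤ ρ * (t1 - c) := mul_le_mul_of_nonneg_left (by linarith) hρ0
      have b2 : ρ * (t1 - c) ≤ (X + h) * (t1 - c) := by nlinarith
      linarith
    nlinarith

end Crest.Agent.Lib_helper72_Sweep
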