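import Mathlib

/-!
Rockafellar's theorem (bounded-slope version): a cyclically monotone set `G ⊆ E × E` whose second
components are bounded by `R` is contained in the graph of the subdifferential of a convex
`R`-Lipschitz function `φ : E → ℝ`.
-/

namespace Crest.Agent.Rockafellar

open scoped RealInnerProductSpace

variable {E : Type*} [NormedAddCommGroup E] [InnerProductSpace ℝ E]

/-- value at `z` of the chain `p 0, …, p n`. -/
noncomputable def val (n : ℕ) (p : Fin (n + 1) → E × E) (z : E) : ℝ :=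
  ∑ i : Fin n, ⟪(p i.castSucc).2, (p i.succ).1 - (p i.castSucc).1⟫ +
    ⟪(p (Fin.last n)).2, z - (p (Fin.last n)).1⟫

/-- cyclic monotonicity, indexed by `Fin (n+1)` with wrap-around successor. -/
def CyclMono (G : Set (E × E)) : Prop :=
  ∀ (n : ℕ) (p : Fin (n + 1) → E × E), (∀ i, p i ∈ G) →
    ∑ i : Fin (n + 1), ⟪(p i).2, (p (i + 1)).1 - (p i).1⟫ ≤ 0

lemma val_closed (n : ℕ) (p : Fin (n + 1) → E × E) :
    val n p (p 0).1 = ∑ i : Fin (n + 1), ⟪(p i).2, (p (i + 1)).1 - (p i).1⟫ := by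
  rw [Fin.sum_univ_castSucc]
  simp only [val, Fin.coeSucc_eq_succ, Fin.last_add_one]

lemma val_sub (n : ℕ) (p : Fin (n + 1) → E × E) (z z' : E) :
    val n p z - val n p z' = ⟪(p (Fin.last n)).2, z - z'⟫ := by
  simp only [val]
  rw [add_sub_add_left_eq_sub, ← inner_sub_right]
  congr 1
  abel

lemma val_snoc (n : ℕ) (p : Fin (n + 1) → E × E) (q : E × E) (z : E) :
    val (n + 1) (Fin.snoc (α := fun _ => E × E) p q) z = val n p q.1 + ⟪q.2, z - q.1⟫ := by
  simp only [val]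
  rw [Fin.sum_univ_castSucc]
  simp only [Fin.snoc_castSucc, Fin.snoc_last, Fin.succ_last]
  congr 1
  congr 1
  apply Finset.sum_congr rfl
  intro i _
  rw [Fin.succ_castSucc, Fin.snoc_castSucc]


/-- index type of admissible chains starting at `p0`. -/
def Chain (G : Set (E × E)) (p0 : E × E) : Type _ :=
  Σ n : ℕ, {p : Fin (n + 1) → E × E // p 0 = p0 ∧ ∀ i, p i ∈ G}

/-- value of a chain -/
noncomputable def Chain.v {G : Set (E × E)} {p0 : E × E} (c : Chain G p0) (z : E) : ℝ :=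
  val c.1 c.2.1 z

/-- the Rockafellar potential -/
noncomputable def pot (G : Set (E × E)) (p0 : E × E) (z : E) : ℝ :=
  ⨆ c : Chain G p0, c.v z

section
variable {G : Set (E × E)} {p0 : E × E} {R : NNReal}

lemma chain_v_sub_le (hR : ∀ p ∈ G, ‖p.2‖ ≤ R) (c : Chain G p0) (z z' : E) :
    c.v z - c.v z' ≤ R * ‖z - z'‖ := by
  unfold Chain.v
  rw [val_sub]
  calc ⟪(c.2.1 (Fin.last c.1)).2, z - z'⟫ ≤ ‖(c.2.1 (Fin.last c.1)).2‖ * ‖z - z'‖ :=
        real_inner_le_norm _ _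
    _ ≤ R * ‖z - z'‖ := by
        apply mul_le_mul_of_nonneg_right (hR _ (c.2.2.2 _)) (norm_nonneg _)

lemma chain_v_base_le (hcm : CyclMono G) (c : Chain G p0) : c.v p0.1 ≤ 0 := by
  unfold Chain.v
  have h := val_closed c.1 c.2.1
  rw [c.2.2.1] at h
  rw [h]
  exact hcm _ _ c.2.2.2

lemma chain_v_le (hcm : CyclMono G) (hR : ∀ p ∈ G, ‖p.2‖ ≤ R) (c : Chain G p0) (z : E) :
    c.v z ≤ R * ‖z - p0.1‖ := by
  have h1 := chain_v_sub_le hR c z p0.1
  have h2 := chain_v_base_le hcm c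
  linarith

lemma bddAbove_range (hcm : CyclMono G) (hR : ∀ p ∈ G, ‖p.2‖ ≤ R) (z : E) :
    BddAbove (Set.range fun c : Chain G p0 => c.v z) := by
  refine ⟨R * ‖z - p0.1‖, ?_⟩
  rintro _ ⟨c, rfl⟩
  exact chain_v_le hcm hR c z

/-- the trivial chain -/
def Chain.triv (h0 : p0 ∈ G) : Chain G p0 := ⟨0, fun _ => p0, rfl, fun _ => h0⟩

/-- appending a point -/
def Chain.snoc (c : Chain G p0) (q : E × E) (hq : q ∈ G) : Chain G p0 :=
  ⟨c.1 + 1, Fin.snoc (α := fun _ => E × E) c.2.1 q, by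
    have : (0 : Fin (c.1 + 1 + 1)) = Fin.castSucc (0 : Fin (c.1 + 1)) := rfl
    rw [this, Fin.snoc_castSucc]; exact c.2.2.1, by
    intro i
    refine Fin.lastCases ?_ (fun j => ?_) i
    · rw [Fin.snoc_last]; exact hq
    · rw [Fin.snoc_castSucc]; exact c.2.2.2 j⟩

lemma Chain.snoc_v (c : Chain G p0) (q : E × E) (hq : q ∈ G) (z : E) :
    (c.snoc q hq).v z = c.v q.1 + ⟪q.2, z - q.1⟫ :=
  val_snoc _ _ _ _

lemma le_pot (hcm : CyclMono G) (hR : ∀ p ∈ G, ‖p.2‖ ≤ R) (c : Chain G p0) (z : E) :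
    c.v z ≤ pot G p0 z :=
  le_ciSup (bddAbove_range hcm hR z) c

lemma pot_subgrad (hcm : CyclMono G) (hR : ∀ p ∈ G, ‖p.2‖ ≤ R) (h0 : p0 ∈ G)
    (q : E × E) (hq : q ∈ G) (z : E) :
    pot G p0 q.1 + ⟪q.2, z - q.1⟫ ≤ pot G p0 z := by
  haveI : Nonempty (Chain G p0) := ⟨Chain.triv h0⟩
  have : pot G p0 q.1 ≤ pot G p0 z - ⟪q.2, z - q.1⟫ := by
    apply ciSup_le
    intro c
    have := le_pot hcm hR (c.snoc q hq) z
    rw [Chain.snoc_v] at this
    linarith
  linarith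

lemma pot_sub_le (hcm : CyclMono G) (hR : ∀ p ∈ G, ‖p.2‖ ≤ R) (h0 : p0 ∈ G) (z z' : E) :
    pot G p0 z ≤ pot G p0 z' + R * ‖z - z'‖ := by
  haveI : Nonempty (Chain G p0) := ⟨Chain.triv h0⟩
  apply ciSup_le
  intro c
  have h1 := chain_v_sub_le hR c z z'
  have h2 := le_pot hcm hR c z'
  linarith

lemma pot_lipschitz (hcm : CyclMono G) (hR : ∀ p ∈ G, ‖p.2‖ ≤ R) (h0 : p0 ∈ G) :
    LipschitzWith R (pot G p0) := by
  apply LipschitzWith.of_le_add_mul
  intro z z'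
  rw [dist_eq_norm]
  exact pot_sub_le hcm hR h0 z z'

lemma val_affine (n : ℕ) (p : Fin (n + 1) → E × E) (z z' : E) (a b : ℝ) (hab : a + b = 1) :
    val n p (a • z + b • z') = a * val n p z + b * val n p z' := by
  simp only [val]
  have : a • z + b • z' - (p (Fin.last n)).1
      = a • (z - (p (Fin.last n)).1) + b • (z' - (p (Fin.last n)).1) := by
    have hb : b = 1 - a := by linarith
    subst hb
    module
  rw [this, inner_add_right, inner_smul_right, inner_smul_right]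
  have hb : b = 1 - a := by linarith
  subst hb
  ring

lemma pot_convex (hcm : CyclMono G) (hR : ∀ p ∈ G, ‖p.2‖ ≤ R) (h0 : p0 ∈ G) :
    ConvexOn ℝ Set.univ (pot G p0) := by
  haveI : Nonempty (Chain G p0) := ⟨Chain.triv h0⟩
  refine ⟨convex_univ, ?_⟩
  intro z _ z' _ a b ha hb hab
  apply ciSup_le
  intro c
  have h1 := le_pot hcm hR c z
  have h2 := le_pot hcm hR c z'
  have h3 : c.v (a • z + b • z') = a * c.v z + b * c.v z' := val_affine _ _ _ _ _ _ hab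
  rw [h3, smul_eq_mul, smul_eq_mul]
  have := mul_le_mul_of_nonneg_left h1 ha
  have := mul_le_mul_of_nonneg_left h2 hb
  linarith

lemma pot_base (hcm : CyclMono G) (hR : ∀ p ∈ G, ‖p.2‖ ≤ R) (h0 : p0 ∈ G) :
    pot G p0 p0.1 = 0 := by
  haveI : Nonempty (Chain G p0) := ⟨Chain.triv h0⟩
  apply le_antisymm
  · exact ciSup_le fun c => chain_v_base_le hcm c
  · have := le_pot hcm hR (Chain.triv h0) p0.1
    simpa [Chain.v, Chain.triv, val] using this

end

/-- **Rockafellar** (bounded slopes). -/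
theorem exists_potential (G : Set (E × E)) (hne : G.Nonempty) (R : NNReal)
    (hR : ∀ p ∈ G, ‖p.2‖ ≤ R)
    (hcm : ∀ (n : ℕ) (p : Fin (n + 1) → E × E), (∀ i, p i ∈ G) →
      ∑ i : Fin (n + 1), ⟪(p i).2, (p (i + 1)).1 - (p i).1⟫ ≤ 0) :
    ∃ φ : E → ℝ, ConvexOn ℝ Set.univ φ ∧ LipschitzWith R φ ∧
      ∀ p ∈ G, ∀ z, φ p.1 + ⟪p.2, z - p.1⟫ ≤ φ z := by
  obtain ⟨p0, h0⟩ := hne
  exact ⟨pot G p0, pot_convex hcm hR h0, pot_lipschitz hcm hR h0,
    fun q hq z => pot_subgrad hcm hR h0 q hq z⟩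

end Crest.Agent.Rockafellar
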