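/-
ROW 342, project PR.  BLOCK (C), (R4): Douglas lifting.  Worker: helper75.
-/
import Crest.Agent.PR_Defs

set_option autoImplicit false

namespace Crest.Agent.PR

open scoped ComplexOrder MatrixOrder
open Matrix

variable {n : Type} [Fintype n] [DecidableEq n]

/-- A Hermitian matrix has a Hermitian generalised inverse commuting with it. -/
private theorem exists_pinv (A : Matrix n n ℂ) (hA : A.IsHermitian) :
    ∃ B : Matrix n n ℂ, B.IsHermitian ∧ A * B * A = A ∧ B * A * B = B ∧ A * B = B * A := by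
  have hsa : IsSelfAdjoint A := hA
  have hc : ∀ f : ℝ → ℝ, ContinuousOn f (spectrum ℝ A) := fun f =>
    (Matrix.finite_real_spectrum (A := A)).continuousOn f
  refine ⟨cfc (fun x : ℝ => x⁻¹) A, ?_, ?_, ?_, ?_⟩
  · exact (cfc_predicate (fun x : ℝ => x⁻¹) A : IsSelfAdjoint _)
  · have h1 : A * cfc (fun x : ℝ => x⁻¹) A * A
        = cfc (fun x : ℝ => x * x⁻¹ * x) A := by
      rw [cfc_mul (fun x : ℝ => x * x⁻¹) (fun x : ℝ => x) A (hc _) (hc _),
        cfc_mul (fun x : ℝ => x) (fun x : ℝ => x⁻¹) A (hc _) (hc _), cfc_id' ℝ A hsa]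
    rw [h1]
    have h2 : (fun x : ℝ => x * x⁻¹ * x) = fun x : ℝ => x := by
      funext x
      by_cases hx : x = 0
      · simp [hx]
      · field_simp
    rw [h2, cfc_id' ℝ A hsa]
  · have h1 : cfc (fun x : ℝ => x⁻¹) A * A * cfc (fun x : ℝ => x⁻¹) A
        = cfc (fun x : ℝ => x⁻¹ * x * x⁻¹) A := by
      rw [cfc_mul (fun x : ℝ => x⁻¹ * x) (fun x : ℝ => x⁻¹) A (hc _) (hc _),
        cfc_mul (fun x : ℝ => x⁻¹) (fun x : ℝ => x) A (hc _) (hc _), cfc_id' ℝ A hsa]
    rw [h1]
    have h2 : (fun x : ℝ => x⁻¹ * x * x⁻¹) = fun x : ℝ => x⁻¹ := by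
      funext x
      by_cases hx : x = 0
      · simp [hx]
      · field_simp
    rw [h2]
  · have h1 : A * cfc (fun x : ℝ => x⁻¹) A = cfc (fun x : ℝ => x * x⁻¹) A := by
      rw [cfc_mul (fun x : ℝ => x) (fun x : ℝ => x⁻¹) A (hc _) (hc _), cfc_id' ℝ A hsa]
    have h2 : cfc (fun x : ℝ => x⁻¹) A * A = cfc (fun x : ℝ => x⁻¹ * x) A := by
      rw [cfc_mul (fun x : ℝ => x⁻¹) (fun x : ℝ => x) A (hc _) (hc _), cfc_id' ℝ A hsa]
    rw [h1, h2]
    congr 1
    funext x
    ring

/-- if `Qᴴ c Q = 0` for a PSD matrix `c` then `c Q = 0`. -/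
private theorem psd_mul_eq_zero {c Q : Matrix n n ℂ} (hc : c.PosSemidef)
    (h : Qᴴ * c * Q = 0) : c * Q = 0 := by
  obtain ⟨B, rfl⟩ := CStarAlgebra.nonneg_iff_eq_star_mul_self.mp hc.nonneg
  rw [Matrix.star_eq_conjTranspose] at h ⊢
  have h1 : (B * Q)ᴴ * (B * Q) = 0 := by
    rw [Matrix.conjTranspose_mul]
    calc Qᴴ * Bᴴ * (B * Q) = Qᴴ * (Bᴴ * B) * Q := by simp only [Matrix.mul_assoc]
      _ = 0 := h
  have h2 : B * Q = 0 := Matrix.conjTranspose_mul_self_eq_zero.mp h1
  rw [Matrix.mul_assoc, h2, Matrix.mul_zero]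

/-- **(R4)** Douglas lifting -/
theorem exists_lift_aux {m α : Type} [Fintype m] [DecidableEq m] [Fintype α] [Nonempty α]
    (r : Matrix m n ℂ) (c : α → Matrix n n ℂ) (hc : ∀ a, (c a).PosSemidef)
    (hsum : ∑ a, c a = r.conjTranspose * r) :
    ∃ N : α → Matrix m m ℂ, IsPOVM N ∧ ∀ a, r.conjTranspose * N a * r = c a := by
  classical
  obtain ⟨B, hBh, hABA, hBAB, hcomm⟩ := exists_pinv (rᴴ * r) (Matrix.isHermitian_conjTranspose_mul_self r)
  set A : Matrix n n ℂ := rᴴ * r with hA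
  have hAh : A.IsHermitian := Matrix.isHermitian_conjTranspose_mul_self r
  -- the support projection
  set P : Matrix n n ℂ := A * B with hP
  have hPh : Pᴴ = P := by
    rw [hP, Matrix.conjTranspose_mul, hBh.eq, hAh.eq]
    exact hcomm.symm.trans hP
  have hPA : P * A = A := hABA
  have hAP : A * P = A := by
    rw [hcomm, ← Matrix.mul_assoc, ← hP]; exact hABA
  -- `c a` lives on the support
  have hQ : ∀ a, c a * (1 - P) = 0 := by
    intro a
    apply psd_mul_eq_zero (hc a)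
    have hnn : ∀ a ∈ (Finset.univ : Finset α), 0 ≤ (1 - P)ᴴ * c a * (1 - P) := fun a _ =>
      ((hc a).conjTranspose_mul_mul_same (1 - P)).nonneg
    have hs : ∑ a, (1 - P)ᴴ * c a * (1 - P) = 0 := by
      rw [← Finset.sum_mul, ← Finset.mul_sum, hsum, Matrix.mul_assoc, Matrix.mul_sub,
        Matrix.mul_one, hAP, sub_self, Matrix.mul_zero]
    exact (Finset.sum_eq_zero_iff_of_nonneg hnn).mp hs a (Finset.mem_univ a)
  have hcP : ∀ a, c a * P = c a := by
    intro a
    have := hQ a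
    rw [Matrix.mul_sub, Matrix.mul_one, sub_eq_zero] at this
    exact this.symm
  have hPc : ∀ a, P * c a = c a := by
    intro a
    have := congrArg Matrix.conjTranspose (hcP a)
    rwa [Matrix.conjTranspose_mul, hPh, (hc a).isHermitian.eq] at this
  -- the range projection
  set E : Matrix m m ℂ := r * B * rᴴ with hE
  have hEh : Eᴴ = E := by
    rw [hE, Matrix.conjTranspose_mul, Matrix.conjTranspose_mul, Matrix.conjTranspose_conjTranspose,
      hBh.eq, Matrix.mul_assoc]
  have hEE : E * E = E := by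
    calc E * E = r * (B * (rᴴ * r) * B) * rᴴ := by rw [hE]; simp only [Matrix.mul_assoc]
      _ = E := by rw [← hA, hBAB]
  have h1E : (1 - E).PosSemidef := by
    have : (1 - E) = (1 - E)ᴴ * (1 - E) := by
      rw [Matrix.conjTranspose_sub, Matrix.conjTranspose_one, hEh, Matrix.sub_mul, Matrix.mul_sub,
        Matrix.mul_sub, hEE]
      simp
    rw [this]
    exact Matrix.posSemidef_conjTranspose_mul_self _
  have hrEr : rᴴ * (1 - E) * r = 0 := by
    calc rᴴ * (1 - E) * r = rᴴ * r - (rᴴ * r) * B * (rᴴ * r) := by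
          rw [hE, Matrix.mul_sub, Matrix.sub_mul, Matrix.mul_one]; simp only [Matrix.mul_assoc]
      _ = 0 := by rw [← hA, hABA, sub_self]
  obtain ⟨a0⟩ := (inferInstance : Nonempty α)
  refine ⟨fun a => (r * B) * c a * (r * B)ᴴ + (if a = a0 then 1 - E else 0), ⟨?_, ?_⟩, ?_⟩
  · intro a
    refine Matrix.PosSemidef.add ((hc a).mul_mul_conjTranspose_same (r * B)) ?_
    split_ifs
    · exact h1E
    · exact Matrix.PosSemidef.zero
  · rw [Finset.sum_add_distrib, ← Matrix.sum_mul, ← Matrix.mul_sum, hsum,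
      Finset.sum_ite_eq' Finset.univ a0 (fun _ => 1 - E), if_pos (Finset.mem_univ a0)]
    have : r * B * A * (r * B)ᴴ = E := by
      rw [Matrix.conjTranspose_mul, hBh.eq, hE]
      calc r * B * A * (B * rᴴ) = r * (B * A * B) * rᴴ := by simp only [Matrix.mul_assoc]
        _ = r * B * rᴴ := by rw [hBAB]
    rw [this]; abel
  · intro a
    rw [Matrix.mul_add, Matrix.add_mul]
    have h1 : rᴴ * (r * B * c a * (r * B)ᴴ) * r = c a := by
      rw [Matrix.conjTranspose_mul, hBh.eq]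
      calc rᴴ * (r * B * c a * (B * rᴴ)) * r = ((rᴴ * r) * B) * c a * (B * (rᴴ * r)) := by
            simp only [Matrix.mul_assoc]
        _ = P * c a * P := by rw [← hA, ← hcomm]
        _ = c a := by rw [hPc, hcP]
    have h2 : rᴴ * (if a = a0 then 1 - E else 0) * r = 0 := by
      split_ifs
      · exact hrEr
      · simp
    rw [h1, h2, add_zero]

end Crest.Agent.PR
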