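import Crest.Statements.S0181

/-
S0181 (row 132, statement 3 of 3): one positive boundary density `Λ` represents the holomorphic
functional calculus of `S A S⁻¹`, and `‖v[A]‖ ≤ κ sup ‖v‖`.

Team formalisation (table `s0181`; architect helper7).  Route: `B = S f(A) S⁻¹` is a contraction with
spectrum in the open disc; the operator Poisson kernel `Pk B w = (1 - w̄ B)⁻¹ + h.c. - 1` is positive
semidefinite on the unit circle and has moments `B ^ k`; `h = f ∘ G` is an injective holomorphic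
self-map of the unit circle, `Λ θ = ρ θ • Pk B (h (e^{iθ}))` with `ρ = Re (t h' / h) ≥ 0`;
`v ∘ f⁻¹` is a uniformly convergent power series on the closed disc; the functional calculus is
continuous in the jets on the spectrum; a positive density of mean `1` gives a complete contraction;
conjugation by `S ⊗ 1` costs `κ`.
Chunks: T1a boundary behaviour (helper46), T1b reparametrisation of the circle (helper34), T2a1 continuity and
positivity of the kernel (helper30), T2a2 moments of the kernel (helper54), T2b power series of v ∘ f⁻¹ (helper47),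
T2c continuity of the functional calculus (helper36), T2d limit under the integral (helper68), T3 matrix algebra
(helper77), T4 complete contraction (helper5), T5 conjugation (helper41), skeleton + assembly (helper7).
Independent complete copies, not used: T2b (helper43, helper61), T2c (helper39), T5 (helper18).
-/

set_option autoImplicit false
open scoped ComplexOrder
open Crest.AnalysisR.NumRange
open Crest Crest.AnalysisR Crest.AnalysisR.NumRange

namespace Crest.Agent.S0181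

open Filter Topology

/-- the point `e^{iθ}` -/
noncomputable def ee (θ : ℝ) : ℂ := Complex.exp ((θ : ℂ) * Complex.I)

/-- operator Poisson kernel of `B` at the point `w` of the unit circle -/
noncomputable def Pk {n : ℕ} (B : Matrix (Fin n) (Fin n) ℂ) (w : ℂ) : Matrix (Fin n) (Fin n) ℂ :=
  (1 - (starRingEnd ℂ w) • B)⁻¹ + ((1 - (starRingEnd ℂ w) • B)⁻¹).conjTranspose - 1

/-! ### Chunk T1a : boundary behaviour of `h = f ∘ G` -/

theorem T1a_boundary
    (Ω U : Set ℂ) (hΩ₁ : IsOpen Ω) (hΩ₂ : Bornology.IsBounded Ω)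
    (hU : IsOpen U) (hΩU : closure Ω ⊆ U)
    (f : ℂ → ℂ) (hf₁ : DifferentiableOn ℂ f U) (hf₂ : Set.InjOn f U)
    (hf₃ : f '' Ω = Metric.ball 0 1)
    (G : ℂ → ℂ) (r : ℝ) (hr₁ : 0 < r) (hr₂ : r < 1)
    (hG₁ : DifferentiableOn ℂ G {t : ℂ | r < ‖t‖}) (hG₂ : Set.InjOn G {t : ℂ | r < ‖t‖})
    (hG₃ : G '' {t : ℂ | 1 < ‖t‖} = (closure Ω)ᶜ) :
    (∀ t ∈ Metric.sphere (0 : ℂ) 1, G t ∈ closure Ω) ∧
    ∃ O : Set ℂ, IsOpen O ∧ Metric.sphere (0 : ℂ) 1 ⊆ O ∧
      DifferentiableOn ℂ (fun t => f (G t)) O ∧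
      (∀ t ∈ Metric.sphere (0 : ℂ) 1, ‖f (G t)‖ = 1) ∧
      Set.InjOn (fun t => f (G t)) (Metric.sphere (0 : ℂ) 1) ∧
      ∀ t ∈ O, 1 < ‖t‖ → 1 ≤ ‖f (G t)‖ := by
  have hDo : IsOpen {t : ℂ | r < ‖t‖} := isOpen_lt continuous_const continuous_norm
  have hnorm : ∀ t ∈ Metric.sphere (0 : ℂ) 1, ‖t‖ = 1 := fun t ht => by simpa using ht
  have hsD : ∀ t ∈ Metric.sphere (0 : ℂ) 1, t ∈ {t : ℂ | r < ‖t‖} := fun t ht => by
    simp only [Set.mem_ofPred_eq, hnorm t ht]; exact hr₂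
  -- (1)
  have h1 : ∀ t ∈ Metric.sphere (0 : ℂ) 1, G t ∈ closure Ω := by
    intro t ht
    by_contra hc
    have : G t ∈ G '' {t : ℂ | 1 < ‖t‖} := by rw [hG₃]; exact hc
    obtain ⟨t2, ht2, he⟩ := this
    have ht2' : (1 : ℝ) < ‖t2‖ := ht2
    have : t2 = t := hG₂ (show r < ‖t2‖ by linarith) (hsD t ht) he
    rw [this, hnorm t ht] at ht2'
    exact lt_irrefl _ ht2'
  -- (2)
  have h2 : ∀ t ∈ Metric.sphere (0 : ℂ) 1, G t ∉ Ω := by
    intro t ht
    have hcl : t ∈ closure {t : ℂ | 1 < ‖t‖} := by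
      rw [Metric.mem_closure_iff]
      intro ε hε
      refine ⟨((1 + ε / 2 : ℝ) : ℂ) * t, ?_, ?_⟩
      · simp only [Set.mem_ofPred_eq, norm_mul, hnorm t ht, mul_one, Complex.norm_real,
          Real.norm_eq_abs]
        rw [abs_of_pos (by linarith)]; linarith
      · have : t - ((1 + ε / 2 : ℝ) : ℂ) * t = ((-(ε / 2) : ℝ) : ℂ) * t := by
          push_cast; ring
        rw [dist_eq_norm, this, norm_mul, hnorm t ht, mul_one, Complex.norm_real,
          Real.norm_eq_abs, abs_neg, abs_of_pos (by linarith)]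
        linarith
    have hca : ContinuousAt G t :=
      ((hG₁ t (hsD t ht)).differentiableAt (hDo.mem_nhds (hsD t ht))).continuousAt
    have := mem_closure_image hca hcl
    rw [hG₃] at this
    have hsub : closure ((closure Ω)ᶜ) ⊆ Ωᶜ :=
      closure_minimal (Set.compl_subset_compl.mpr subset_closure) hΩ₁.isClosed_compl
    exact hsub this
  -- (3)
  have h3 : ∀ z ∈ closure Ω, ‖f z‖ ≤ 1 := by
    intro z hz
    have hc : ContinuousOn f (closure Ω) := hf₁.continuousOn.mono hΩU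
    have := hc.image_closure (Set.mem_image_of_mem f hz)
    rw [hf₃, closure_ball _ one_ne_zero] at this
    simpa using this
  -- (4)
  have h4 : ∀ z ∈ U, ‖f z‖ < 1 → z ∈ Ω := by
    intro z hz hlt
    have : f z ∈ f '' Ω := by rw [hf₃]; simpa using hlt
    obtain ⟨z', hz', he⟩ := this
    have : z' = z := hf₂ (hΩU (subset_closure hz')) hz he
    exact this ▸ hz'
  refine ⟨h1, {t : ℂ | r < ‖t‖} ∩ G ⁻¹' U, hG₁.continuousOn.isOpen_inter_preimage hDo hU,
    fun t ht => ⟨hsD t ht, hΩU (h1 t ht)⟩, ?_, ?_, ?_, ?_⟩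
  · exact hf₁.comp (hG₁.mono Set.inter_subset_left) (fun t ht => ht.2)
  · intro t ht
    refine le_antisymm (h3 _ (h1 t ht)) ?_
    by_contra hc
    exact h2 t ht (h4 _ (hΩU (h1 t ht)) (not_le.mp hc))
  · intro t ht t' ht' he
    exact hG₂ (hsD t ht) (hsD t' ht') (hf₂ (hΩU (h1 t ht)) (hΩU (h1 t' ht')) he)
  · intro t ht hlt
    by_contra hc
    have hΩ := h4 _ ht.2 (not_le.mp hc)
    have : G t ∈ (closure Ω)ᶜ := by rw [← hG₃]; exact Set.mem_image_of_mem G hlt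
    exact this (subset_closure hΩ)

/-! ### Chunk T1b : reparametrisation of the unit circle by `h` -/

theorem T1b_norm_ee (θ : ℝ) : ‖ee θ‖ = 1 := Complex.norm_exp_ofReal_mul_I θ

theorem T1b_ee_mem (θ : ℝ) : ee θ ∈ Metric.sphere (0 : ℂ) 1 := by
  rw [mem_sphere_zero_iff_norm]
  exact T1b_norm_ee θ

theorem T1b_ee_add (a b : ℝ) : ee (a + b) = ee a * ee b := by
  unfold ee
  rw [← Complex.exp_add]
  congr 1
  push_cast
  ring

theorem T1b_ee_zero : ee 0 = 1 := by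
  unfold ee
  simp

theorem T1b_ee_neg_mul (a : ℝ) : ee (-a) * ee a = 1 := by
  rw [← T1b_ee_add]
  simp [T1b_ee_zero]

theorem T1b_ee_two_pi : ee (2 * Real.pi) = 1 := by
  unfold ee
  push_cast
  exact Complex.exp_two_pi_mul_I

theorem T1b_ee_periodic : Function.Periodic ee (2 * Real.pi) := by
  intro θ
  rw [T1b_ee_add, T1b_ee_two_pi, mul_one]

theorem T1b_ee_pi : ee Real.pi = -1 := by
  unfold ee
  exact Complex.exp_pi_mul_I

theorem T1b_ee_eq {a b : ℝ} (h : ee a = ee b) : ∃ n : ℤ, a = b + n * (2 * Real.pi) := by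
  unfold ee at h
  obtain ⟨n, hn⟩ := Complex.exp_eq_exp_iff_exists_int.1 h
  refine ⟨n, ?_⟩
  have h2 : ((a : ℂ)) * Complex.I = ((b + n * (2 * Real.pi) : ℝ) : ℂ) * Complex.I := by
    rw [hn]
    push_cast
    ring
  have h3 := mul_right_cancel₀ Complex.I_ne_zero h2
  exact_mod_cast h3

theorem T1b_hasDerivAt_ee (θ : ℝ) : HasDerivAt ee (Complex.I * ee θ) θ := by
  have h1 : HasDerivAt (fun x : ℝ => (x : ℂ) * Complex.I) (1 * Complex.I) θ :=
    (Complex.ofRealCLM.hasDerivAt (x := θ)).mul_const Complex.I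
  have h2 := h1.cexp
  have e : Complex.exp ((θ : ℂ) * Complex.I) * (1 * Complex.I) = Complex.I * ee θ := by
    unfold ee
    ring
  rw [e] at h2
  exact h2

theorem T1b_continuous_ee : Continuous ee :=
  continuous_iff_continuousAt.2 fun θ => (T1b_hasDerivAt_ee θ).continuousAt

theorem T1b_deriv_nonneg (φ : ℝ → ℝ) (φ' : ℝ) (hφ : HasDerivAt φ φ' 0)
    (hge : ∀ᶠ s in 𝓝[>] (0 : ℝ), φ 0 ≤ φ s) : 0 ≤ φ' := by
  have h2 := hφ.tendsto_slope_zero_right
  refine ge_of_tendsto h2 ?_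
  filter_upwards [hge, self_mem_nhdsWithin] with s hs hpos
  have hpos' : (0 : ℝ) < s := hpos
  rw [zero_add, smul_eq_mul]
  exact mul_nonneg (inv_nonneg.2 hpos'.le) (by linarith)

theorem T1b_reparam (h : ℂ → ℂ) (O : Set ℂ) (hO : IsOpen O) (hsub : Metric.sphere (0 : ℂ) 1 ⊆ O)
    (hd : DifferentiableOn ℂ h O) (h1 : ∀ t ∈ Metric.sphere (0 : ℂ) 1, ‖h t‖ = 1)
    (hinj : Set.InjOn h (Metric.sphere (0 : ℂ) 1))
    (hout : ∀ t ∈ O, 1 < ‖t‖ → 1 ≤ ‖h t‖) :
    ∃ ρ : ℝ → ℝ, Continuous ρ ∧ Function.Periodic ρ (2 * Real.pi) ∧ (∀ θ, 0 ≤ ρ θ) ∧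
      ∀ F : ℂ → ℂ, ContinuousOn F (Metric.sphere 0 1) →
        ∫ θ in (0 : ℝ)..2 * Real.pi, (ρ θ : ℂ) * F (h (ee θ)) =
          ∫ ψ in (0 : ℝ)..2 * Real.pi, F (ee ψ) := by
  have hpi := Real.pi_pos
  have hmemO : ∀ θ, ee θ ∈ O := fun θ => hsub (T1b_ee_mem θ)
  have hnorm : ∀ θ, ‖h (ee θ)‖ = 1 := fun θ => h1 _ (T1b_ee_mem θ)
  have hne : ∀ θ, h (ee θ) ≠ 0 := by
    intro θ h0
    have := hnorm θ
    rw [h0, norm_zero] at this
    exact zero_ne_one this
  have hhd : ∀ θ, HasDerivAt h (deriv h (ee θ)) (ee θ) := fun θ =>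
    ((hd _ (hmemO θ)).differentiableAt (hO.mem_nhds (hmemO θ))).hasDerivAt
  -- the logarithmic derivative
  set L : ℝ → ℂ := fun θ => ee θ * deriv h (ee θ) / h (ee θ) with hL
  have hLmul : ∀ θ, L θ * h (ee θ) = ee θ * deriv h (ee θ) := by
    intro θ
    rw [hL]
    field_simp [hne θ]
  have hγ : ∀ θ, HasDerivAt (fun x : ℝ => h (ee x)) (Complex.I * L θ * h (ee θ)) θ := by
    intro θ
    have := HasDerivAt.scomp θ (hhd θ) (T1b_hasDerivAt_ee θ)
    have e : (Complex.I * ee θ) • deriv h (ee θ) = Complex.I * L θ * h (ee θ) := by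
      rw [mul_assoc, hLmul, smul_eq_mul]
      ring
    rw [e] at this
    exact this
  have hconjmul : ∀ θ, h (ee θ) * (starRingEnd ℂ) (h (ee θ)) = 1 := by
    intro θ
    rw [Complex.mul_conj, Complex.normSq_eq_norm_sq, hnorm θ]
    norm_num
  have hIm : ∀ θ, (L θ).im = 0 := by
    intro θ
    have hA := (hγ θ).norm_sq
    have hB : HasDerivAt (fun x : ℝ => ‖h (ee x)‖ ^ 2) 0 θ := by
      have : (fun x : ℝ => ‖h (ee x)‖ ^ 2) = fun _ => (1 : ℝ) := by
        funext x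
        rw [hnorm x]
        norm_num
      rw [this]
      exact hasDerivAt_const _ _
    have hC := hA.unique hB
    rw [Complex.inner] at hC
    have e : Complex.I * L θ * h (ee θ) * (starRingEnd ℂ) (h (ee θ)) = Complex.I * L θ := by
      rw [mul_assoc, hconjmul, mul_one]
    rw [e] at hC
    simp only [Complex.mul_re, Complex.I_re, Complex.I_im, zero_mul, one_mul, zero_sub] at hC
    linarith
  set ρ : ℝ → ℝ := fun θ => (L θ).re with hρ
  have hLρ : ∀ θ, L θ = (ρ θ : ℂ) := by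
    intro θ
    apply Complex.ext
    · simp [hρ]
    · simp [hIm θ]
  have hLc : Continuous L := by
    have c1 : Continuous fun θ => deriv h (ee θ) :=
      (hd.deriv hO).continuousOn.comp_continuous T1b_continuous_ee hmemO
    have c2 : Continuous fun θ => h (ee θ) :=
      hd.continuousOn.comp_continuous T1b_continuous_ee hmemO
    exact (T1b_continuous_ee.mul c1).div c2 hne
  have hρc : Continuous ρ := Complex.continuous_re.comp hLc
  have hρper : Function.Periodic ρ (2 * Real.pi) := by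
    intro θ
    simp only [hρ, hL, T1b_ee_periodic θ]
  have hρnn : ∀ θ, 0 ≤ ρ θ := by
    intro θ
    have hs : HasDerivAt (fun s : ℝ => ((Real.exp s : ℝ) : ℂ) * ee θ) (ee θ) 0 := by
      have a1 : HasDerivAt (fun s : ℝ => ((Real.exp s : ℝ) : ℂ)) ((Real.exp 0 : ℝ) : ℂ) 0 :=
        (Real.hasDerivAt_exp 0).ofReal_comp
      have a2 := a1.mul_const (ee θ)
      simpa using a2
    have hpt : ((Real.exp 0 : ℝ) : ℂ) * ee θ = ee θ := by simp
    have hh' : HasDerivAt h (deriv h (ee θ)) (((Real.exp 0 : ℝ) : ℂ) * ee θ) := by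
      rw [hpt]
      exact hhd θ
    have hc := HasDerivAt.scomp (0 : ℝ) hh' hs
    have hn := hc.norm_sq
    have hval : (2 : ℝ) * inner ℝ ((h ∘ fun s : ℝ => ((Real.exp s : ℝ) : ℂ) * ee θ) 0)
        (ee θ • deriv h (ee θ)) = 2 * ρ θ := by
      simp only [Function.comp, hpt]
      rw [Complex.inner, smul_eq_mul, ← hLmul, mul_assoc, hconjmul, mul_one]
    rw [hval] at hn
    have hnn := T1b_deriv_nonneg _ _ hn (by
      have hcont : ContinuousAt (fun s : ℝ => ((Real.exp s : ℝ) : ℂ) * ee θ) 0 := hs.continuousAt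
      have hev : ∀ᶠ s in 𝓝 (0 : ℝ), ((Real.exp s : ℝ) : ℂ) * ee θ ∈ O := by
        apply hcont.eventually_mem
        rw [hpt]
        exact hO.mem_nhds (hmemO θ)
      filter_upwards [nhdsWithin_le_nhds hev, self_mem_nhdsWithin] with s hsO hspos
      have hspos' : (0 : ℝ) < s := hspos
      simp only [Function.comp, hpt, hnorm θ]
      have hgt : 1 < ‖((Real.exp s : ℝ) : ℂ) * ee θ‖ := by
        rw [norm_mul, T1b_norm_ee, mul_one, Complex.norm_real, Real.norm_of_nonneg (Real.exp_pos s).le]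
        exact Real.one_lt_exp_iff.2 hspos'
      have := hout _ hsO hgt
      nlinarith)
    linarith
  refine ⟨ρ, hρc, hρper, hρnn, ?_⟩
  -- the angle function
  set ψ0 : ℝ := Complex.arg (h 1) with hψ0
  have hee0 : ee ψ0 = h 1 := by
    have := Complex.norm_mul_exp_arg_mul_I (h 1)
    have h11 : ‖h 1‖ = 1 := h1 1 (by simp)
    rw [h11] at this
    unfold ee
    simpa using this
  set ψ : ℝ → ℝ := fun θ => ψ0 + ∫ x in (0 : ℝ)..θ, ρ x with hψ
  have hψd : ∀ θ, HasDerivAt ψ (ρ θ) θ := fun θ =>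
    ((hρc.integral_hasStrictDerivAt 0 θ).hasDerivAt).const_add ψ0
  have hψ00 : ψ 0 = ψ0 := by simp [hψ]
  have hE : ∀ θ, HasDerivAt (fun x : ℝ => h (ee x) * ee (-ψ x)) 0 θ := by
    intro θ
    have hneg : HasDerivAt (fun x : ℝ => -ψ x) (-ρ θ) θ := (hψd θ).neg
    have b1 : HasDerivAt (fun x : ℝ => ee (-ψ x)) ((-ρ θ) • (Complex.I * ee (-ψ θ))) θ := by
      have b1' := HasDerivAt.scomp (g₁ := ee) (h := fun x : ℝ => -ψ x) θ
        (T1b_hasDerivAt_ee (-ψ θ)) hneg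
      exact b1'
    have b2 := (hγ θ).mul b1
    have e : Complex.I * L θ * h (ee θ) * ee (-ψ θ) +
        h (ee θ) * ((-ρ θ) • (Complex.I * ee (-ψ θ))) = 0 := by
      rw [hLρ θ, Complex.real_smul]
      push_cast
      ring
    rw [e] at b2
    exact b2
  have hconst : ∀ θ, h (ee θ) * ee (-ψ θ) = 1 := by
    intro θ
    have := is_const_of_deriv_eq_zero (f := fun x : ℝ => h (ee x) * ee (-ψ x))
      (fun x => (hE x).differentiableAt) (fun x => (hE x).deriv) θ 0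
    rw [this]
    simp only [hψ00, T1b_ee_zero]
    rw [← hee0, mul_comm]
    exact T1b_ee_neg_mul ψ0
  have hlift : ∀ θ, h (ee θ) = ee (ψ θ) := by
    intro θ
    have a1 := hconst θ
    have a2 := T1b_ee_neg_mul (ψ θ)
    calc h (ee θ) = h (ee θ) * (ee (-ψ θ) * ee (ψ θ)) := by rw [a2, mul_one]
      _ = (h (ee θ) * ee (-ψ θ)) * ee (ψ θ) := by ring
      _ = ee (ψ θ) := by rw [a1, one_mul]
  have hmono : Monotone ψ :=
    monotone_of_deriv_nonneg (fun x => (hψd x).differentiableAt)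
      (fun x => by rw [(hψd x).deriv]; exact hρnn x)
  have hψc : Continuous ψ := continuous_iff_continuousAt.2 fun x => (hψd x).continuousAt
  -- degree one
  obtain ⟨d, hdeg⟩ : ∃ d : ℤ, ψ (2 * Real.pi) = ψ 0 + d * (2 * Real.pi) := by
    apply T1b_ee_eq
    rw [← hlift, ← hlift, T1b_ee_two_pi, T1b_ee_zero]
  have hd1 : d = 1 := by
    rcases lt_trichotomy d 1 with hlt | heq | hgt
    · exfalso
      have hd0 : (d : ℝ) ≤ 0 := by
        have : d ≤ 0 := by omega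
        exact_mod_cast this
      have m1 : ψ 0 ≤ ψ Real.pi := hmono hpi.le
      have m2 : ψ Real.pi ≤ ψ (2 * Real.pi) := hmono (by linarith)
      have m3 : ψ (2 * Real.pi) ≤ ψ 0 := by
        rw [hdeg]
        nlinarith
      have m4 : ψ Real.pi = ψ 0 := le_antisymm (le_trans m2 m3) m1
      have m5 : h (ee Real.pi) = h (ee 0) := by rw [hlift, hlift, m4]
      have m6 := hinj (T1b_ee_mem _) (T1b_ee_mem _) m5
      rw [T1b_ee_pi, T1b_ee_zero] at m6
      norm_num at m6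
    · exact heq
    · exfalso
      have hd2 : (2 : ℝ) ≤ d := by
        have : (2 : ℤ) ≤ d := by omega
        exact_mod_cast this
      have hmem : ψ 0 + 2 * Real.pi ∈ Set.Icc (ψ 0) (ψ (2 * Real.pi)) := by
        constructor
        · linarith
        · rw [hdeg]
          nlinarith
      obtain ⟨θ1, hθ1, hθ1v⟩ := intermediate_value_Icc (by linarith : (0 : ℝ) ≤ 2 * Real.pi)
        hψc.continuousOn hmem
      have m5 : h (ee θ1) = h (ee 0) := by
        rw [hlift, hlift, hθ1v, T1b_ee_periodic]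
      have m6 := hinj (T1b_ee_mem _) (T1b_ee_mem _) m5
      obtain ⟨n, hn⟩ := T1b_ee_eq m6
      have hne0 : θ1 ≠ 0 := by
        intro h0
        rw [h0] at hθ1v
        linarith
      have hne2 : θ1 ≠ 2 * Real.pi := by
        intro h0
        rw [h0, hdeg] at hθ1v
        nlinarith
      have hlt1 : 0 < θ1 := lt_of_le_of_ne hθ1.1 (Ne.symm hne0)
      have hlt2 : θ1 < 2 * Real.pi := lt_of_le_of_ne hθ1.2 hne2
      rw [zero_add] at hn
      have n1 : (0 : ℝ) < n := by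
        by_contra hcon
        have : (n : ℝ) ≤ 0 := not_lt.1 hcon
        nlinarith
      have n2 : (n : ℝ) < 1 := by
        by_contra hcon
        have : (1 : ℝ) ≤ n := not_lt.1 hcon
        nlinarith
      have n1' : (0 : ℤ) < n := by exact_mod_cast n1
      have n2' : n < (1 : ℤ) := by exact_mod_cast n2
      omega
  intro F hF
  have hg : Continuous fun u : ℝ => F (ee u) :=
    hF.comp_continuous T1b_continuous_ee T1b_ee_mem
  have hsubst := intervalIntegral.integral_deriv_smul_comp (a := 0) (b := 2 * Real.pi) (f := ψ)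
    (f' := ρ) (g := fun u : ℝ => F (ee u)) (fun x _ => hψd x) hρc.continuousOn hg
  have hleft : ∫ θ in (0 : ℝ)..2 * Real.pi, (ρ θ : ℂ) * F (h (ee θ)) =
      ∫ x in (0 : ℝ)..2 * Real.pi, ρ x • ((fun u : ℝ => F (ee u)) ∘ ψ) x := by
    apply intervalIntegral.integral_congr
    intro x _
    simp only [Function.comp, Complex.real_smul, hlift x]
  rw [hleft, hsubst, hdeg, hd1]
  have hper : Function.Periodic (fun u : ℝ => F (ee u)) (2 * Real.pi) := by
    intro u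
    simp only [T1b_ee_periodic u]
  have := hper.intervalIntegral_add_eq (ψ 0) 0
  rw [zero_add] at this
  rw [← this]
  congr 1
  push_cast
  ring

/-! ### Chunk T2a : the operator Poisson kernel -/

theorem T2a1_conj_mul (w : ℂ) (hw : w ∈ Metric.sphere (0 : ℂ) 1) :
    (starRingEnd ℂ w) * w = 1 := by
  have hw1 : ‖w‖ = 1 := by simpa using hw
  rw [mul_comm, Complex.mul_conj, Complex.normSq_eq_norm_sq, hw1]; simp

theorem T2a1_det_ne {n : ℕ} (B : Matrix (Fin n) (Fin n) ℂ)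
    (hs : ∀ μ ∈ spectrum ℂ B, ‖μ‖ < 1) (w : ℂ) (hw : w ∈ Metric.sphere (0 : ℂ) 1) :
    (1 - (starRingEnd ℂ w) • B).det ≠ 0 := by
  have hw1 : ‖w‖ = 1 := by simpa using hw
  have hnot : w ∉ spectrum ℂ B := fun h => by have := hs w h; linarith
  rw [spectrum.mem_iff, not_not] at hnot
  have hcw := T2a1_conj_mul w hw
  have h1 : (1 - (starRingEnd ℂ w) • B) = (starRingEnd ℂ w) • (algebraMap ℂ _ w - B) := by
    rw [smul_sub, Algebra.algebraMap_eq_smul_one, smul_smul, hcw, one_smul]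
  have hc0 : (starRingEnd ℂ w) ≠ 0 := by
    intro h; rw [h] at hcw; simp at hcw
  rw [h1, Matrix.det_smul]
  have hd : (algebraMap ℂ (Matrix (Fin n) (Fin n) ℂ) w - B).det ≠ 0 :=
    ((Matrix.isUnit_iff_isUnit_det _).1 hnot).ne_zero
  exact mul_ne_zero (pow_ne_zero _ hc0) hd

theorem T2a_continuousOn {n : ℕ} (B : Matrix (Fin n) (Fin n) ℂ)
    (hs : ∀ μ ∈ spectrum ℂ B, ‖μ‖ < 1) (a b : Fin n) :
    ContinuousOn (fun w => Pk B w a b) (Metric.sphere 0 1) := by
  have hX : Continuous (fun w : ℂ => (1 - (starRingEnd ℂ w) • B : Matrix (Fin n) (Fin n) ℂ)) := by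
    have : Continuous (fun w : ℂ => (starRingEnd ℂ w)) := Complex.continuous_conj
    exact continuous_const.sub (this.smul continuous_const)
  have hinv : ∀ i j : Fin n, ContinuousOn
      (fun w : ℂ => ((1 - (starRingEnd ℂ w) • B : Matrix (Fin n) (Fin n) ℂ)⁻¹) i j)
      (Metric.sphere 0 1) := by
    intro i j
    have hdet : ContinuousOn (fun w : ℂ => ((1 - (starRingEnd ℂ w) • B : Matrix (Fin n) (Fin n) ℂ).det)⁻¹)
        (Metric.sphere 0 1) :=
      (hX.matrix_det.continuousOn).inv₀ (fun w hw => T2a1_det_ne B hs w hw)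
    have hadj : Continuous (fun w : ℂ =>
        (1 - (starRingEnd ℂ w) • B : Matrix (Fin n) (Fin n) ℂ).adjugate i j) :=
      (hX.matrix_adjugate).matrix_elem i j
    have := hdet.mul hadj.continuousOn
    refine this.congr ?_
    intro w _
    simp [Matrix.inv_def, Ring.inverse_eq_inv']
  have h1 := hinv a b
  have h2 : ContinuousOn (fun w : ℂ => (starRingEnd ℂ)
      (((1 - (starRingEnd ℂ w) • B : Matrix (Fin n) (Fin n) ℂ)⁻¹) b a)) (Metric.sphere 0 1) :=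
    Complex.continuous_conj.comp_continuousOn (hinv b a)
  have := (h1.add h2).sub (continuousOn_const (c := (1 : Matrix (Fin n) (Fin n) ℂ) a b))
  refine this.congr ?_
  intro w _
  simp [Pk, Matrix.conjTranspose_apply]

theorem T2a_posSemidef {n : ℕ} (B : Matrix (Fin n) (Fin n) ℂ)
    (hB : (1 - B.conjTranspose * B).PosSemidef) (hs : ∀ μ ∈ spectrum ℂ B, ‖μ‖ < 1)
    (w : ℂ) (hw : w ∈ Metric.sphere (0 : ℂ) 1) : (Pk B w).PosSemidef := by
  set X : Matrix (Fin n) (Fin n) ℂ := 1 - (starRingEnd ℂ w) • B with hX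
  set R : Matrix (Fin n) (Fin n) ℂ := X⁻¹ with hR
  have hdet : IsUnit X.det := (T2a1_det_ne B hs w hw).isUnit
  have hXR : X * R = 1 := Matrix.mul_nonsing_inv X hdet
  have hRX : R * X = 1 := Matrix.nonsing_inv_mul X hdet
  have hXRh : R.conjTranspose * X.conjTranspose = 1 := by
    rw [← Matrix.conjTranspose_mul, hXR, Matrix.conjTranspose_one]
  have hcw := T2a1_conj_mul w hw
  have hXh : X.conjTranspose = 1 - w • B.conjTranspose := by
    rw [hX, Matrix.conjTranspose_sub, Matrix.conjTranspose_one, Matrix.conjTranspose_smul]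
    simp
  have hkey : X.conjTranspose + X - X.conjTranspose * X = 1 - B.conjTranspose * B := by
    rw [hXh, hX]
    simp only [sub_mul, mul_sub, one_mul, mul_one, Matrix.smul_mul, Matrix.mul_smul, smul_smul]
    rw [hcw, one_smul]
    abel
  have hPk : Pk B w = R.conjTranspose * (1 - B.conjTranspose * B) * R := by
    rw [← hkey]
    have e1 : R.conjTranspose * X.conjTranspose * R = R := by rw [hXRh, one_mul]
    have e2 : R.conjTranspose * X * R = R.conjTranspose := by rw [mul_assoc, hXR, mul_one]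
    have e3 : R.conjTranspose * (X.conjTranspose * X) * R = 1 := by
      rw [← mul_assoc, hXRh, one_mul, hXR]
    rw [mul_sub, mul_add, sub_mul, add_mul, e1, e2, e3]
    rfl
  rw [hPk]
  exact hB.conjTranspose_mul_mul_same R


theorem T2a2_pow_tendsto {n : ℕ} (B : Matrix (Fin n) (Fin n) ℂ)
    (hs : ∀ μ ∈ spectrum ℂ B, ‖μ‖ < 1) (a b : Fin n) :
    Tendsto (fun N : ℕ => (B ^ N) a b) atTop (𝓝 0) := by
  let _ : NormedRing (Matrix (Fin n) (Fin n) ℂ) := Matrix.linftyOpNormedRing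
  let _ : NormedAlgebra ℂ (Matrix (Fin n) (Fin n) ℂ) := Matrix.linftyOpNormedAlgebra
  have : Nonempty (Fin n) := ⟨a⟩
  have : CompleteSpace (Matrix (Fin n) (Fin n) ℂ) := FiniteDimensional.complete ℂ _
  have hsr : spectralRadius ℂ B < ((1 : NNReal) : ENNReal) := by
    apply spectrum.spectralRadius_lt_of_forall_lt B
    intro z hz
    have := hs z hz
    exact_mod_cast this
  have hG := spectrum.pow_nnnorm_pow_one_div_tendsto_nhds_spectralRadius B
  obtain ⟨ρ, h1, h2⟩ := exists_between hsr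
  have hev : ∀ᶠ N : ℕ in atTop, ((‖B ^ N‖₊ : ENNReal)) ^ (1 / N : ℝ) < ρ :=
    hG.eventually (gt_mem_nhds h1)
  have hev2 : ∀ᶠ N : ℕ in atTop, ((‖B ^ N‖₊ : ENNReal)) ≤ ρ ^ N := by
    filter_upwards [hev, eventually_ge_atTop 1] with N hN hN1
    have hN0 : (0 : ℝ) < N := by exact_mod_cast hN1
    have := ENNReal.rpow_le_rpow hN.le hN0.le
    rw [← ENNReal.rpow_mul, one_div_mul_cancel hN0.ne', ENNReal.rpow_one,
      ENNReal.rpow_natCast] at this
    exact this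
  have hρ : Tendsto (fun N : ℕ => ρ ^ N) atTop (𝓝 0) :=
    ENNReal.tendsto_pow_atTop_nhds_zero_of_lt_one (by simpa using h2)
  have h3 : Tendsto (fun N : ℕ => ((‖B ^ N‖₊ : ENNReal))) atTop (𝓝 0) :=
    tendsto_of_tendsto_of_tendsto_of_le_of_le' tendsto_const_nhds hρ
      (Eventually.of_forall fun _ => bot_le) hev2
  have h4' : Tendsto (fun N : ℕ => ‖B ^ N‖) atTop (𝓝 0) := by
    have := (ENNReal.tendsto_toReal (ENNReal.zero_ne_top)).comp h3
    simpa [Function.comp_def] using this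
  have h4 : Tendsto (fun N : ℕ => B ^ N) atTop (𝓝 0) :=
    tendsto_zero_iff_norm_tendsto_zero.2 h4'
  have h5 : Continuous (fun M : Matrix (Fin n) (Fin n) ℂ => M a b) :=
    (continuous_apply b).comp (continuous_apply a)
  have h6 := (h5.tendsto 0).comp h4
  simpa [Function.comp_def] using h6


theorem T2a2_ee_norm (θ : ℝ) : ‖ee θ‖ = 1 := by
  unfold ee; exact Complex.norm_exp_ofReal_mul_I θ

theorem T2a2_ee_add (x y : ℝ) : ee (x + y) = ee x * ee y := by
  unfold ee; rw [← Complex.exp_add]; push_cast; ring_nf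

theorem T2a2_ee_pow (x : ℝ) (k : ℕ) : ee x ^ k = ee ((k:ℝ) * x) := by
  unfold ee; rw [← Complex.exp_nat_mul]; push_cast; ring_nf

theorem T2a2_ee_conj (x : ℝ) : (starRingEnd ℂ) (ee x) = ee (-x) := by
  unfold ee; rw [← Complex.exp_conj]; simp

theorem T2a2_ee_cont : Continuous ee := by
  unfold ee; fun_prop

theorem T2a2_orth (m : ℤ) :
    ∫ ψ in (0:ℝ)..2 * Real.pi, ee ((m:ℝ) * ψ) = if m = 0 then (2 * Real.pi : ℂ) else 0 := by
  by_cases hm : m = 0
  · subst hm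
    simp [ee]
  · rw [if_neg hm]
    have hc : ((m:ℂ) * Complex.I) ≠ 0 := by
      apply mul_ne_zero _ Complex.I_ne_zero
      exact_mod_cast hm
    have h1 : ∀ ψ : ℝ, ee ((m:ℝ) * ψ) = Complex.exp (((m:ℂ) * Complex.I) * ψ) := by
      intro ψ; unfold ee; push_cast; ring_nf
    simp only [h1]
    rw [integral_exp_mul_complex hc]
    have h2 : Complex.exp ((m:ℂ) * Complex.I * ((2 * Real.pi : ℝ) : ℂ)) = 1 := by
      have := Complex.exp_int_mul_two_pi_mul_I m
      rw [← this]; congr 1; push_cast; ring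
    rw [h2]; simp

theorem T2a2_isUnit {n : ℕ} (B : Matrix (Fin n) (Fin n) ℂ)
    (hs : ∀ μ ∈ spectrum ℂ B, ‖μ‖ < 1) (w : ℂ) (hw : ‖w‖ = 1) :
    IsUnit (1 - (starRingEnd ℂ w) • B).det := by
  have hnot : w ∉ spectrum ℂ B := fun h => by have := hs w h; linarith
  rw [spectrum.notMem_iff] at hnot
  have hw0 : (starRingEnd ℂ w) * w = 1 := by
    rw [mul_comm, Complex.mul_conj, Complex.normSq_eq_norm_sq, hw]; simp
  have heq : 1 - (starRingEnd ℂ w) • B =
      (starRingEnd ℂ w) • (algebraMap ℂ (Matrix (Fin n) (Fin n) ℂ) w - B) := by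
    rw [smul_sub, Algebra.algebraMap_eq_smul_one, smul_smul, hw0, one_smul]
  rw [heq, Matrix.det_smul]
  apply IsUnit.mul
  · apply IsUnit.pow
    rw [isUnit_iff_ne_zero]
    intro h; rw [h] at hw0; simp at hw0
  · exact (Matrix.isUnit_iff_isUnit_det _).1 hnot

theorem T2a2_cont {n : ℕ} (B : Matrix (Fin n) (Fin n) ℂ)
    (hs : ∀ μ ∈ spectrum ℂ B, ‖μ‖ < 1) (c b : Fin n) :
    Continuous (fun ψ : ℝ => ((1 - (starRingEnd ℂ (ee ψ)) • B)⁻¹) c b) := by
  have h1 : Continuous (fun ψ : ℝ => (1 - (starRingEnd ℂ (ee ψ)) • B)) := by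
    have : Continuous (fun ψ : ℝ => (starRingEnd ℂ (ee ψ))) :=
      Complex.continuous_conj.comp T2a2_ee_cont
    exact continuous_const.sub (this.smul continuous_const)
  have h2 : Continuous (fun ψ : ℝ => (1 - (starRingEnd ℂ (ee ψ)) • B)⁻¹) := by
    rw [continuous_iff_continuousAt]
    intro ψ
    have hu := T2a2_isUnit B hs (ee ψ) (T2a2_ee_norm ψ)
    have h3 : ContinuousAt Inv.inv (1 - (starRingEnd ℂ (ee ψ)) • B) := by
      apply continuousAt_matrix_inv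
      rw [Ring.inverse_eq_inv']
      exact continuousAt_inv₀ hu.ne_zero
    exact ContinuousAt.comp (f := fun ψ : ℝ => (1 - (starRingEnd ℂ (ee ψ)) • B)) h3 h1.continuousAt
  exact (continuous_apply b).comp ((continuous_apply c).comp h2)

theorem T2a2_neumann {n : ℕ} (B : Matrix (Fin n) (Fin n) ℂ)
    (hs : ∀ μ ∈ spectrum ℂ B, ‖μ‖ < 1) (ψ : ℝ) (N : ℕ) (a b : Fin n) :
    ((1 - (starRingEnd ℂ (ee ψ)) • B)⁻¹) a b =
      ∑ j ∈ Finset.range N, (B ^ j) a b * ee (-(j:ℝ) * ψ) +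
        ∑ c, (B ^ N) a c * (ee (-(N:ℝ) * ψ) * ((1 - (starRingEnd ℂ (ee ψ)) • B)⁻¹) c b) := by
  have hu := T2a2_isUnit B hs (ee ψ) (T2a2_ee_norm ψ)
  set X : Matrix (Fin n) (Fin n) ℂ := (starRingEnd ℂ (ee ψ)) • B with hX
  set R : Matrix (Fin n) (Fin n) ℂ := (1 - X)⁻¹ with hR
  have h1 : (1 - X) * R = 1 := Matrix.mul_nonsing_inv _ hu
  have h2 : (∑ j ∈ Finset.range N, X ^ j) * (1 - X) = 1 - X ^ N := geom_sum_mul_neg X N
  have h3 : R = (∑ j ∈ Finset.range N, X ^ j) + X ^ N * R := by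
    have : (∑ j ∈ Finset.range N, X ^ j) * ((1 - X) * R) = (1 - X ^ N) * R := by
      rw [← mul_assoc, h2]
    rw [h1, mul_one, sub_mul, one_mul] at this
    rw [this]; abel
  have hpow : ∀ j : ℕ, X ^ j = ee (-(j:ℝ) * ψ) • B ^ j := by
    intro j
    rw [hX, smul_pow, T2a2_ee_conj, T2a2_ee_pow]
    congr 2; ring
  conv_lhs => rw [h3]
  rw [Matrix.add_apply, Matrix.sum_apply, hpow N, Matrix.smul_mul, Matrix.smul_apply,
    Matrix.mul_apply, smul_eq_mul, Finset.mul_sum]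
  congr 1
  · refine Finset.sum_congr rfl fun j _ => ?_
    rw [hpow j, Matrix.smul_apply, smul_eq_mul, mul_comm]
  · refine Finset.sum_congr rfl fun c _ => ?_
    ring

theorem T2a2_L {n : ℕ} (B : Matrix (Fin n) (Fin n) ℂ)
    (hs : ∀ μ ∈ spectrum ℂ B, ‖μ‖ < 1) (m : ℤ) (a b : Fin n) :
    (2 * Real.pi : ℂ)⁻¹ * (∫ ψ in (0:ℝ)..2 * Real.pi,
        ((1 - (starRingEnd ℂ (ee ψ)) • B)⁻¹) a b * ee ((m:ℝ) * ψ)) =
      if 0 ≤ m then (B ^ m.toNat) a b else 0 := by
  set r : Fin n → ℝ → ℂ := fun c ψ => ((1 - (starRingEnd ℂ (ee ψ)) • B)⁻¹) c b with hr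
  have hrc : ∀ c, Continuous (r c) := fun c => T2a2_cont B hs c b
  have hpi : (2 * Real.pi : ℂ) ≠ 0 := by
    have := Real.pi_pos
    exact_mod_cast (by positivity : (2 * Real.pi : ℝ) ≠ 0)
  have heec : ∀ k : ℤ, Continuous (fun ψ : ℝ => ee ((k:ℝ) * ψ)) := fun k =>
    T2a2_ee_cont.comp (continuous_const.mul continuous_id)
  set T : ℂ := if 0 ≤ m then (B ^ m.toNat) a b else 0 with hT
  set E : ℕ → Fin n → ℂ := fun N c =>
    (2 * Real.pi : ℂ)⁻¹ * ∫ ψ in (0:ℝ)..2 * Real.pi, ee (((m - N : ℤ) : ℝ) * ψ) * r c ψ with hE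
  set C : Fin n → ℝ := fun c => (2 * Real.pi)⁻¹ * ∫ ψ in (0:ℝ)..2 * Real.pi, ‖r c ψ‖ with hC
  have key : ∀ N : ℕ, m < N →
      (2 * Real.pi : ℂ)⁻¹ * (∫ ψ in (0:ℝ)..2 * Real.pi, r a ψ * ee ((m:ℝ) * ψ)) =
        T + ∑ c, (B ^ N) a c * E N c := by
    intro N hN
    have hpt : ∀ ψ : ℝ, r a ψ * ee ((m:ℝ) * ψ) =
        ∑ j ∈ Finset.range N, (B ^ j) a b * ee (((m - j : ℤ) : ℝ) * ψ) +
          ∑ c, (B ^ N) a c * (ee (((m - N : ℤ) : ℝ) * ψ) * r c ψ) := by
      intro ψ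
      have h0 : r a ψ = _ := T2a2_neumann B hs ψ N a b
      rw [h0, add_mul, Finset.sum_mul, Finset.sum_mul]
      congr 1
      · refine Finset.sum_congr rfl fun j _ => ?_
        rw [mul_assoc, ← T2a2_ee_add]
        congr 2; push_cast; ring
      · refine Finset.sum_congr rfl fun c _ => ?_
        have : ee (((m - N : ℤ) : ℝ) * ψ) = ee (-(N:ℝ) * ψ) * ee ((m:ℝ) * ψ) := by
          rw [← T2a2_ee_add]; congr 1; push_cast; ring
        rw [this]; ring
    simp only [hpt]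
    rw [intervalIntegral.integral_add, intervalIntegral.integral_finsetSum,
      intervalIntegral.integral_finsetSum, mul_add]
    · congr 1
      · simp only [intervalIntegral.integral_const_mul, T2a2_orth]
        rw [Finset.mul_sum, hT]
        by_cases hm : 0 ≤ m
        · rw [if_pos hm]
          have hmem : m.toNat ∈ Finset.range N := by
            rw [Finset.mem_range]; omega
          rw [Finset.sum_eq_single_of_mem m.toNat hmem]
          · have : m - (m.toNat : ℤ) = 0 := by omega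
            rw [if_pos this]
            field_simp
          · intro j _ hj
            have : m - (j : ℤ) ≠ 0 := by omega
            rw [if_neg this]; simp
        · rw [if_neg hm]
          apply Finset.sum_eq_zero
          intro j _
          have : m - (j : ℤ) ≠ 0 := by omega
          rw [if_neg this]; simp
      · simp only [intervalIntegral.integral_const_mul, hE]
        rw [Finset.mul_sum]
        refine Finset.sum_congr rfl fun c _ => ?_
        ring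
    · intro c _
      exact (continuous_const.mul ((heec _).mul (hrc c))).intervalIntegrable _ _
    · intro j _
      exact (continuous_const.mul (heec _)).intervalIntegrable _ _
    · exact (continuous_finsetSum _ fun j _ =>
        continuous_const.mul (heec _)).intervalIntegrable _ _
    · exact (continuous_finsetSum _ fun c _ =>
        continuous_const.mul ((heec _).mul (hrc c))).intervalIntegrable _ _
  have hEb : ∀ N c, ‖E N c‖ ≤ C c := by
    intro N c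
    simp only [hE, hC]
    rw [norm_mul]
    have h1 : ‖(2 * Real.pi : ℂ)⁻¹‖ = (2 * Real.pi)⁻¹ := by
      rw [norm_inv]
      congr 1
      have : (2 * Real.pi : ℂ) = ((2 * Real.pi : ℝ) : ℂ) := by push_cast; ring
      rw [this, Complex.norm_real, Real.norm_eq_abs, abs_of_pos (by positivity)]
    rw [h1]
    apply mul_le_mul_of_nonneg_left _ (by positivity)
    refine (intervalIntegral.norm_integral_le_integral_norm (by positivity)).trans (le_of_eq ?_)
    congr 1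
    funext ψ
    rw [norm_mul, T2a2_ee_norm, one_mul]
  have hlim : Tendsto (fun N : ℕ => ∑ c, ‖(B ^ N) a c‖ * C c) atTop (𝓝 0) := by
    have : Tendsto (fun N : ℕ => ∑ c, ‖(B ^ N) a c‖ * C c) atTop (𝓝 (∑ c : Fin n, 0 * C c)) := by
      apply tendsto_finsetSum
      intro c _
      apply Tendsto.mul_const
      simpa using (T2a2_pow_tendsto B hs a c).norm
    simpa using this
  have hfin : ‖(2 * Real.pi : ℂ)⁻¹ * (∫ ψ in (0:ℝ)..2 * Real.pi, r a ψ * ee ((m:ℝ) * ψ)) - T‖ ≤ 0 := by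
    refine ge_of_tendsto hlim ?_
    filter_upwards [eventually_gt_atTop m.toNat] with N hN
    have hmN : m < N := by omega
    rw [key N hmN, add_sub_cancel_left]
    refine (norm_sum_le _ _).trans (Finset.sum_le_sum fun c _ => ?_)
    rw [norm_mul]
    exact mul_le_mul_of_nonneg_left (hEb N c) (norm_nonneg _)
  exact sub_eq_zero.1 (norm_le_zero_iff.1 hfin)

theorem T2a2_conj_int (F : ℝ → ℂ) :
    ∫ ψ in (0:ℝ)..2 * Real.pi, (starRingEnd ℂ) (F ψ) =
      (starRingEnd ℂ) (∫ ψ in (0:ℝ)..2 * Real.pi, F ψ) := by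
  have h : (0:ℝ) ≤ 2 * Real.pi := by have := Real.pi_pos; positivity
  rw [intervalIntegral.integral_of_le h, intervalIntegral.integral_of_le h, integral_conj]

theorem T2a_moment {n : ℕ} (B : Matrix (Fin n) (Fin n) ℂ)
    (hB : (1 - B.conjTranspose * B).PosSemidef) (hs : ∀ μ ∈ spectrum ℂ B, ‖μ‖ < 1)
    (k : ℕ) (a b : Fin n) :
    (2 * Real.pi : ℂ)⁻¹ * (∫ ψ in (0 : ℝ)..2 * Real.pi, Pk B (ee ψ) a b * (ee ψ) ^ k) =
      (B ^ k) a b := by
  have hpi : (2 * Real.pi : ℂ) ≠ 0 := by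
    have := Real.pi_pos
    exact_mod_cast (by positivity : (2 * Real.pi : ℝ) ≠ 0)
  have heec : ∀ j : ℤ, Continuous (fun ψ : ℝ => ee ((j:ℝ) * ψ)) := fun j =>
    T2a2_ee_cont.comp (continuous_const.mul continuous_id)
  have hpt : ∀ ψ : ℝ, Pk B (ee ψ) a b * (ee ψ) ^ k =
      ((1 - (starRingEnd ℂ (ee ψ)) • B)⁻¹) a b * ee ((((k:ℤ)):ℝ) * ψ) +
      (starRingEnd ℂ) (((1 - (starRingEnd ℂ (ee ψ)) • B)⁻¹) b a * ee (((-(k:ℤ) : ℤ):ℝ) * ψ)) -
      (1 : Matrix (Fin n) (Fin n) ℂ) a b * ee ((((k:ℤ)):ℝ) * ψ) := by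
    intro ψ
    unfold Pk
    rw [Matrix.sub_apply, Matrix.add_apply, Matrix.conjTranspose_apply, T2a2_ee_pow, map_mul,
      T2a2_ee_conj (((-(k:ℤ) : ℤ):ℝ) * ψ)]
    have e1 : ee (-(((-(k:ℤ) : ℤ):ℝ) * ψ)) = ee ((k:ℝ) * ψ) := by
      congr 1; push_cast; ring
    have e2 : ee ((((k:ℤ)):ℝ) * ψ) = ee ((k:ℝ) * ψ) := by
      simp
    rw [e1, e2, ← starRingEnd_apply]
    ring
  simp only [hpt]
  have c1 : Continuous (fun ψ : ℝ =>
      ((1 - (starRingEnd ℂ (ee ψ)) • B)⁻¹) a b * ee ((((k:ℤ)):ℝ) * ψ)) :=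
    (T2a2_cont B hs a b).mul (heec _)
  have c2 : Continuous (fun ψ : ℝ =>
      ((1 - (starRingEnd ℂ (ee ψ)) • B)⁻¹) b a * ee (((-(k:ℤ) : ℤ):ℝ) * ψ)) :=
    (T2a2_cont B hs b a).mul (heec _)
  have c2' : Continuous (fun ψ : ℝ => (starRingEnd ℂ)
      (((1 - (starRingEnd ℂ (ee ψ)) • B)⁻¹) b a * ee (((-(k:ℤ) : ℤ):ℝ) * ψ))) :=
    Complex.continuous_conj.comp c2
  have c3 : Continuous (fun ψ : ℝ =>
      (1 : Matrix (Fin n) (Fin n) ℂ) a b * ee ((((k:ℤ)):ℝ) * ψ)) :=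
    continuous_const.mul (heec _)
  have c12 : Continuous (fun ψ : ℝ =>
      ((1 - (starRingEnd ℂ (ee ψ)) • B)⁻¹) a b * ee ((((k:ℤ)):ℝ) * ψ) + (starRingEnd ℂ)
      (((1 - (starRingEnd ℂ (ee ψ)) • B)⁻¹) b a * ee (((-(k:ℤ) : ℤ):ℝ) * ψ))) := c1.add c2'
  rw [intervalIntegral.integral_sub (c12.intervalIntegrable _ _)
      (c3.intervalIntegrable _ _),
    intervalIntegral.integral_add (c1.intervalIntegrable _ _) (c2'.intervalIntegrable _ _),
    T2a2_conj_int, intervalIntegral.integral_const_mul, T2a2_orth, mul_sub, mul_add,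
    T2a2_L B hs (k:ℤ) a b]
  have hconj : (2 * Real.pi : ℂ)⁻¹ * (starRingEnd ℂ) (∫ ψ in (0:ℝ)..2 * Real.pi,
      ((1 - (starRingEnd ℂ (ee ψ)) • B)⁻¹) b a * ee (((-(k:ℤ) : ℤ):ℝ) * ψ)) =
      (starRingEnd ℂ) ((2 * Real.pi : ℂ)⁻¹ * ∫ ψ in (0:ℝ)..2 * Real.pi,
      ((1 - (starRingEnd ℂ (ee ψ)) • B)⁻¹) b a * ee (((-(k:ℤ) : ℤ):ℝ) * ψ)) := by
    have h2 : (starRingEnd ℂ) (2 : ℂ) = 2 := Complex.conj_ofNat 2
    rw [map_mul, map_inv₀, map_mul, Complex.conj_ofReal, h2]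
  rw [hconj, T2a2_L B hs (-(k:ℤ)) b a]
  rw [if_pos (by positivity : (0:ℤ) ≤ (k:ℤ)), Int.toNat_natCast]
  by_cases hk : k = 0
  · subst hk
    simp only [Nat.cast_zero, neg_zero, le_refl, if_true, Int.toNat_zero, pow_zero]
    rw [Matrix.one_apply, Matrix.one_apply]
    by_cases hab : a = b
    · subst hab
      simp only [if_true, map_one, one_mul]
      rw [inv_mul_cancel₀ hpi]; ring
    · have hba : ¬ b = a := fun h => hab h.symm
      simp [hab, hba]
  · have h1 : ¬ (0:ℤ) ≤ -(k:ℤ) := by omega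
    have h2 : ¬ (k:ℤ) = 0 := by omega
    rw [if_neg h1, if_neg h2]
    simp

/-! ### Chunk T2b : `v ∘ f⁻¹` is a uniformly convergent power series on the closed disc -/

/-- an injective function is not constant on a ball -/
theorem T2b_not_const {U : Set ℂ} {f : ℂ → ℂ} (hinj : Set.InjOn f U) {z0 : ℂ} {ε : ℝ} (hε : 0 < ε)
    (hball : Metric.ball z0 ε ⊆ U) (hc : ∀ x ∈ Metric.ball z0 ε, ∀ y ∈ Metric.ball z0 ε, f x = f y) :
    False := by
  have h1 : z0 ∈ Metric.ball z0 ε := Metric.mem_ball_self hε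
  have h2 : z0 + ((ε / 2 : ℝ) : ℂ) ∈ Metric.ball z0 ε := by
    rw [Metric.mem_ball, dist_eq_norm, add_sub_cancel_left, Complex.norm_real, Real.norm_eq_abs,
      abs_of_pos (by positivity)]
    linarith
  have h3 := hinj (hball h1) (hball h2) (hc _ h1 _ h2)
  have h4 : ((ε / 2 : ℝ) : ℂ) = 0 := by
    have := h3.symm
    simpa using this
  have h5 : (ε / 2 : ℝ) = 0 := by exact_mod_cast h4
  linarith

/-- open mapping for injective holomorphic maps -/
theorem T2b_isOpen_image {U : Set ℂ} {f : ℂ → ℂ} (hf : DifferentiableOn ℂ f U)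
    (hinj : Set.InjOn f U) {W : Set ℂ} (hW : IsOpen W) (hWU : W ⊆ U) : IsOpen (f '' W) := by
  rw [isOpen_iff_mem_nhds]
  rintro _ ⟨z0, hz0, rfl⟩
  obtain ⟨ε, hε, hball⟩ := Metric.isOpen_iff.1 hW z0 hz0
  have han : AnalyticOnNhd ℂ f (Metric.ball z0 ε) :=
    (hf.mono (hball.trans hWU)).analyticOnNhd Metric.isOpen_ball
  rcases han.is_constant_or_isOpen (convex_ball z0 ε).isPreconnected with ⟨w, hw⟩ | hopen
  · exact (T2b_not_const hinj hε (hball.trans hWU)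
      (fun x hx y hy => (hw x hx).trans (hw y hy).symm)).elim
  · have := hopen (Metric.ball z0 ε) subset_rfl Metric.isOpen_ball
    exact Filter.mem_of_superset (this.mem_nhds ⟨z0, Metric.mem_ball_self hε, rfl⟩)
      (Set.image_mono hball)

/-- continuity of a left inverse -/
theorem T2b_continuousAt {U : Set ℂ} (hU : IsOpen U) {f g : ℂ → ℂ} (hf : DifferentiableOn ℂ f U)
    (hinj : Set.InjOn f U) (hg : ∀ z ∈ U, g (f z) = z) {z0 : ℂ} (hz0 : z0 ∈ U) :
    ContinuousAt g (f z0) := by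
  unfold ContinuousAt
  rw [hg z0 hz0]
  intro s hs
  obtain ⟨W, hWs, hWo, hzW⟩ := mem_nhds_iff.1 (Filter.inter_mem hs (hU.mem_nhds hz0))
  have hop := T2b_isOpen_image hf hinj hWo (hWs.trans Set.inter_subset_right)
  rw [Filter.mem_map]
  refine Filter.mem_of_superset (hop.mem_nhds ⟨z0, hzW, rfl⟩) ?_
  rintro _ ⟨z, hz, rfl⟩
  show g (f z) ∈ s
  rw [hg z (hWs hz).2]
  exact (hWs hz).1

/-- differentiability of the inverse where `f' ≠ 0` -/
theorem T2b_diffAt_of_ne {U : Set ℂ} (hU : IsOpen U) {f g : ℂ → ℂ} (hf : DifferentiableOn ℂ f U)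
    (hinj : Set.InjOn f U) (hg : ∀ z ∈ U, g (f z) = z) {z0 : ℂ} (hz0 : z0 ∈ U)
    (hd : deriv f z0 ≠ 0) : DifferentiableAt ℂ g (f z0) := by
  have h1 : HasDerivAt f (deriv f z0) (g (f z0)) := by
    rw [hg z0 hz0]
    exact (hf.differentiableAt (hU.mem_nhds hz0)).hasDerivAt
  have hop := T2b_isOpen_image hf hinj hU subset_rfl
  have h2 : ∀ᶠ y in 𝓝 (f z0), f (g y) = y := by
    refine Filter.mem_of_superset (hop.mem_nhds ⟨z0, hz0, rfl⟩) ?_
    rintro _ ⟨z, hz, rfl⟩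
    show f (g (f z)) = f z
    rw [hg z hz]
  exact (HasDerivAt.of_local_left_inverse (T2b_continuousAt hU hf hinj hg hz0) h1 hd h2).differentiableAt

/-- the derivative of an injective holomorphic map vanishes only at isolated points -/
theorem T2b_deriv_ne {U : Set ℂ} (hU : IsOpen U) {f : ℂ → ℂ} (hf : DifferentiableOn ℂ f U)
    (hinj : Set.InjOn f U) {z0 : ℂ} (hz0 : z0 ∈ U) : ∀ᶠ z in 𝓝[≠] z0, deriv f z ≠ 0 := by
  have han : AnalyticAt ℂ f z0 := hf.analyticAt (hU.mem_nhds hz0)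
  rcases han.deriv.eventually_eq_zero_or_eventually_ne_zero with h | h
  · exfalso
    obtain ⟨ε, hε, hball⟩ := Metric.mem_nhds_iff.1 (Filter.inter_mem h (hU.mem_nhds hz0))
    refine T2b_not_const hinj hε (hball.trans Set.inter_subset_right) fun x hx y hy => ?_
    exact Metric.isOpen_ball.is_const_of_deriv_eq_zero (convex_ball z0 ε).isPreconnected
      (hf.mono (hball.trans Set.inter_subset_right)) (fun w hw => (hball hw).1) hx hy
  · exact h

/-- the inverse of an injective holomorphic map is holomorphic -/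
theorem T2b_analyticAt {U : Set ℂ} (hU : IsOpen U) {f g : ℂ → ℂ} (hf : DifferentiableOn ℂ f U)
    (hinj : Set.InjOn f U) (hg : ∀ z ∈ U, g (f z) = z) {z0 : ℂ} (hz0 : z0 ∈ U) :
    AnalyticAt ℂ g (f z0) := by
  have hc := T2b_continuousAt hU hf hinj hg hz0
  refine Complex.analyticAt_of_differentiable_on_punctured_nhds_of_continuousAt ?_ hc
  have hop := T2b_isOpen_image hf hinj hU subset_rfl
  have hmem : ∀ᶠ y in 𝓝[≠] (f z0), y ∈ f '' U :=
    nhdsWithin_le_nhds (hop.mem_nhds ⟨z0, hz0, rfl⟩)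
  have ht : Tendsto g (𝓝[≠] (f z0)) (𝓝[≠] z0) := by
    rw [tendsto_nhdsWithin_iff]
    constructor
    · have := hc.tendsto
      rw [hg z0 hz0] at this
      exact this.mono_left nhdsWithin_le_nhds
    · filter_upwards [hmem, self_mem_nhdsWithin] with y hy hy'
      obtain ⟨z, hz, rfl⟩ := hy
      rw [hg z hz]
      intro hzz
      exact hy' (by rw [Set.mem_singleton_iff.1 hzz]; rfl)
  filter_upwards [hmem, ht.eventually (T2b_deriv_ne hU hf hinj hz0)] with y hy hy'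
  obtain ⟨z, hz, rfl⟩ := hy
  rw [hg z hz] at hy'
  exact T2b_diffAt_of_ne hU hf hinj hg hz hy'

/-- MAIN: holomorphic inverse of an injective holomorphic map on an open set -/
theorem T2b_main {U : Set ℂ} (hU : IsOpen U) {f : ℂ → ℂ} (hf : DifferentiableOn ℂ f U)
    (hinj : Set.InjOn f U) :
    IsOpen (f '' U) ∧ (∀ W, IsOpen W → W ⊆ U → IsOpen (f '' W)) ∧
      ∃ g : ℂ → ℂ, DifferentiableOn ℂ g (f '' U) ∧ (∀ z ∈ U, g (f z) = z) ∧
        (∀ w ∈ f '' U, g w ∈ U ∧ f (g w) = w) := by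
  refine ⟨T2b_isOpen_image hf hinj hU subset_rfl, fun W hW hWU => T2b_isOpen_image hf hinj hW hWU,
    Function.invFunOn f U, ?_, ?_, ?_⟩
  · rintro _ ⟨z, hz, rfl⟩
    exact (T2b_analyticAt hU hf hinj (fun z hz => hinj.leftInvOn_invFunOn hz)
      hz).differentiableAt.differentiableWithinAt
  · exact fun z hz => hinj.leftInvOn_invFunOn hz
  · rintro _ ⟨z, hz, rfl⟩
    rw [hinj.leftInvOn_invFunOn hz]
    exact ⟨hz, rfl⟩

theorem T2b_taylor
    (Ω U : Set ℂ) (hΩ₁ : IsOpen Ω) (hΩ₂ : Bornology.IsBounded Ω)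
    (hU : IsOpen U) (hΩU : closure Ω ⊆ U)
    (f : ℂ → ℂ) (hf₁ : DifferentiableOn ℂ f U) (hf₂ : Set.InjOn f U)
    (hf₃ : f '' Ω = Metric.ball 0 1)
    (V : Set ℂ) (hV : IsOpen V) (hΩV : closure Ω ⊆ V) (v : ℂ → ℂ) (hv : DifferentiableOn ℂ v V) :
    ∃ (c : ℕ → ℂ) (g : ℂ → ℂ), (∀ z ∈ closure Ω, g (f z) = v z) ∧
      TendstoUniformlyOn (fun (N : ℕ) (w : ℂ) => ∑ k ∈ Finset.range N, c k * w ^ k) g atTop
        (Metric.closedBall 0 1) := by
  have hWo : IsOpen (U ∩ V) := hU.inter hV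
  have hΩW : closure Ω ⊆ U ∩ V := Set.subset_inter hΩU hΩV
  have hfW : DifferentiableOn ℂ f (U ∩ V) := hf₁.mono Set.inter_subset_left
  have hinjW : Set.InjOn f (U ∩ V) := hf₂.mono Set.inter_subset_left
  obtain ⟨hOo, -, κ, hκd, hκl, hκr⟩ := T2b_main hWo hfW hinjW
  -- the closed disc lies in the image
  have hcomp : IsCompact (closure Ω) := hΩ₂.isCompact_closure
  have hcl : IsClosed (f '' closure Ω) :=
    (hcomp.image_of_continuousOn (hf₁.continuousOn.mono hΩU)).isClosed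
  have hdisc : Metric.closedBall (0 : ℂ) 1 ⊆ f '' (U ∩ V) := by
    have h1 : Metric.ball (0 : ℂ) 1 ⊆ f '' closure Ω := by
      rw [← hf₃]
      exact Set.image_mono subset_closure
    have h2 : closure (Metric.ball (0 : ℂ) 1) ⊆ f '' closure Ω := hcl.closure_subset_iff.2 h1
    rw [closure_ball (0 : ℂ) one_ne_zero] at h2
    exact h2.trans (Set.image_mono hΩW)
  obtain ⟨δ, hδ, hδs⟩ := (isCompact_closedBall (0 : ℂ) 1).exists_cthickening_subset_open hOo hdisc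
  rw [cthickening_closedBall hδ.le zero_le_one] at hδs
  -- the function
  have hgd : DifferentiableOn ℂ (fun w => v (κ w)) (f '' (U ∩ V)) :=
    hv.comp hκd (fun w hw => (hκr w hw).1.2)
  obtain ⟨R, hRdef⟩ : ∃ R : NNReal, (R : ℝ) = δ + 1 := ⟨⟨δ + 1, by positivity⟩, rfl⟩
  obtain ⟨r', hr'def⟩ : ∃ r' : NNReal, (r' : ℝ) = δ / 2 + 1 := ⟨⟨δ / 2 + 1, by positivity⟩, rfl⟩
  have hRpos : 0 < R := NNReal.coe_pos.1 (by rw [hRdef]; positivity)
  have hps := (hgd.mono (by rw [hRdef]; exact hδs) : DifferentiableOn ℂ (fun w => v (κ w))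
    (Metric.closedBall 0 (R : ℝ))).hasFPowerSeriesOnBall hRpos
  have hlt : (r' : ENNReal) < (R : ENNReal) := by
    rw [ENNReal.coe_lt_coe, ← NNReal.coe_lt_coe, hRdef, hr'def]
    linarith
  have hun := hps.tendstoUniformlyOn hlt
  refine ⟨fun k => (cauchyPowerSeries (fun w => v (κ w)) 0 R).coeff k, fun w => v (κ w),
    fun z hz => by show v (κ (f z)) = v z; rw [hκl z (hΩW hz)], ?_⟩
  have hmono : Metric.closedBall (0 : ℂ) 1 ⊆ Metric.ball (0 : ℂ) (r' : ℝ) := by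
    intro w hw
    rw [Metric.mem_closedBall] at hw
    rw [Metric.mem_ball, hr'def]
    linarith
  refine (hun.mono hmono).congr_right (fun w _ => by simp) |>.congr ?_
  refine Filter.Eventually.of_forall fun N w _ => ?_
  simp only [FormalMultilinearSeries.partialSum, FormalMultilinearSeries.apply_eq_pow_smul_coeff,
    smul_eq_mul]
  exact Finset.sum_congr rfl fun k _ => mul_comm _ _

/-! ### Chunk T2c : continuity of the holomorphic functional calculus (through jets) -/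

theorem T2c_iter (P : Polynomial ℂ) (j : ℕ) :
    iteratedDeriv j (fun z => P.eval z) = fun z => ((Polynomial.derivative)^[j] P).eval z := by
  induction j generalizing P with
  | zero => simp
  | succ j ih =>
    rw [iteratedDeriv_succ']
    have h1 : deriv (fun z => P.eval z) = fun z => (Polynomial.derivative P).eval z := by
      funext z; exact Polynomial.deriv P
    rw [h1, ih]
    simp [Function.iterate_succ]

theorem T2c_D1 {n : ℕ} (A' : Matrix (Fin n) (Fin n) ℂ) (P : Polynomial ℂ)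
    (h : ∀ μ ∈ spectrum ℂ A', ∀ j < n, ((Polynomial.derivative)^[j] P).eval μ = 0) :
    Polynomial.aeval A' P = 0 := by
  by_cases hP : P = 0
  · simp [hP]
  have hdvd : A'.charpoly ∣ P := by
    apply Polynomial.Splits.dvd_of_roots_le_roots (IsAlgClosed.splits _)
      (A'.charpoly_monic.ne_zero)
    rw [Multiset.le_iff_count]
    intro μ
    rw [Polynomial.count_roots, Polynomial.count_roots]
    by_cases hμ : A'.charpoly.IsRoot μ
    · have hs : μ ∈ spectrum ℂ A' := Matrix.mem_spectrum_iff_isRoot_charpoly.mpr hμ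
      have h1 : A'.charpoly.rootMultiplicity μ ≤ n := by
        calc A'.charpoly.rootMultiplicity μ = A'.charpoly.roots.count μ :=
              (Polynomial.count_roots _).symm
          _ ≤ Multiset.card A'.charpoly.roots := Multiset.count_le_card _ _
          _ ≤ A'.charpoly.natDegree := Polynomial.card_roots' _
          _ = n := by simp [Matrix.charpoly_natDegree_eq_dim]
      have h2 : n ≤ P.rootMultiplicity μ := by
        rcases Nat.eq_zero_or_pos n with h0 | h0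
        · omega
        have h3 := (Polynomial.lt_rootMultiplicity_iff_isRoot_iterate_derivative
          (n := n - 1) (t := μ) hP).mpr (fun m hm => h μ hs m (by omega))
        omega
      omega
    · rw [Polynomial.rootMultiplicity_eq_zero hμ]; omega
  obtain ⟨Q, rfl⟩ := hdvd
  rw [map_mul, Matrix.aeval_self_charpoly, zero_mul]

theorem T2c_mul {n : ℕ} {μ : ℂ} {f₁ f₂ g₁ g₂ : ℂ → ℂ} (hf₁ : AnalyticAt ℂ f₁ μ)
    (hf₂ : AnalyticAt ℂ f₂ μ) (hg₁ : AnalyticAt ℂ g₁ μ) (hg₂ : AnalyticAt ℂ g₂ μ)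
    (h1 : ∀ j < n, iteratedDeriv j f₁ μ = iteratedDeriv j g₁ μ)
    (h2 : ∀ j < n, iteratedDeriv j f₂ μ = iteratedDeriv j g₂ μ) :
    ∀ j < n, iteratedDeriv j (fun z => f₁ z * f₂ z) μ
      = iteratedDeriv j (fun z => g₁ z * g₂ z) μ := by
  intro j hj
  rw [iteratedDeriv_fun_mul hf₁.contDiffAt hf₂.contDiffAt,
    iteratedDeriv_fun_mul hg₁.contDiffAt hg₂.contDiffAt]
  apply Finset.sum_congr rfl
  intro i hi
  have hi' := Finset.mem_range.mp hi
  rw [h1 i (by omega), h2 (j - i) (by omega)]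

theorem T2c_pow {n : ℕ} {μ : ℂ} {f g : ℂ → ℂ} (hf : AnalyticAt ℂ f μ) (hg : AnalyticAt ℂ g μ)
    (h1 : ∀ j < n, iteratedDeriv j f μ = iteratedDeriv j g μ) (k : ℕ) :
    ∀ j < n, iteratedDeriv j (fun z => f z ^ k) μ = iteratedDeriv j (fun z => g z ^ k) μ := by
  induction k with
  | zero => intro j _; simp
  | succ k ih =>
    simp only [pow_succ]
    exact T2c_mul (hf.fun_pow k) hf (hg.fun_pow k) hg ih h1

theorem T2c_sum {n : ℕ} {μ : ℂ} {f g : ℂ → ℂ} (hf : AnalyticAt ℂ f μ) (hg : AnalyticAt ℂ g μ)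
    (h1 : ∀ j < n, iteratedDeriv j f μ = iteratedDeriv j g μ) (c : ℕ → ℂ) (N : ℕ) :
    ∀ j < n, iteratedDeriv j (fun z => ∑ k ∈ Finset.range N, c k * f z ^ k) μ
      = iteratedDeriv j (fun z => ∑ k ∈ Finset.range N, c k * g z ^ k) μ := by
  intro j hj
  rw [iteratedDeriv_fun_sum (f := fun k z => c k * f z ^ k)
      (fun k _ => (analyticAt_const.fun_mul (hf.fun_pow k)).contDiffAt),
    iteratedDeriv_fun_sum (f := fun k z => c k * g z ^ k)
      (fun k _ => (analyticAt_const.fun_mul (hg.fun_pow k)).contDiffAt)]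
  apply Finset.sum_congr rfl
  intro k _
  rw [iteratedDeriv_const_mul_field, iteratedDeriv_const_mul_field, T2c_pow hf hg h1 k j hj]

theorem T2c_D4 {Ω : Set ℂ} (hΩ : IsOpen Ω) (F : ℕ → ℂ → ℂ) (v : ℂ → ℂ)
    (hF : ∀ N, DifferentiableOn ℂ (F N) Ω) (hlim : TendstoLocallyUniformlyOn F v atTop Ω)
    (j : ℕ) :
    TendstoLocallyUniformlyOn (fun N => iteratedDeriv j (F N)) (iteratedDeriv j v) atTop Ω ∧
      ∀ N, DifferentiableOn ℂ (iteratedDeriv j (F N)) Ω := by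
  induction j with
  | zero => simpa [iteratedDeriv_zero] using ⟨hlim, hF⟩
  | succ j ih =>
    constructor
    · have h1 := ih.1.deriv (Eventually.of_forall ih.2) hΩ
      simpa [iteratedDeriv_succ, Function.comp_def] using h1
    · intro N
      rw [iteratedDeriv_succ]
      exact (ih.2 N).deriv hΩ

theorem T2c_limit {n : ℕ} (A' : Matrix (Fin n) (Fin n) ℂ) (Ω : Set ℂ) (hΩ₁ : IsOpen Ω)
    (hspec : ∀ μ ∈ spectrum ℂ A', μ ∈ Ω) (f v : ℂ → ℂ)
    (hf : DifferentiableOn ℂ f Ω) (hv : DifferentiableOn ℂ v Ω)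
    (p q : Polynomial ℂ) (hp : AgreesOnSpectrum A' f p) (hq : AgreesOnSpectrum A' v q)
    (c : ℕ → ℂ)
    (hlim : TendstoUniformlyOn (fun (N : ℕ) (z : ℂ) => ∑ k ∈ Finset.range N, c k * (f z) ^ k) v
      atTop Ω) (a b : Fin n) :
    Tendsto (fun N : ℕ => ∑ k ∈ Finset.range N, c k * ((Polynomial.aeval A' p) ^ k) a b) atTop
      (𝓝 (Polynomial.aeval A' q a b)) := by
  classical
  let J : Polynomial ℂ →ₗ[ℂ] ((A'.charpoly.roots.toFinset × Fin n) → ℂ) :=
    LinearMap.pi fun i => (Polynomial.leval (i.1 : ℂ)).comp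
      ((Polynomial.derivative : Polynomial ℂ →ₗ[ℂ] Polynomial ℂ) ^ (i.2 : ℕ))
  have hJ : ∀ (P : Polynomial ℂ) (i : A'.charpoly.roots.toFinset × Fin n),
      J P i = ((Polynomial.derivative)^[(i.2 : ℕ)] P).eval (i.1 : ℂ) := by
    intro P i
    simp [J, Module.End.pow_apply, Polynomial.leval]
  let L : Polynomial ℂ →ₗ[ℂ] ℂ :=
    (Matrix.entryLinearMap ℂ ℂ a b).comp (Polynomial.aeval A').toLinearMap
  have hL : ∀ P : Polynomial ℂ, L P = Polynomial.aeval A' P a b := fun P => rfl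
  have hroot : ∀ μ : ℂ, μ ∈ spectrum ℂ A' ↔ μ ∈ A'.charpoly.roots.toFinset := by
    intro μ
    rw [Matrix.mem_spectrum_iff_isRoot_charpoly, Multiset.mem_toFinset,
      Polynomial.mem_roots (A'.charpoly_monic.ne_zero)]
  have hmem : L ∈ LinearMap.range J.dualMap := by
    rw [LinearMap.range_dualMap_eq_dualAnnihilator_ker, Submodule.mem_dualAnnihilator]
    intro P hP
    rw [LinearMap.mem_ker] at hP
    rw [hL, T2c_D1 A' P]
    · rfl
    · intro μ hμ j hj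
      have h1 := congrFun hP (⟨μ, (hroot μ).mp hμ⟩, ⟨j, hj⟩)
      rw [hJ] at h1
      simpa using h1
  obtain ⟨Ψ, hΨ⟩ := hmem
  have hΨ' : ∀ P : Polynomial ℂ, Polynomial.aeval A' P a b = Ψ (J P) := by
    intro P
    rw [← hL, ← hΨ]
    rfl
  have hcont : Continuous Ψ := LinearMap.continuous_of_finiteDimensional Ψ
  have hPN : ∀ N : ℕ, ∑ k ∈ Finset.range N, c k * ((Polynomial.aeval A' p) ^ k) a b
      = Ψ (J (∑ k ∈ Finset.range N, Polynomial.C (c k) * p ^ k)) := by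
    intro N
    rw [← hΨ', map_sum, Matrix.sum_apply]
    apply Finset.sum_congr rfl
    intro k _
    rw [map_mul, map_pow, Polynomial.aeval_C, Algebra.algebraMap_eq_smul_one, smul_mul_assoc,
      one_mul, Matrix.smul_apply, smul_eq_mul]
  simp only [hPN]
  rw [hΨ']
  apply (hcont.tendsto _).comp
  rw [tendsto_pi_nhds]
  intro i
  have hμ : (i.1 : ℂ) ∈ spectrum ℂ A' := (hroot _).mpr i.1.2
  have hμΩ : (i.1 : ℂ) ∈ Ω := hspec _ hμ
  have hfa : AnalyticAt ℂ f (i.1 : ℂ) := hf.analyticAt (hΩ₁.mem_nhds hμΩ)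
  have hpa : AnalyticAt ℂ (fun z => p.eval z) (i.1 : ℂ) :=
    (Polynomial.differentiable p).analyticAt _
  have hD4 := (T2c_D4 hΩ₁ (fun (N : ℕ) (z : ℂ) => ∑ k ∈ Finset.range N, c k * (f z) ^ k) v
    (fun N => DifferentiableOn.fun_sum fun k _ => (hf.pow k).const_mul (c k))
    hlim.tendstoLocallyUniformlyOn (i.2 : ℕ)).1.tendsto_at hμΩ
  have h2 : ∀ N : ℕ, J (∑ k ∈ Finset.range N, Polynomial.C (c k) * p ^ k) i
      = iteratedDeriv (i.2 : ℕ) (fun z => ∑ k ∈ Finset.range N, c k * (f z) ^ k) (i.1 : ℂ) := by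
    intro N
    rw [hJ, ← T2c_sum hpa hfa (fun j hj => hp _ hμ j hj) c N _ i.2.2]
    have h3 := congrFun (T2c_iter (∑ k ∈ Finset.range N, Polynomial.C (c k) * p ^ k) (i.2 : ℕ))
      (i.1 : ℂ)
    rw [← h3]
    congr 1
    funext z
    simp [Polynomial.eval_finsetSum]
  simp only [h2]
  rw [hJ, ← congrFun (T2c_iter q (i.2 : ℕ)) (i.1 : ℂ), hq _ hμ _ i.2.2]
  exact hD4

/-! ### Chunk T2d : limit under the integral -/

theorem T2d_ee_mem (ψ : ℝ) : ee ψ ∈ Metric.sphere (0 : ℂ) 1 := by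
  simp [ee, Complex.norm_exp_ofReal_mul_I]

theorem T2d_ee_cont : Continuous ee := by
  unfold ee; fun_prop

theorem T2d_integral_limit (K : ℂ → ℂ) (hK : ContinuousOn K (Metric.sphere 0 1))
    (c : ℕ → ℂ) (g : ℂ → ℂ)
    (hlim : TendstoUniformlyOn (fun (N : ℕ) (w : ℂ) => ∑ k ∈ Finset.range N, c k * w ^ k) g atTop
        (Metric.closedBall 0 1)) :
    Tendsto (fun N : ℕ => ∑ k ∈ Finset.range N, c k *
        ((2 * Real.pi : ℂ)⁻¹ * (∫ ψ in (0 : ℝ)..2 * Real.pi, K (ee ψ) * (ee ψ) ^ k))) atTop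
      (𝓝 ((2 * Real.pi : ℂ)⁻¹ * (∫ ψ in (0 : ℝ)..2 * Real.pi, K (ee ψ) * g (ee ψ)))) := by
  have hee : ∀ ψ, ee ψ ∈ Metric.sphere (0 : ℂ) 1 := T2d_ee_mem
  have hee' : ∀ ψ, ee ψ ∈ Metric.closedBall (0 : ℂ) 1 :=
    fun ψ => Metric.sphere_subset_closedBall (hee ψ)
  have hKc : Continuous (fun ψ : ℝ => K (ee ψ)) := hK.comp_continuous T2d_ee_cont hee
  have hgc : ContinuousOn g (Metric.closedBall 0 1) := by
    apply hlim.continuousOn
    exact Filter.Frequently.of_forall (fun N => by fun_prop)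
  have hgc' : Continuous (fun ψ : ℝ => g (ee ψ)) := hgc.comp_continuous T2d_ee_cont hee'
  have hSc : ∀ N : ℕ, Continuous (fun ψ : ℝ => ∑ k ∈ Finset.range N, c k * (ee ψ) ^ k) := by
    intro N
    exact continuous_finsetSum _ (fun k _ => continuous_const.mul (T2d_ee_cont.pow k))
  have hsum : ∀ N : ℕ, ∑ k ∈ Finset.range N, c k * ((2 * Real.pi : ℂ)⁻¹ *
        (∫ ψ in (0 : ℝ)..2 * Real.pi, K (ee ψ) * (ee ψ) ^ k)) =
      (2 * Real.pi : ℂ)⁻¹ * ∫ ψ in (0 : ℝ)..2 * Real.pi,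
        K (ee ψ) * ∑ k ∈ Finset.range N, c k * (ee ψ) ^ k := by
    intro N
    have h1 : ∀ ψ : ℝ, K (ee ψ) * ∑ k ∈ Finset.range N, c k * (ee ψ) ^ k =
        ∑ k ∈ Finset.range N, c k * (K (ee ψ) * (ee ψ) ^ k) := by
      intro ψ
      rw [Finset.mul_sum]
      apply Finset.sum_congr rfl
      intros
      ring
    simp_rw [h1]
    rw [intervalIntegral.integral_finsetSum, Finset.mul_sum]
    · apply Finset.sum_congr rfl
      intro k _
      rw [intervalIntegral.integral_const_mul]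
      ring
    · intro k _
      apply Continuous.intervalIntegrable
      exact continuous_const.mul (hKc.mul (T2d_ee_cont.pow k))
  simp_rw [hsum]
  apply Tendsto.const_mul
  apply intervalIntegral.tendsto_integral_filter_of_dominated_convergence
    (fun ψ => ‖K (ee ψ)‖ * (‖g (ee ψ)‖ + 1))
  · exact Filter.Eventually.of_forall
      (fun N => (hKc.mul (hSc N)).aestronglyMeasurable)
  · have h1 := (Metric.tendstoUniformlyOn_iff.mp hlim) 1 one_pos
    filter_upwards [h1] with N hN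
    refine Filter.Eventually.of_forall (fun ψ _ => ?_)
    rw [norm_mul]
    apply mul_le_mul_of_nonneg_left _ (norm_nonneg _)
    have h2 := hN (ee ψ) (hee' ψ)
    rw [dist_eq_norm] at h2
    have h3 : ‖∑ k ∈ Finset.range N, c k * (ee ψ) ^ k‖ ≤
        ‖g (ee ψ)‖ + ‖g (ee ψ) - ∑ k ∈ Finset.range N, c k * (ee ψ) ^ k‖ := by
      have := norm_sub_le (g (ee ψ)) (g (ee ψ) - ∑ k ∈ Finset.range N, c k * (ee ψ) ^ k)
      simpa using this
    linarith
  · apply Continuous.intervalIntegrable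
    exact hKc.norm.mul (hgc'.norm.add continuous_const)
  · refine Filter.Eventually.of_forall (fun ψ _ => ?_)
    apply Tendsto.const_mul
    exact hlim.tendsto_at (hee' ψ)

/-! ### Chunk T3 : matrix algebra -/

theorem T3_inv {n : ℕ} (H S : Matrix (Fin n) (Fin n) ℂ) (hH : (H - 1).PosSemidef)
    (hS₂ : S * S = H) : S * S⁻¹ = 1 ∧ S⁻¹ * S = 1 := by
  have hpd : H.PosDef := by
    have h := Matrix.PosDef.posSemidef_add hH (Matrix.PosDef.one (n := Fin n) (R := ℂ))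
    simpa using h
  have hu : IsUnit H := hpd.isUnit
  have hdet : IsUnit H.det := (Matrix.isUnit_iff_isUnit_det H).1 hu
  have hS : IsUnit S.det := by
    rw [← hS₂, Matrix.det_mul] at hdet
    exact isUnit_of_mul_isUnit_left hdet
  exact ⟨Matrix.mul_nonsing_inv S hS, Matrix.nonsing_inv_mul S hS⟩

theorem T3_aeval {n : ℕ} (S A : Matrix (Fin n) (Fin n) ℂ) (h1 : S * S⁻¹ = 1) (h2 : S⁻¹ * S = 1)
    (P : Polynomial ℂ) :
    Polynomial.aeval (S * A * S⁻¹) P = S * Polynomial.aeval A P * S⁻¹ := by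
  have hpow : ∀ k : ℕ, (S * A * S⁻¹) ^ k = S * A ^ k * S⁻¹ := by
    intro k
    induction k with
    | zero => simp [h1]
    | succ k ih =>
      rw [pow_succ, ih, pow_succ]
      calc S * A ^ k * S⁻¹ * (S * A * S⁻¹) = S * A ^ k * (S⁻¹ * S) * A * S⁻¹ := by
            simp only [Matrix.mul_assoc]
        _ = S * (A ^ k * A) * S⁻¹ := by rw [h2]; simp only [Matrix.mul_assoc, Matrix.mul_one]
  induction P using Polynomial.induction_on' with
  | add p q hp hq => simp only [map_add, hp, hq, Matrix.mul_add, Matrix.add_mul]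
  | monomial k a =>
    simp only [Polynomial.aeval_monomial, hpow]
    simp only [Algebra.algebraMap_eq_smul_one, Matrix.smul_mul, Matrix.one_mul, Matrix.mul_smul]

theorem T3_spectrum {n : ℕ} (S A : Matrix (Fin n) (Fin n) ℂ) (h1 : S * S⁻¹ = 1)
    (h2 : S⁻¹ * S = 1) : spectrum ℂ (S * A * S⁻¹) = spectrum ℂ A := by
  exact spectrum.units_conjugate (R := ℂ) (a := A) (u := ⟨S, S⁻¹, h1, h2⟩)

theorem T3_contraction {n : ℕ} (H S T : Matrix (Fin n) (Fin n) ℂ) (hS₁ : S.PosSemidef)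
    (hS₂ : S * S = H) (h1 : S * S⁻¹ = 1) (h2 : S⁻¹ * S = 1)
    (hT : (H - T.conjTranspose * H * T).PosSemidef) :
    (1 - (S * T * S⁻¹).conjTranspose * (S * T * S⁻¹)).PosSemidef := by
  have hSh : S.conjTranspose = S := hS₁.isHermitian
  have hSi : (S⁻¹).conjTranspose = S⁻¹ := by rw [Matrix.conjTranspose_nonsing_inv, hSh]
  have e2 : (1 : Matrix (Fin n) (Fin n) ℂ) = S⁻¹ * (S * S) * S⁻¹ := by
    calc (1 : Matrix (Fin n) (Fin n) ℂ) = (S⁻¹ * S) * (S * S⁻¹) := by rw [h1, h2, Matrix.one_mul]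
      _ = S⁻¹ * (S * S) * S⁻¹ := by simp only [Matrix.mul_assoc]
  have e1 : S⁻¹ * (T.conjTranspose * S) * (S * T * S⁻¹)
      = S⁻¹ * (T.conjTranspose * (S * S) * T) * S⁻¹ := by
    simp only [Matrix.mul_assoc]
  have key : 1 - (S * T * S⁻¹).conjTranspose * (S * T * S⁻¹)
      = (S⁻¹).conjTranspose * (H - T.conjTranspose * H * T) * S⁻¹ := by
    rw [Matrix.conjTranspose_mul, Matrix.conjTranspose_mul, hSi, hSh, ← hS₂, Matrix.mul_sub,
      Matrix.sub_mul, ← e2, e1]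
  rw [key]
  exact hT.conjTranspose_mul_mul_same _

theorem T3_numRange {n : ℕ} (A : Matrix (Fin n) (Fin n) ℂ) : spectrum ℂ A ⊆ numRange A := by
  intro μ hμ
  have hμ' : μ ∈ spectrum ℂ (Matrix.toEuclideanLin A) := by
    have h := Matrix.spectrum_toLpLin (𝕜 := ℂ) (A := A) 2
    rw [← h] at hμ
    exact hμ
  have hev := Module.End.hasEigenvalue_iff_mem_spectrum.2 hμ'
  obtain ⟨x, hx⟩ := hev.exists_hasEigenvector
  have hx0 : x ≠ 0 := hx.2
  have hxe : Matrix.toEuclideanLin A x = μ • x := hx.apply_eq_smul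
  have hn : ‖x‖ ≠ 0 := norm_ne_zero_iff.2 hx0
  refine ⟨((‖x‖ : ℂ)⁻¹) • x, ?_, ?_⟩
  · rw [norm_smul, norm_inv, Complex.norm_real, norm_norm, inv_mul_cancel₀ hn]
  · rw [map_smul, hxe, inner_smul_left, inner_smul_right, inner_smul_right,
      inner_self_eq_norm_sq_to_K]
    have hn' : (‖x‖ : ℂ) ≠ 0 := by exact_mod_cast hn
    simp only [map_inv₀, Complex.conj_ofReal]
    have h3 : ((‖x‖ : ℝ) : ℂ)⁻¹ * (((‖x‖ : ℝ) : ℂ)⁻¹ * (μ * ((‖x‖ : ℝ) : ℂ) ^ 2)) = μ := by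
      field_simp
    exact h3.symm

theorem T3_specmap {n : ℕ} (A : Matrix (Fin n) (Fin n) ℂ) (p : Polynomial ℂ) (μ : ℂ)
    (hμ : μ ∈ spectrum ℂ (Polynomial.aeval A p)) : ∃ l ∈ spectrum ℂ A, μ = p.eval l := by
  rcases Nat.eq_zero_or_pos n with hn | hn
  · subst hn
    exfalso
    have : Subsingleton (Matrix (Fin 0) (Fin 0) ℂ) := inferInstance
    rw [spectrum.of_subsingleton] at hμ
    exact hμ
  · have : Nonempty (Fin n) := ⟨⟨0, hn⟩⟩
    have hne : (spectrum ℂ A).Nonempty := spectrum.nonempty_of_isAlgClosed_of_finiteDimensional ℂ A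
    rw [spectrum.map_polynomial_aeval_of_nonempty A p hne] at hμ
    obtain ⟨l, hl, rfl⟩ := hμ
    exact ⟨l, hl, rfl⟩






/-! ### Chunk T4 : a positive density of mean `1` gives a complete contraction -/

/-- the sesquilinear form of `Λ ⊗ W` -/
noncomputable def T4_F {n m : ℕ} (Λ : Matrix (Fin n) (Fin n) ℂ) (W : Matrix (Fin m) (Fin m) ℂ)
    (y x : Fin n × Fin m → ℂ) : ℂ :=
  ∑ c, ∑ a, ∑ d, ∑ b, starRingEnd ℂ (y (a, c)) * (Λ a b * W c d) * x (b, d)

/-- slices of `(L ⊗ 1) x` -/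
noncomputable def T4_sl {n m : ℕ} (L : Matrix (Fin n) (Fin n) ℂ) (x : Fin n × Fin m → ℂ)
    (e : Fin n) : EuclideanSpace ℂ (Fin m) := WithLp.toLp 2 (fun c => ∑ a, L e a * x (a, c))

theorem T4_F_eq {n m : ℕ} (L : Matrix (Fin n) (Fin n) ℂ) (W : Matrix (Fin m) (Fin m) ℂ)
    (y x : Fin n × Fin m → ℂ) :
    T4_F (L.conjTranspose * L) W y x = ∑ e, inner ℂ (T4_sl L y e)
      (Matrix.toEuclideanCLM (n := Fin m) (𝕜 := ℂ) W (T4_sl L x e)) := by
  have h1 : ∀ e, inner ℂ (T4_sl L y e)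
      (Matrix.toEuclideanCLM (n := Fin m) (𝕜 := ℂ) W (T4_sl L x e))
      = ∑ c, ∑ a, ∑ d, ∑ b, starRingEnd ℂ (y (a, c)) *
          (starRingEnd ℂ (L e a) * L e b * W c d) * x (b, d) := by
    intro e
    simp only [T4_sl, Matrix.toEuclideanCLM_toLp, PiLp.inner_apply, RCLike.inner_apply',
      Matrix.mulVec, dotProduct, map_sum, map_mul, Finset.sum_mul, Finset.mul_sum]
    refine Finset.sum_congr rfl fun c _ => ?_
    conv_rhs => rw [Finset.sum_comm]
    refine Finset.sum_congr rfl fun d _ => ?_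
    conv_rhs => rw [Finset.sum_comm]
    refine Finset.sum_congr rfl fun b _ => Finset.sum_congr rfl fun a _ => ?_
    ring
  simp only [h1]
  unfold T4_F
  simp only [Matrix.mul_apply, Matrix.conjTranspose_apply, Finset.sum_mul, Finset.mul_sum,
    RCLike.star_def]
  conv_rhs => rw [Finset.sum_comm]
  refine Finset.sum_congr rfl fun c _ => ?_
  conv_rhs => rw [Finset.sum_comm]
  refine Finset.sum_congr rfl fun a _ => ?_
  conv_rhs => rw [Finset.sum_comm]
  refine Finset.sum_congr rfl fun d _ => ?_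
  conv_rhs => rw [Finset.sum_comm]

theorem T4_F_one {n m : ℕ} (L : Matrix (Fin n) (Fin n) ℂ) (x : Fin n × Fin m → ℂ) :
    T4_F (L.conjTranspose * L) 1 x x = ((∑ e, ‖T4_sl L x e‖ ^ 2 : ℝ) : ℂ) := by
  rw [T4_F_eq]
  simp only [map_one, one_apply_eq_self, inner_self_eq_norm_sq_to_K]
  push_cast
  rfl

theorem T4_F_le {n m : ℕ} (L : Matrix (Fin n) (Fin n) ℂ) (W : Matrix (Fin m) (Fin m) ℂ)
    (M : ℝ) (hM : ‖Matrix.toEuclideanCLM (n := Fin m) (𝕜 := ℂ) W‖ ≤ M)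
    (y x : Fin n × Fin m → ℂ) :
    ‖T4_F (L.conjTranspose * L) W y x‖ ≤
      M / 2 * ((∑ e, ‖T4_sl L y e‖ ^ 2) + ∑ e, ‖T4_sl L x e‖ ^ 2) := by
  rw [T4_F_eq, ← Finset.sum_add_distrib, Finset.mul_sum]
  refine (norm_sum_le _ _).trans (Finset.sum_le_sum fun e _ => ?_)
  have h0 : 0 ≤ M := (norm_nonneg _).trans hM
  have h1 := norm_inner_le_norm (𝕜 := ℂ) (T4_sl L y e)
    (Matrix.toEuclideanCLM (n := Fin m) (𝕜 := ℂ) W (T4_sl L x e))
  have h2 := (Matrix.toEuclideanCLM (n := Fin m) (𝕜 := ℂ) W).le_opNorm (T4_sl L x e)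
  have h3 : ‖Matrix.toEuclideanCLM (n := Fin m) (𝕜 := ℂ) W (T4_sl L x e)‖ ≤ M * ‖T4_sl L x e‖ :=
    h2.trans (mul_le_mul_of_nonneg_right hM (norm_nonneg _))
  have h4 : ‖T4_sl L y e‖ * ‖Matrix.toEuclideanCLM (n := Fin m) (𝕜 := ℂ) W (T4_sl L x e)‖ ≤
      ‖T4_sl L y e‖ * (M * ‖T4_sl L x e‖) := mul_le_mul_of_nonneg_left h3 (norm_nonneg _)
  have h5 : ‖T4_sl L y e‖ * (M * ‖T4_sl L x e‖) ≤
      M / 2 * (‖T4_sl L y e‖ ^ 2 + ‖T4_sl L x e‖ ^ 2) := by
    nlinarith [mul_nonneg h0 (sq_nonneg (‖T4_sl L y e‖ - ‖T4_sl L x e‖))]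
  linarith

open scoped MatrixOrder in
theorem T4_pointwise {n m : ℕ} (Λ : Matrix (Fin n) (Fin n) ℂ) (hΛ : Λ.PosSemidef)
    (W : Matrix (Fin m) (Fin m) ℂ)
    (M : ℝ) (hM : ‖Matrix.toEuclideanCLM (n := Fin m) (𝕜 := ℂ) W‖ ≤ M)
    (y x : Fin n × Fin m → ℂ) :
    ‖T4_F Λ W y x‖ ≤ M / 2 * ((T4_F Λ 1 y y).re + (T4_F Λ 1 x x).re) := by
  obtain ⟨L, rfl⟩ := CStarAlgebra.nonneg_iff_eq_star_mul_self.mp hΛ.nonneg
  rw [Matrix.star_eq_conjTranspose, T4_F_one, T4_F_one, Complex.ofReal_re, Complex.ofReal_re]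
  exact T4_F_le L W M hM y x

theorem T4_cont {n m : ℕ} (Λ : ℝ → Matrix (Fin n) (Fin n) ℂ)
    (hΛc : ∀ a b, Continuous fun θ => Λ θ a b)
    (W : ℝ → Matrix (Fin m) (Fin m) ℂ) (hWc : ∀ c d, Continuous fun θ => W θ c d)
    (y x : Fin n × Fin m → ℂ) : Continuous fun θ => T4_F (Λ θ) (W θ) y x := by
  unfold T4_F
  exact continuous_finsetSum _ fun c _ => continuous_finsetSum _ fun a _ =>
    continuous_finsetSum _ fun d _ => continuous_finsetSum _ fun b _ =>
      (continuous_const.mul ((hΛc a b).mul (hWc c d))).mul continuous_const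

theorem T4_int {n m : ℕ} (Λ : ℝ → Matrix (Fin n) (Fin n) ℂ)
    (hΛc : ∀ a b, Continuous fun θ => Λ θ a b)
    (W : ℝ → Matrix (Fin m) (Fin m) ℂ) (hWc : ∀ c d, Continuous fun θ => W θ c d)
    (y x : Fin n × Fin m → ℂ) :
    (2 * Real.pi : ℂ)⁻¹ * (∫ θ in (0 : ℝ)..2 * Real.pi, T4_F (Λ θ) (W θ) y x) =
      ∑ c, ∑ a, ∑ d, ∑ b, starRingEnd ℂ (y (a, c)) *
        ((2 * Real.pi : ℂ)⁻¹ * (∫ θ in (0 : ℝ)..2 * Real.pi, Λ θ a b * W θ c d)) * x (b, d) := by
  have hc : ∀ a b c d, Continuous fun θ =>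
      starRingEnd ℂ (y (a, c)) * (Λ θ a b * W θ c d) * x (b, d) := fun a b c d =>
    (continuous_const.mul ((hΛc a b).mul (hWc c d))).mul continuous_const
  unfold T4_F
  rw [intervalIntegral.integral_finsetSum (fun c _ => (continuous_finsetSum _ fun a _ =>
    continuous_finsetSum _ fun d _ => continuous_finsetSum _ fun b _ =>
      hc a b c d).intervalIntegrable _ _), Finset.mul_sum]
  refine Finset.sum_congr rfl fun c _ => ?_
  rw [intervalIntegral.integral_finsetSum (fun a _ => (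
    continuous_finsetSum _ fun d _ => continuous_finsetSum _ fun b _ =>
      hc a b c d).intervalIntegrable _ _), Finset.mul_sum]
  refine Finset.sum_congr rfl fun a _ => ?_
  rw [intervalIntegral.integral_finsetSum (fun d _ => (
    continuous_finsetSum _ fun b _ => hc a b c d).intervalIntegrable _ _), Finset.mul_sum]
  refine Finset.sum_congr rfl fun d _ => ?_
  rw [intervalIntegral.integral_finsetSum (fun b _ => (hc a b c d).intervalIntegrable _ _),
    Finset.mul_sum]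
  refine Finset.sum_congr rfl fun b _ => ?_
  rw [intervalIntegral.integral_mul_const, intervalIntegral.integral_const_mul]
  ring

theorem T4_mean {n m : ℕ} (Λ : ℝ → Matrix (Fin n) (Fin n) ℂ)
    (hΛc : ∀ a b, Continuous fun θ => Λ θ a b)
    (hΛm : ∀ a b, (2 * Real.pi : ℂ)⁻¹ * (∫ θ in (0 : ℝ)..2 * Real.pi, Λ θ a b)
        = (1 : Matrix (Fin n) (Fin n) ℂ) a b)
    (x : Fin n × Fin m → ℂ) :
    ∫ θ in (0 : ℝ)..2 * Real.pi, (T4_F (Λ θ) 1 x x).re =
      2 * Real.pi * ∑ c, ∑ a, ‖x (a, c)‖ ^ 2 := by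
  have hcont := T4_cont Λ hΛc (fun _ => (1 : Matrix (Fin m) (Fin m) ℂ))
    (fun _ _ => continuous_const) x x
  have h1 := T4_int Λ hΛc (fun _ => (1 : Matrix (Fin m) (Fin m) ℂ))
    (fun _ _ => continuous_const) x x
  have h2 : ∀ a b c d, (2 * Real.pi : ℂ)⁻¹ * (∫ θ in (0 : ℝ)..2 * Real.pi,
      Λ θ a b * (1 : Matrix (Fin m) (Fin m) ℂ) c d) =
      (1 : Matrix (Fin n) (Fin n) ℂ) a b * (1 : Matrix (Fin m) (Fin m) ℂ) c d := by
    intro a b c d
    rw [intervalIntegral.integral_mul_const, ← mul_assoc, hΛm]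
  simp only [h2] at h1
  have h3 : ∑ c, ∑ a, ∑ d, ∑ b, starRingEnd ℂ (x (a, c)) *
      ((1 : Matrix (Fin n) (Fin n) ℂ) a b * (1 : Matrix (Fin m) (Fin m) ℂ) c d) * x (b, d) =
      ((∑ c, ∑ a, ‖x (a, c)‖ ^ 2 : ℝ) : ℂ) := by
    push_cast
    refine Finset.sum_congr rfl fun c _ => Finset.sum_congr rfl fun a _ => ?_
    rw [Finset.sum_eq_single c, Finset.sum_eq_single a]
    · rw [Matrix.one_apply_eq, Matrix.one_apply_eq, mul_one, mul_one, mul_comm,
        Complex.mul_conj, Complex.normSq_eq_norm_sq]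
      push_cast
      rfl
    · intro b _ hb
      rw [Matrix.one_apply_ne (Ne.symm hb)]; ring
    · intro h; exact absurd (Finset.mem_univ _) h
    · intro d _ hd
      refine Finset.sum_eq_zero fun b _ => ?_
      rw [Matrix.one_apply_ne (Ne.symm hd)]; ring
    · intro h; exact absurd (Finset.mem_univ _) h
  rw [h3] at h1
  have hpi : (2 * Real.pi : ℂ) ≠ 0 := by
    have := Real.pi_pos.ne'
    simp [this]
  have h4 : (∫ θ in (0 : ℝ)..2 * Real.pi, T4_F (Λ θ) 1 x x) =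
      ((2 * Real.pi * ∑ c, ∑ a, ‖x (a, c)‖ ^ 2 : ℝ) : ℂ) := by
    rw [inv_mul_eq_iff_eq_mul₀ hpi] at h1
    rw [h1]; push_cast; rfl
  have h5 := intervalIntegral.intervalIntegral_re (𝕜 := ℂ) (μ := MeasureTheory.volume)
    (hcont.intervalIntegrable 0 (2 * Real.pi))
  simp only [RCLike.re_to_complex] at h5
  rw [h5, h4, Complex.ofReal_re]

theorem T4_abs {E : Type*} [NormedAddCommGroup E] [InnerProductSpace ℂ E] (T : E →L[ℂ] E)
    (M : ℝ) (h0 : 0 ≤ M)
    (h : ∀ x y, ‖inner ℂ y (T x)‖ ≤ M / 2 * (‖y‖ ^ 2 + ‖x‖ ^ 2)) : ‖T‖ ≤ M := by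
  refine ContinuousLinearMap.opNorm_le_bound _ h0 fun x => ?_
  by_cases hx : x = 0
  · simp [hx]
  by_cases hz : T x = 0
  · rw [hz, norm_zero]; positivity
  have hx' : 0 < ‖x‖ := norm_pos_iff.mpr hx
  have hz' : 0 < ‖T x‖ := norm_pos_iff.mpr hz
  have h1 := h x (((‖x‖ / ‖T x‖ : ℝ) : ℂ) • T x)
  rw [inner_smul_left, inner_self_eq_norm_sq_to_K, norm_smul, Complex.conj_ofReal, norm_mul,
    Complex.norm_real, Real.norm_eq_abs, abs_of_pos (div_pos hx' hz')] at h1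
  have h2 : ‖((‖T x‖ : ℝ) : ℂ) ^ 2‖ = ‖T x‖ ^ 2 := by
    rw [norm_pow, Complex.norm_real, norm_norm]
  have h3 : ‖x‖ / ‖T x‖ * ‖T x‖ = ‖x‖ := by field_simp
  have h4 : ‖x‖ / ‖T x‖ * ‖T x‖ ^ 2 = ‖x‖ * ‖T x‖ := by field_simp
  erw [h2] at h1
  rw [h3, h4] at h1
  have h5 : ‖x‖ * ‖T x‖ ≤ ‖x‖ * (M * ‖x‖) := by nlinarith
  exact le_of_mul_le_mul_left h5 hx'

theorem T4_key {n m : ℕ} (Λ : ℝ → Matrix (Fin n) (Fin n) ℂ)
    (hΛc : ∀ a b, Continuous fun θ => Λ θ a b)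
    (hΛp : ∀ θ, (Λ θ).PosSemidef)
    (hΛm : ∀ a b, (2 * Real.pi : ℂ)⁻¹ * (∫ θ in (0 : ℝ)..2 * Real.pi, Λ θ a b)
        = (1 : Matrix (Fin n) (Fin n) ℂ) a b)
    (W : ℝ → Matrix (Fin m) (Fin m) ℂ) (hWc : ∀ c d, Continuous fun θ => W θ c d) (M : ℝ)
    (hM : ∀ θ, ‖Matrix.toEuclideanCLM (n := Fin m) (𝕜 := ℂ) (W θ)‖ ≤ M)
    (y x : Fin n × Fin m → ℂ) :
    ‖(2 * Real.pi : ℂ)⁻¹ * (∫ θ in (0 : ℝ)..2 * Real.pi, T4_F (Λ θ) (W θ) y x)‖ ≤
      M / 2 * ((∑ c, ∑ a, ‖y (a, c)‖ ^ 2) + ∑ c, ∑ a, ‖x (a, c)‖ ^ 2) := by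
  have hpi : (0 : ℝ) < 2 * Real.pi := by positivity
  have hcF := T4_cont Λ hΛc W hWc y x
  have hcy := T4_cont Λ hΛc (fun _ => (1 : Matrix (Fin m) (Fin m) ℂ))
    (fun _ _ => continuous_const) y y
  have hcx := T4_cont Λ hΛc (fun _ => (1 : Matrix (Fin m) (Fin m) ℂ))
    (fun _ _ => continuous_const) x x
  have h1 : ‖∫ θ in (0 : ℝ)..2 * Real.pi, T4_F (Λ θ) (W θ) y x‖ ≤
      ∫ θ in (0 : ℝ)..2 * Real.pi, ‖T4_F (Λ θ) (W θ) y x‖ :=
    intervalIntegral.norm_integral_le_integral_norm hpi.le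
  have h2 : (∫ θ in (0 : ℝ)..2 * Real.pi, ‖T4_F (Λ θ) (W θ) y x‖) ≤
      ∫ θ in (0 : ℝ)..2 * Real.pi,
        M / 2 * ((T4_F (Λ θ) 1 y y).re + (T4_F (Λ θ) 1 x x).re) := by
    refine intervalIntegral.integral_mono_on hpi.le (hcF.norm.intervalIntegrable _ _)
      ((continuous_const.mul ((Complex.continuous_re.comp hcy).add
        (Complex.continuous_re.comp hcx))).intervalIntegrable _ _) fun θ _ => ?_
    exact T4_pointwise (Λ θ) (hΛp θ) (W θ) M (hM θ) y x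
  have h3 : (∫ θ in (0 : ℝ)..2 * Real.pi,
        M / 2 * ((T4_F (Λ θ) 1 y y).re + (T4_F (Λ θ) 1 x x).re)) =
      M / 2 * (2 * Real.pi * (∑ c, ∑ a, ‖y (a, c)‖ ^ 2) +
        2 * Real.pi * ∑ c, ∑ a, ‖x (a, c)‖ ^ 2) := by
    have hry : Continuous fun θ => (T4_F (Λ θ) 1 y y).re := Complex.continuous_re.comp hcy
    have hrx : Continuous fun θ => (T4_F (Λ θ) 1 x x).re := Complex.continuous_re.comp hcx
    rw [intervalIntegral.integral_const_mul, intervalIntegral.integral_add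
      (hry.intervalIntegrable _ _) (hrx.intervalIntegrable _ _),
      T4_mean Λ hΛc hΛm y, T4_mean Λ hΛc hΛm x]
  have h4 : ‖(2 * Real.pi : ℂ)⁻¹‖ = (2 * Real.pi)⁻¹ := by
    rw [norm_inv, norm_mul, Complex.norm_real, Real.norm_eq_abs, abs_of_pos Real.pi_pos]
    simp
  rw [norm_mul, h4]
  calc (2 * Real.pi)⁻¹ * ‖∫ θ in (0 : ℝ)..2 * Real.pi, T4_F (Λ θ) (W θ) y x‖
      ≤ (2 * Real.pi)⁻¹ * (M / 2 * (2 * Real.pi * (∑ c, ∑ a, ‖y (a, c)‖ ^ 2) +
        2 * Real.pi * ∑ c, ∑ a, ‖x (a, c)‖ ^ 2)) :=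
        mul_le_mul_of_nonneg_left (h1.trans (h2.trans h3.le)) (by positivity)
    _ = M / 2 * ((∑ c, ∑ a, ‖y (a, c)‖ ^ 2) + ∑ c, ∑ a, ‖x (a, c)‖ ^ 2) := by
        field_simp

theorem T4_ucp {n m : ℕ} (Λ : ℝ → Matrix (Fin n) (Fin n) ℂ) (hΛc : Continuous Λ)
    (hΛp : ∀ θ, (Λ θ).PosSemidef)
    (hΛm : ∀ a b, (2 * Real.pi : ℂ)⁻¹ * (∫ θ in (0 : ℝ)..2 * Real.pi, Λ θ a b)
        = (1 : Matrix (Fin n) (Fin n) ℂ) a b)
    (W : ℝ → Matrix (Fin m) (Fin m) ℂ) (hWc : ∀ c d, Continuous fun θ => W θ c d) (M : ℝ)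
    (hM : ∀ θ, ‖Matrix.toEuclideanCLM (n := Fin m) (𝕜 := ℂ) (W θ)‖ ≤ M)
    (X : Matrix (Fin n × Fin m) (Fin n × Fin m) ℂ)
    (hX : ∀ a b c d, X (a, c) (b, d) =
      (2 * Real.pi : ℂ)⁻¹ * (∫ θ in (0 : ℝ)..2 * Real.pi, Λ θ a b * W θ c d)) :
    ‖Matrix.toEuclideanCLM (n := Fin n × Fin m) (𝕜 := ℂ) X‖ ≤ M := by
  have h0 : 0 ≤ M := (norm_nonneg _).trans (hM 0)
  have hΛc' : ∀ a b, Continuous fun θ => Λ θ a b := fun a b =>
    (continuous_apply b).comp ((continuous_apply a).comp hΛc)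
  refine T4_abs _ M h0 fun x y => ?_
  have hk := T4_key Λ hΛc' hΛp hΛm W hWc M hM y.ofLp x.ofLp
  rw [T4_int Λ hΛc' W hWc] at hk
  have e1 : inner ℂ y (Matrix.toEuclideanCLM (n := Fin n × Fin m) (𝕜 := ℂ) X x) =
      ∑ c, ∑ a, ∑ d, ∑ b, starRingEnd ℂ (y.ofLp (a, c)) *
        ((2 * Real.pi : ℂ)⁻¹ * (∫ θ in (0 : ℝ)..2 * Real.pi, Λ θ a b * W θ c d)) *
          x.ofLp (b, d) := by
    simp only [PiLp.inner_apply, RCLike.inner_apply', Matrix.ofLp_toEuclideanCLM,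
      Matrix.mulVec, dotProduct, Fintype.sum_prod_type_right, Finset.mul_sum, hX]
    refine Finset.sum_congr rfl fun c _ => Finset.sum_congr rfl fun a _ =>
      Finset.sum_congr rfl fun d _ => Finset.sum_congr rfl fun b _ => ?_
    ring
  have e2 : ∀ z : EuclideanSpace ℂ (Fin n × Fin m),
      ‖z‖ ^ 2 = ∑ c, ∑ a, ‖z.ofLp (a, c)‖ ^ 2 := by
    intro z
    rw [EuclideanSpace.norm_sq_eq, Fintype.sum_prod_type_right]
  rw [e1, e2 y, e2 x]
  exact hk

/-! ### Chunk T5 : conjugation by `S ⊗ 1` costs at most `κ` -/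

theorem T5_normsq {N : Type*} [Fintype N] [DecidableEq N] (Q : Matrix N N ℂ)
    (y : EuclideanSpace ℂ N) :
    ((‖Matrix.toEuclideanCLM (n := N) (𝕜 := ℂ) Q y‖ ^ 2 : ℝ) : ℂ) =
      star (WithLp.ofLp y) ⬝ᵥ (Matrix.mulVec (Q.conjTranspose * Q) (WithLp.ofLp y)) := by
  have h1 : inner ℂ (Matrix.toEuclideanCLM (n := N) (𝕜 := ℂ) Q y)
      (Matrix.toEuclideanCLM (n := N) (𝕜 := ℂ) Q y) =
      ((‖Matrix.toEuclideanCLM (n := N) (𝕜 := ℂ) Q y‖ : ℝ) : ℂ) ^ 2 :=
    inner_self_eq_norm_sq_to_K _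
  rw [Complex.ofReal_pow, ← h1, EuclideanSpace.inner_eq_star_dotProduct,
    Matrix.ofLp_toEuclideanCLM, Matrix.star_mulVec, dotProduct_comm, ← Matrix.dotProduct_mulVec,
    Matrix.mulVec_mulVec]

theorem T5_normsq_self {N : Type*} [Fintype N] [DecidableEq N] (y : EuclideanSpace ℂ N) :
    ((‖y‖ ^ 2 : ℝ) : ℂ) = star (WithLp.ofLp y) ⬝ᵥ WithLp.ofLp y := by
  have h1 : inner ℂ y y = ((‖y‖ : ℝ) : ℂ) ^ 2 := inner_self_eq_norm_sq_to_K _
  rw [Complex.ofReal_pow, ← h1, EuclideanSpace.inner_eq_star_dotProduct, dotProduct_comm]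

theorem T5_lower {N : Type*} [Fintype N] [DecidableEq N] (Q : Matrix N N ℂ)
    (h : (Q.conjTranspose * Q - 1).PosSemidef) (y : EuclideanSpace ℂ N) :
    ‖y‖ ^ 2 ≤ ‖Matrix.toEuclideanCLM (n := N) (𝕜 := ℂ) Q y‖ ^ 2 := by
  have h0 := h.dotProduct_mulVec_nonneg (WithLp.ofLp y)
  rw [Matrix.sub_mulVec, Matrix.one_mulVec, dotProduct_sub, ← T5_normsq, ← T5_normsq_self,
    ← Complex.ofReal_sub, Complex.zero_le_real] at h0
  linarith

theorem T5_upper {N : Type*} [Fintype N] [DecidableEq N] (Q : Matrix N N ℂ) (κ : ℝ)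
    (h : ((κ : ℂ) • (1 : Matrix N N ℂ) - Q.conjTranspose * Q).PosSemidef)
    (y : EuclideanSpace ℂ N) :
    ‖Matrix.toEuclideanCLM (n := N) (𝕜 := ℂ) Q y‖ ^ 2 ≤ κ * ‖y‖ ^ 2 := by
  have h0 := h.dotProduct_mulVec_nonneg (WithLp.ofLp y)
  rw [Matrix.sub_mulVec, Matrix.smul_mulVec, Matrix.one_mulVec, dotProduct_sub, dotProduct_smul,
    ← T5_normsq, ← T5_normsq_self, smul_eq_mul, ← Complex.ofReal_mul,
    ← Complex.ofReal_sub, Complex.zero_le_real] at h0
  linarith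

theorem T5_sub_kron {n m : ℕ} (A B : Matrix (Fin n) (Fin n) ℂ) (C : Matrix (Fin m) (Fin m) ℂ) :
    Matrix.kroneckerMap (· * ·) A C - Matrix.kroneckerMap (· * ·) B C =
      Matrix.kroneckerMap (· * ·) (A - B) C := by
  ext ⟨a, c⟩ ⟨b, d⟩
  simp [Matrix.kroneckerMap_apply, sub_mul]

theorem T5_conj {n m : ℕ} (H S : Matrix (Fin n) (Fin n) ℂ) (κsq : ℝ)
    (hH1 : (H - 1).PosSemidef) (hH2 : ((κsq : ℂ) • (1 : Matrix (Fin n) (Fin n) ℂ) - H).PosSemidef)
    (hS₁ : S.PosSemidef) (hS₂ : S * S = H)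
    (Y : Fin m → Fin m → Matrix (Fin n) (Fin n) ℂ) :
    ‖Matrix.toEuclideanCLM (n := Fin n × Fin m) (𝕜 := ℂ)
        (Matrix.of fun (i : Fin n × Fin m) (j : Fin n × Fin m) => (S⁻¹ * Y i.2 j.2 * S) i.1 j.1)‖ ≤
      Real.sqrt κsq * ‖Matrix.toEuclideanCLM (n := Fin n × Fin m) (𝕜 := ℂ)
        (Matrix.of fun (i : Fin n × Fin m) (j : Fin n × Fin m) => Y i.2 j.2 i.1 j.1)‖ := by
  obtain ⟨hSi, _⟩ := T3_inv H S hH1 hS₂
  obtain ⟨Q, hQ⟩ : ∃ Q : Matrix (Fin n × Fin m) (Fin n × Fin m) ℂ,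
      Q = Matrix.kroneckerMap (· * ·) S (1 : Matrix (Fin m) (Fin m) ℂ) := ⟨_, rfl⟩
  obtain ⟨P, hP⟩ : ∃ P : Matrix (Fin n × Fin m) (Fin n × Fin m) ℂ,
      P = Matrix.kroneckerMap (· * ·) S⁻¹ (1 : Matrix (Fin m) (Fin m) ℂ) := ⟨_, rfl⟩
  have hQQ : Q.conjTranspose * Q = Matrix.kroneckerMap (· * ·) H (1 : Matrix (Fin m) (Fin m) ℂ) := by
    rw [hQ, Matrix.conjTranspose_kronecker, ← Matrix.mul_kronecker_mul, hS₁.isHermitian.eq, hS₂,
      Matrix.conjTranspose_one, Matrix.one_mul]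
  have hQP : Q * P = 1 := by
    rw [hQ, hP, ← Matrix.mul_kronecker_mul, hSi, Matrix.one_mul, Matrix.one_kronecker_one]
  have hlow : (Q.conjTranspose * Q - 1).PosSemidef := by
    rw [hQQ, ← Matrix.one_kronecker_one (m := Fin n) (n := Fin m), T5_sub_kron]
    exact hH1.kronecker Matrix.PosSemidef.one
  have hupp : ((κsq : ℂ) • (1 : Matrix (Fin n × Fin m) (Fin n × Fin m) ℂ) -
      Q.conjTranspose * Q).PosSemidef := by
    rw [hQQ, ← Matrix.one_kronecker_one (m := Fin n) (n := Fin m), ← Matrix.smul_kronecker,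
      T5_sub_kron]
    exact hH2.kronecker Matrix.PosSemidef.one
  have hnQ : ‖Matrix.toEuclideanCLM (n := Fin n × Fin m) (𝕜 := ℂ) Q‖ ≤ Real.sqrt κsq := by
    refine ContinuousLinearMap.opNorm_le_bound _ (Real.sqrt_nonneg _) fun y => ?_
    have h := T5_upper Q κsq hupp y
    calc ‖Matrix.toEuclideanCLM (n := Fin n × Fin m) (𝕜 := ℂ) Q y‖
        = Real.sqrt (‖Matrix.toEuclideanCLM (n := Fin n × Fin m) (𝕜 := ℂ) Q y‖ ^ 2) :=
          (Real.sqrt_sq (norm_nonneg _)).symm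
      _ ≤ Real.sqrt (κsq * ‖y‖ ^ 2) := Real.sqrt_le_sqrt h
      _ = Real.sqrt κsq * ‖y‖ := by
          rw [Real.sqrt_mul' _ (sq_nonneg _), Real.sqrt_sq (norm_nonneg _)]
  have hnP : ‖Matrix.toEuclideanCLM (n := Fin n × Fin m) (𝕜 := ℂ) P‖ ≤ 1 := by
    refine ContinuousLinearMap.opNorm_le_bound _ zero_le_one fun y => ?_
    have h := T5_lower Q hlow (Matrix.toEuclideanCLM (n := Fin n × Fin m) (𝕜 := ℂ) P y)
    have e : Matrix.toEuclideanCLM (n := Fin n × Fin m) (𝕜 := ℂ) Q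
        (Matrix.toEuclideanCLM (n := Fin n × Fin m) (𝕜 := ℂ) P y) = y := by
      rw [← mul_apply_eq_comp, ← map_mul, hQP, map_one, one_apply_eq_self]
    rw [e] at h
    rw [one_mul]
    exact (sq_le_sq₀ (norm_nonneg _) (norm_nonneg _)).mp h
  have hmat : (Matrix.of fun (i : Fin n × Fin m) (j : Fin n × Fin m) =>
      (S⁻¹ * Y i.2 j.2 * S) i.1 j.1) =
      P * (Matrix.of fun (i : Fin n × Fin m) (j : Fin n × Fin m) => Y i.2 j.2 i.1 j.1) * Q := by
    ext ⟨a, c⟩ ⟨b, d⟩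
    rw [hP, hQ]
    simp only [Matrix.of_apply, Matrix.mul_apply, Fintype.sum_prod_type, Matrix.kroneckerMap_apply,
      Matrix.one_apply, mul_ite, mul_one, mul_zero, ite_mul, zero_mul, Finset.sum_ite_eq,
      Finset.sum_ite_eq', Finset.mem_univ, if_true]
  rw [hmat, map_mul, map_mul]
  calc ‖Matrix.toEuclideanCLM (n := Fin n × Fin m) (𝕜 := ℂ) P *
        Matrix.toEuclideanCLM (n := Fin n × Fin m) (𝕜 := ℂ)
          (Matrix.of fun (i : Fin n × Fin m) (j : Fin n × Fin m) => Y i.2 j.2 i.1 j.1) *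
        Matrix.toEuclideanCLM (n := Fin n × Fin m) (𝕜 := ℂ) Q‖
      ≤ ‖Matrix.toEuclideanCLM (n := Fin n × Fin m) (𝕜 := ℂ) P‖ *
        ‖Matrix.toEuclideanCLM (n := Fin n × Fin m) (𝕜 := ℂ)
          (Matrix.of fun (i : Fin n × Fin m) (j : Fin n × Fin m) => Y i.2 j.2 i.1 j.1)‖ *
        ‖Matrix.toEuclideanCLM (n := Fin n × Fin m) (𝕜 := ℂ) Q‖ :=
        (norm_mul_le _ _).trans (mul_le_mul_of_nonneg_right (norm_mul_le _ _) (norm_nonneg _))
    _ ≤ 1 * ‖Matrix.toEuclideanCLM (n := Fin n × Fin m) (𝕜 := ℂ)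
          (Matrix.of fun (i : Fin n × Fin m) (j : Fin n × Fin m) => Y i.2 j.2 i.1 j.1)‖ *
        Real.sqrt κsq :=
        mul_le_mul (mul_le_mul_of_nonneg_right hnP (norm_nonneg _)) hnQ (norm_nonneg _)
          (mul_nonneg zero_le_one (norm_nonneg _))
    _ = _ := by ring

/-! ### Chunk Z : assembly (helper7) -/

/-- Setting of the optimal-metric statement; also G is holomorphic and injective on {t : r < ‖t‖} for some r < 1 with G({t : 1 < ‖t‖}) the complement of the closure of Ω, (H, κ²) is an optimal metric pair for f(A), and S ≽ 0 with S² = H. Then one continuous 2π-periodic positive semidefinite density Λ of mean I gives, for all m ≥ 1 and m × m matrix-valued v holomorphic near the closure of Ω, v[SAS⁻¹] = (1/2π) ∫ Λ(θ) ⊗ v(G(e^{iθ})) dθ entrywise, and ‖v[A]‖ ≤ κ sup ‖v‖ over the closure of Ω. -/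
theorem result
    (n : ℕ) (hn : 1 ≤ n) (A : Matrix (Fin n) (Fin n) ℂ)
    (Ω U : Set ℂ) (hΩ₁ : IsOpen Ω) (hΩ₂ : Bornology.IsBounded Ω) (hΩ₃ : Convex ℝ Ω)
    (hU : IsOpen U) (hΩU : closure Ω ⊆ U)
    (f : ℂ → ℂ) (hf₁ : DifferentiableOn ℂ f U) (hf₂ : Set.InjOn f U)
    (hf₃ : f '' Ω = Metric.ball 0 1)
    (G : ℂ → ℂ) (r : ℝ) (hr₁ : 0 < r) (hr₂ : r < 1)
    (hG₁ : DifferentiableOn ℂ G {t : ℂ | r < ‖t‖}) (hG₂ : Set.InjOn G {t : ℂ | r < ‖t‖})
    (hG₃ : G '' {t : ℂ | 1 < ‖t‖} = (closure Ω)ᶜ)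
    (hA : numRange A ⊆ Ω) (p : Polynomial ℂ) (hp : AgreesOnSpectrum A f p)
    (H : Matrix (Fin n) (Fin n) ℂ) (κsq : ℝ) (hH : IsOptimalMetric (Polynomial.aeval A p) H κsq)
    (S : Matrix (Fin n) (Fin n) ℂ) (hS₁ : S.PosSemidef) (hS₂ : S * S = H) :
    ∃ Λ : ℝ → Matrix (Fin n) (Fin n) ℂ, Continuous Λ ∧ Function.Periodic Λ (2 * Real.pi) ∧
      (∀ θ, (Λ θ).PosSemidef) ∧
      (∀ a b, (2 * Real.pi : ℂ)⁻¹ * (∫ θ in (0 : ℝ)..2 * Real.pi, Λ θ a b)
        = (1 : Matrix (Fin n) (Fin n) ℂ) a b) ∧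
      ∀ (m : ℕ), 1 ≤ m → ∀ (V : Set ℂ), IsOpen V → closure Ω ⊆ V →
        ∀ v : ℂ → Matrix (Fin m) (Fin m) ℂ, (∀ c d, DifferentiableOn ℂ (fun z => v z c d) V) →
        ∀ q : Fin m → Fin m → Polynomial ℂ,
          (∀ c d, AgreesOnSpectrum A (fun z => v z c d) (q c d)) →
          (∀ a b c d, Polynomial.aeval (S * A * S⁻¹) (q c d) a b =
              (2 * Real.pi : ℂ)⁻¹ * (∫ θ in (0 : ℝ)..2 * Real.pi,
                Λ θ a b * v (G (Complex.exp ((θ : ℂ) * Complex.I))) c d)) ∧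
          ∀ M : ℝ, (∀ z ∈ closure Ω, ‖Matrix.toEuclideanCLM (n := Fin m) (𝕜 := ℂ) (v z)‖ ≤ M) →
            ‖Matrix.toEuclideanCLM (n := Fin n × Fin m) (𝕜 := ℂ)
                (Matrix.of fun (i : Fin n × Fin m) (j : Fin n × Fin m) =>
                  Polynomial.aeval A (q i.2 j.2) i.1 j.1)‖ ≤ Real.sqrt κsq * M := by
  classical
  obtain ⟨⟨hH1, hH2, hH3⟩, -⟩ := hH
  obtain ⟨hSi1, hSi2⟩ := T3_inv H S hH1 hS₂
  have hBT : Polynomial.aeval (S * A * S⁻¹) p = S * Polynomial.aeval A p * S⁻¹ :=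
    T3_aeval S A hSi1 hSi2 p
  have hspecA' : spectrum ℂ (S * A * S⁻¹) = spectrum ℂ A := T3_spectrum S A hSi1 hSi2
  have hspecΩ : ∀ μ ∈ spectrum ℂ (S * A * S⁻¹), μ ∈ Ω :=
    fun μ hμ => hA (T3_numRange A (hspecA' ▸ hμ))
  have hagree : ∀ (u : ℂ → ℂ) (P : Polynomial ℂ), AgreesOnSpectrum A u P →
      AgreesOnSpectrum (S * A * S⁻¹) u P := by
    intro u P h μ hμ
    exact h μ (hspecA' ▸ hμ)
  obtain ⟨B, hBdef⟩ : ∃ B, B = Polynomial.aeval (S * A * S⁻¹) p := ⟨_, rfl⟩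
  have hBc : (1 - B.conjTranspose * B).PosSemidef := by
    rw [hBdef, hBT]
    exact T3_contraction H S _ hS₁ hS₂ hSi1 hSi2 hH3
  have hBs : ∀ μ ∈ spectrum ℂ B, ‖μ‖ < 1 := by
    intro μ hμ
    rw [hBdef] at hμ
    obtain ⟨l, hl, rfl⟩ := T3_specmap (S * A * S⁻¹) p μ hμ
    have hlA : l ∈ spectrum ℂ A := hspecA' ▸ hl
    have h0 := hp l hlA 0 (by omega)
    simp only [iteratedDeriv_zero] at h0
    rw [h0]
    have h1 : f l ∈ f '' Ω := ⟨l, hspecΩ l hl, rfl⟩
    rw [hf₃] at h1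
    simpa using h1
  obtain ⟨hGcl, O, hO, hsO, hdO, h1O, hinjO, houtO⟩ :=
    T1a_boundary Ω U hΩ₁ hΩ₂ hU hΩU f hf₁ hf₂ hf₃ G r hr₁ hr₂ hG₁ hG₂ hG₃
  obtain ⟨ρ, hρc, hρp, hρ0, hρF⟩ := T1b_reparam (fun t => f (G t)) O hO hsO hdO h1O hinjO houtO
  have hee : ∀ θ : ℝ, ee θ ∈ Metric.sphere (0 : ℂ) 1 := by
    intro θ
    simp [ee, Complex.norm_exp_ofReal_mul_I]
  have heec : Continuous ee := by
    unfold ee
    fun_prop
  have heep : Function.Periodic ee (2 * Real.pi) := by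
    intro θ
    simp only [ee]
    push_cast
    rw [add_mul, Complex.exp_add, Complex.exp_two_pi_mul_I, mul_one]
  have hhc : Continuous (fun θ : ℝ => f (G (ee θ))) :=
    hdO.continuousOn.comp_continuous heec (fun θ => hsO (hee θ))
  have hh1 : ∀ θ, f (G (ee θ)) ∈ Metric.sphere (0 : ℂ) 1 := fun θ => by
    simpa using h1O _ (hee θ)
  have key : ∀ (V : Set ℂ), IsOpen V → closure Ω ⊆ V → ∀ (u : ℂ → ℂ), DifferentiableOn ℂ u V →
      ∀ (Q : Polynomial ℂ), AgreesOnSpectrum A u Q → ∀ a b,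
      Polynomial.aeval (S * A * S⁻¹) Q a b = (2 * Real.pi : ℂ)⁻¹ *
        (∫ θ in (0 : ℝ)..2 * Real.pi,
          ((ρ θ : ℂ) • Pk B (f (G (ee θ)))) a b * u (G (ee θ))) := by
    intro V hV hΩV u hu Q hQ a b
    obtain ⟨c, g, hg, hlim⟩ := T2b_taylor Ω U hΩ₁ hΩ₂ hU hΩU f hf₁ hf₂ hf₃ V hV hΩV u hu
    have hlimΩ : TendstoUniformlyOn
        (fun (N : ℕ) (z : ℂ) => ∑ k ∈ Finset.range N, c k * (f z) ^ k) u atTop Ω := by
      have h1 := hlim.comp f
      have h2 : TendstoUniformlyOn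
          (fun (N : ℕ) (z : ℂ) => ∑ k ∈ Finset.range N, c k * (f z) ^ k) (g ∘ f) atTop Ω := by
        refine h1.mono (fun z hz => ?_)
        have h3 : f z ∈ f '' Ω := ⟨z, hz, rfl⟩
        rw [hf₃] at h3
        exact Metric.ball_subset_closedBall h3
      exact h2.congr_right (fun z hz => hg z (subset_closure hz))
    have L1 := T2c_limit (S * A * S⁻¹) Ω hΩ₁ hspecΩ f u (hf₁.mono (subset_closure.trans hΩU))
      (hu.mono (subset_closure.trans hΩV)) p Q (hagree f p hp) (hagree u Q hQ) c hlimΩ a b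
    have L2 := T2d_integral_limit (fun w => Pk B w a b) (T2a_continuousOn B hBs a b) c g hlim
    simp only [T2a_moment B hBc hBs] at L2
    rw [← hBdef] at L1
    have heq := tendsto_nhds_unique L1 L2
    rw [heq]
    congr 1
    have hgc : ContinuousOn g (Metric.closedBall 0 1) :=
      hlim.continuousOn (Frequently.of_forall (fun N => by fun_prop))
    have h4 := hρF (fun w => Pk B w a b * g w)
      ((T2a_continuousOn B hBs a b).mul (hgc.mono Metric.sphere_subset_closedBall))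
    rw [← h4]
    apply intervalIntegral.integral_congr
    intro θ _
    simp only [Matrix.smul_apply, smul_eq_mul]
    rw [hg _ (hGcl _ (hee θ))]
    ring
  have hΛc : Continuous (fun θ : ℝ => (ρ θ : ℂ) • Pk B (f (G (ee θ)))) := by
    apply continuous_matrix
    intro a b
    simp only [Matrix.smul_apply, smul_eq_mul]
    exact (Complex.continuous_ofReal.comp hρc).mul
      ((T2a_continuousOn B hBs a b).comp_continuous hhc hh1)
  have hΛp : ∀ θ : ℝ, ((ρ θ : ℂ) • Pk B (f (G (ee θ)))).PosSemidef := by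
    intro θ
    exact (T2a_posSemidef B hBc hBs _ (hh1 θ)).smul (by exact_mod_cast hρ0 θ)
  have hΛm : ∀ a b, (2 * Real.pi : ℂ)⁻¹ * (∫ θ in (0 : ℝ)..2 * Real.pi,
      ((ρ θ : ℂ) • Pk B (f (G (ee θ)))) a b) = (1 : Matrix (Fin n) (Fin n) ℂ) a b := by
    intro a b
    have h1 := key Set.univ isOpen_univ (Set.subset_univ _) (fun _ => 1)
      (differentiableOn_const _) 1 (by
        intro μ _ j _
        simp only [Polynomial.eval_one]) a b
    simp only [mul_one, map_one] at h1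
    exact h1.symm
  refine ⟨fun θ => (ρ θ : ℂ) • Pk B (f (G (ee θ))), hΛc, ?_, hΛp, hΛm, ?_⟩
  · intro θ
    simp only [hρp θ, heep θ]
  intro m hm V hV hΩV v hv q hq
  have hrep : ∀ a b c d, Polynomial.aeval (S * A * S⁻¹) (q c d) a b =
      (2 * Real.pi : ℂ)⁻¹ * (∫ θ in (0 : ℝ)..2 * Real.pi,
        ((ρ θ : ℂ) • Pk B (f (G (ee θ)))) a b * v (G (ee θ)) c d) :=
    fun a b c d => key V hV hΩV (fun z => v z c d) (hv c d) (q c d) (hq c d) a b
  refine ⟨hrep, ?_⟩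
  intro M hM
  have hGc : Continuous (fun θ : ℝ => G (ee θ)) := by
    refine hG₁.continuousOn.comp_continuous heec (fun θ => ?_)
    have h1 : ‖ee θ‖ = 1 := by simpa using hee θ
    simp only [Set.mem_setOf_eq, h1]
    exact hr₂
  have hWc : ∀ c d, Continuous fun θ : ℝ => v (G (ee θ)) c d := by
    intro c d
    exact (hv c d).continuousOn.comp_continuous hGc (fun θ => hΩV (hGcl _ (hee θ)))
  have hX := T4_ucp (fun θ => (ρ θ : ℂ) • Pk B (f (G (ee θ)))) hΛc hΛp hΛm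
    (fun θ => v (G (ee θ))) hWc M (fun θ => hM _ (hGcl _ (hee θ)))
    (Matrix.of fun (i : Fin n × Fin m) (j : Fin n × Fin m) =>
      Polynomial.aeval (S * A * S⁻¹) (q i.2 j.2) i.1 j.1)
    (fun a b c d => hrep a b c d)
  have hconj := T5_conj H S κsq hH1 hH2 hS₁ hS₂
    (fun c d => Polynomial.aeval (S * A * S⁻¹) (q c d))
  have hback : ∀ Q : Polynomial ℂ,
      S⁻¹ * Polynomial.aeval (S * A * S⁻¹) Q * S = Polynomial.aeval A Q := by
    intro Q
    rw [T3_aeval S A hSi1 hSi2 Q]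
    calc S⁻¹ * (S * Polynomial.aeval A Q * S⁻¹) * S
        = (S⁻¹ * S) * Polynomial.aeval A Q * (S⁻¹ * S) := by simp only [mul_assoc]
      _ = Polynomial.aeval A Q := by rw [hSi2, one_mul, mul_one]
  simp only [hback] at hconj
  exact hconj.trans (mul_le_mul_of_nonneg_left hX (Real.sqrt_nonneg _))

end Crest.Agent.S0181
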