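import Crest.Statements.S0359

set_option autoImplicit false
open MeasureTheory
open scoped ENNReal
open Crest Crest.GeometryTopology

namespace Crest.Agent.S0359



/-- `|a|^q = (a^2)^(q/2)`. -/
theorem abs_rpow_eq (a q : ℝ) : |a| ^ q = (a ^ 2) ^ (q / 2) := by
  have h : a ^ 2 = |a| ^ (2 : ℝ) := by
    rw [Real.rpow_two, sq_abs]
  rw [h, ← Real.rpow_mul (abs_nonneg a)]
  congr 1
  ring

theorem superadd_strict {r x y : ℝ} (hr : 1 < r) (hx : 0 < x) (hy : 0 < y) :
    x ^ r + y ^ r < (x + y) ^ r := by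
  have hxy : 0 < x + y := by positivity
  have e1 : x ^ r = x * x ^ (r - 1) := by
    rw [Real.rpow_sub_one hx.ne']; field_simp
  have e2 : y ^ r = y * y ^ (r - 1) := by
    rw [Real.rpow_sub_one hy.ne']; field_simp
  have e3 : (x + y) ^ r = (x + y) * (x + y) ^ (r - 1) := by
    rw [Real.rpow_sub_one hxy.ne']; field_simp
  have l1 : x ^ (r - 1) < (x + y) ^ (r - 1) :=
    Real.rpow_lt_rpow hx.le (by linarith) (by linarith)
  have l2 : y ^ (r - 1) < (x + y) ^ (r - 1) :=
    Real.rpow_lt_rpow hy.le (by linarith) (by linarith)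
  rw [e1, e2, e3]
  nlinarith [mul_lt_mul_of_pos_left l1 hx, mul_lt_mul_of_pos_left l2 hy]

theorem subadd_strict {r x y : ℝ} (hr : r < 1) (hx : 0 < x) (hy : 0 < y) :
    (x + y) ^ r < x ^ r + y ^ r := by
  have hxy : 0 < x + y := by positivity
  have e1 : x ^ r = x * x ^ (r - 1) := by
    rw [Real.rpow_sub_one hx.ne']; field_simp
  have e2 : y ^ r = y * y ^ (r - 1) := by
    rw [Real.rpow_sub_one hy.ne']; field_simp
  have e3 : (x + y) ^ r = (x + y) * (x + y) ^ (r - 1) := by
    rw [Real.rpow_sub_one hxy.ne']; field_simp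
  have l1 : (x + y) ^ (r - 1) < x ^ (r - 1) :=
    Real.rpow_lt_rpow_of_neg hx (by linarith) (by linarith)
  have l2 : (x + y) ^ (r - 1) < y ^ (r - 1) :=
    Real.rpow_lt_rpow_of_neg hy (by linarith) (by linarith)
  rw [e1, e2, e3]
  nlinarith [mul_lt_mul_of_pos_left l1 hx, mul_lt_mul_of_pos_left l2 hy]

/-- The Lamperti defect. -/
noncomputable def delta (q a b : ℝ) : ℝ := |a + b| ^ q + |a - b| ^ q - 2 * |a| ^ q - 2 * |b| ^ q

theorem delta_of_mul_eq_zero {q a b : ℝ} (hq : q ≠ 0) (h : a * b = 0) : delta q a b = 0 := by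
  rcases mul_eq_zero.1 h with h | h
  · subst h
    simp [delta, Real.zero_rpow hq]; ring
  · subst h
    simp [delta, Real.zero_rpow hq]; ring

theorem delta_pos {q a b : ℝ} (hq : 2 < q) (h : a * b ≠ 0) : 0 < delta q a b := by
  have ha : a ≠ 0 := left_ne_zero_of_mul h
  have hb : b ≠ 0 := right_ne_zero_of_mul h
  have hx : 0 < a ^ 2 := by positivity
  have hy : 0 < b ^ 2 := by positivity
  have hr : 1 < q / 2 := by linarith
  unfold delta
  rw [abs_rpow_eq (a + b), abs_rpow_eq (a - b), abs_rpow_eq a, abs_rpow_eq b]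
  have hs := superadd_strict hr hx hy
  have m1 : (a + b) ^ 2 ∈ Set.Ici (0 : ℝ) := Set.mem_Ici.2 (sq_nonneg _)
  have m2 : (a - b) ^ 2 ∈ Set.Ici (0 : ℝ) := Set.mem_Ici.2 (sq_nonneg _)
  have hconv := (convexOn_rpow hr.le).2 m1 m2 (by norm_num : (0 : ℝ) ≤ 1 / 2)
    (by norm_num : (0 : ℝ) ≤ 1 / 2) (by norm_num)
  simp only [smul_eq_mul] at hconv
  have e : (1 / 2 : ℝ) * (a + b) ^ 2 + 1 / 2 * (a - b) ^ 2 = a ^ 2 + b ^ 2 := by ring
  rw [e] at hconv
  linarith

theorem delta_neg {q a b : ℝ} (hq0 : 0 < q) (hq : q < 2) (h : a * b ≠ 0) : delta q a b < 0 := by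
  have ha : a ≠ 0 := left_ne_zero_of_mul h
  have hb : b ≠ 0 := right_ne_zero_of_mul h
  have hx : 0 < a ^ 2 := by positivity
  have hy : 0 < b ^ 2 := by positivity
  have hr : q / 2 < 1 := by linarith
  unfold delta
  rw [abs_rpow_eq (a + b), abs_rpow_eq (a - b), abs_rpow_eq a, abs_rpow_eq b]
  have hs := subadd_strict hr hx hy
  have m1 : (a + b) ^ 2 ∈ Set.Ici (0 : ℝ) := Set.mem_Ici.2 (sq_nonneg _)
  have m2 : (a - b) ^ 2 ∈ Set.Ici (0 : ℝ) := Set.mem_Ici.2 (sq_nonneg _)
  have hconv := (Real.concaveOn_rpow (p := q / 2) (by linarith) hr.le).2 m1 m2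
    (by norm_num : (0 : ℝ) ≤ 1 / 2) (by norm_num : (0 : ℝ) ≤ 1 / 2) (by norm_num)
  simp only [smul_eq_mul] at hconv
  have e : (1 / 2 : ℝ) * (a + b) ^ 2 + 1 / 2 * (a - b) ^ 2 = a ^ 2 + b ^ 2 := by ring
  rw [e] at hconv
  linarith

/-- Sum form of Lamperti's equality case. -/
theorem sum_delta_eq_zero_iff {κ : Type*} [Fintype κ] {q : ℝ} (hq0 : 0 < q) (hq2 : q ≠ 2)
    (u v : κ → ℝ) : (∑ k, delta q (u k) (v k) = 0) ↔ ∀ k, u k * v k = 0 := by
  constructor
  · intro h k
    by_contra hk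
    rcases lt_or_gt_of_ne hq2 with hlt | hgt
    · have hle : ∀ j ∈ Finset.univ, delta q (u j) (v j) ≤ 0 := by
        intro j _
        by_cases hj : u j * v j = 0
        · exact (delta_of_mul_eq_zero hq0.ne' hj).le
        · exact (delta_neg hq0 hlt hj).le
      have := Finset.sum_lt_sum hle ⟨k, Finset.mem_univ k, delta_neg hq0 hlt hk⟩
      simp at this
      linarith
    · have hle : ∀ j ∈ Finset.univ, 0 ≤ delta q (u j) (v j) := by
        intro j _
        by_cases hj : u j * v j = 0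
        · exact (delta_of_mul_eq_zero hq0.ne' hj).ge
        · exact (delta_pos hgt hj).le
      have := Finset.sum_lt_sum hle ⟨k, Finset.mem_univ k, delta_pos hgt hk⟩
      simp at this
      linarith
  · intro h
    exact Finset.sum_eq_zero (fun k _ => delta_of_mul_eq_zero hq0.ne' (h k))



theorem mid_lt {q a b : ℝ} (hq : 1 < q) (h : a ≠ b) :
    |(a + b) / 2| ^ q < (|a| ^ q + |b| ^ q) / 2 := by
  have hq0 : 0 < q := by linarith
  by_cases hab : |a| = |b|
  · -- then a = -b
    rcases abs_eq_abs.1 hab with h1 | h1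
    · exact absurd h1 h
    · have hb : b ≠ 0 := by
        rintro rfl
        exact h (by simpa using h1)
      have : (a + b) / 2 = 0 := by rw [h1]; ring
      rw [this, abs_zero, Real.zero_rpow hq0.ne']
      have : 0 < |b| ^ q := Real.rpow_pos_of_pos (abs_pos.2 hb) _
      have h2 : 0 ≤ |a| ^ q := Real.rpow_nonneg (abs_nonneg _) _
      linarith
  · have m1 : |a| ∈ Set.Ici (0 : ℝ) := Set.mem_Ici.2 (abs_nonneg _)
    have m2 : |b| ∈ Set.Ici (0 : ℝ) := Set.mem_Ici.2 (abs_nonneg _)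
    have hs := (strictConvexOn_rpow hq).2 m1 m2 hab (by norm_num : (0 : ℝ) < 1 / 2)
      (by norm_num : (0 : ℝ) < 1 / 2) (by norm_num)
    simp only [smul_eq_mul] at hs
    have hle : |(a + b) / 2| ≤ 1 / 2 * |a| + 1 / 2 * |b| := by
      rw [abs_div, abs_two]
      have := abs_add_le a b
      linarith
    have := Real.rpow_le_rpow (abs_nonneg _) hle hq0.le
    linarith

theorem eq_of_sum_mid {κ : Type*} [Fintype κ] {q : ℝ} (hq : 1 < q) (u v : κ → ℝ)
    (h : ∑ k, |(u k + v k) / 2| ^ q = (∑ k, |u k| ^ q + ∑ k, |v k| ^ q) / 2) : u = v := by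
  by_contra hne
  obtain ⟨k, hk⟩ := Function.ne_iff.1 hne
  have hle : ∀ j ∈ Finset.univ, |(u j + v j) / 2| ^ q ≤ (|u j| ^ q + |v j| ^ q) / 2 := by
    intro j _
    by_cases hj : u j = v j
    · rw [hj]
      have : (v j + v j) / 2 = v j := by ring
      rw [this]; linarith
    · exact (mid_lt hq hj).le
  have hlt := Finset.sum_lt_sum hle ⟨k, Finset.mem_univ k, mid_lt hq hk⟩
  rw [← Finset.sum_div, Finset.sum_add_distrib] at hlt
  linarith

/-- `‖X‖^q` in the finite-dimensional `ℓ^p` space. -/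
theorem piLp_norm_rpow (p : ℝ≥0∞) [Fact (1 ≤ p)] (hptop : p ≠ ⊤) (d : ℕ)
    (X : PiLp p (fun _ : Fin d => ℝ)) : ‖X‖ ^ p.toReal = ∑ k, |X k| ^ p.toReal := by
  have hp0 : 0 < p.toReal := by
    have : (1 : ℝ≥0∞) ≤ p := Fact.out
    exact ENNReal.toReal_pos (by intro h; rw [h] at this; simp at this) hptop
  rw [PiLp.norm_eq_sum hp0]
  rw [← Real.rpow_mul (Finset.sum_nonneg (fun i _ => Real.rpow_nonneg (norm_nonneg _) _))]
  rw [one_div, inv_mul_cancel₀ hp0.ne', Real.rpow_one]
  rfl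

/-- The `L^p` class of a function on a finite discrete space with counting measure. -/
noncomputable def T (p : ℝ≥0∞) {α : Type} [Fintype α] [MeasurableSpace α] [DiscreteMeasurableSpace α]
    (u : α → ℝ) : Lp ℝ p (Measure.count : Measure α) :=
  (MemLp.of_discrete : MemLp u p (Measure.count : Measure α)).toLp u

theorem T_sub (p : ℝ≥0∞) {α : Type} [Fintype α] [MeasurableSpace α] [DiscreteMeasurableSpace α]
    (u v : α → ℝ) : T p u - T p v = T p (u - v) := by
  unfold T
  rw [← MemLp.toLp_sub]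

theorem T_norm_rpow (p : ℝ≥0∞) [Fact (1 ≤ p)] (hptop : p ≠ ⊤) {α : Type} [Fintype α]
    [MeasurableSpace α] [DiscreteMeasurableSpace α] (u : α → ℝ) :
    ‖T p u‖ ^ p.toReal = ∑ a, |u a| ^ p.toReal := by
  have hp1 : (1 : ℝ≥0∞) ≤ p := Fact.out
  have hp00 : p ≠ 0 := by intro h; rw [h] at hp1; simp at hp1
  have hp0 : 0 < p.toReal := ENNReal.toReal_pos hp00 hptop
  unfold T
  rw [Lp.norm_toLp, eLpNorm_eq_lintegral_rpow_enorm_toReal hp00 hptop, lintegral_fintype]
  simp only [Measure.count_singleton, mul_one]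
  rw [← ENNReal.toReal_rpow, ← Real.rpow_mul ENNReal.toReal_nonneg, one_div,
    inv_mul_cancel₀ hp0.ne', Real.rpow_one]
  rw [ENNReal.toReal_sum]
  · apply Finset.sum_congr rfl
    intro a _
    rw [← ENNReal.toReal_rpow, toReal_enorm, Real.norm_eq_abs]
  · intro a _
    exact ENNReal.rpow_ne_top_of_nonneg hp0.le enorm_ne_top


section main

variable (p : ℝ≥0∞) [Fact (1 ≤ p)]

omit [Fact (1 ≤ p)] in
theorem toReal_facts (hp1 : 1 < p) (hptop : p ≠ ⊤) (hp2 : p ≠ 2) :
    1 < p.toReal ∧ p.toReal ≠ 2 := by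
  constructor
  · have := (ENNReal.toReal_lt_toReal (by simp) hptop).2 hp1
    simpa using this
  · intro h
    apply hp2
    have : p = ENNReal.ofReal p.toReal := (ENNReal.ofReal_toReal hptop).symm
    rw [this, h]
    simp

/-- Transfer of distances. -/
theorem dist_transfer (hptop : p ≠ ⊤) {α : Type} [Fintype α] [MeasurableSpace α]
    [DiscreteMeasurableSpace α] {n d : ℕ} (x : Fin n → Lp ℝ p (Measure.count : Measure α))
    (y : Fin n → PiLp p (fun _ : Fin d => ℝ)) (s : ℝ) (hs : 0 < s)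
    (hy : ∀ i j, ‖y i - y j‖ = s * ‖x i - x j‖) {k l : Fin n} {u v : α → ℝ}
    (hk : x k = T p u) (hl : x l = T p v) :
    ∑ c, |y k c - y l c| ^ p.toReal = s ^ p.toReal * ∑ a, |u a - v a| ^ p.toReal := by
  have h1 := piLp_norm_rpow p hptop d (y k - y l)
  have h2 := T_norm_rpow p hptop (u - v)
  rw [hy, hk, hl, T_sub, Real.mul_rpow hs.le (norm_nonneg _), h2] at h1
  simpa using h1.symm

/-- Midpoints are preserved: the image of `-w` is the reflection of the image of `w`. -/
theorem mid_transfer (hp1 : 1 < p) (hptop : p ≠ ⊤) {α : Type} [Fintype α] [MeasurableSpace α]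
    [DiscreteMeasurableSpace α] {n d : ℕ} (x : Fin n → Lp ℝ p (Measure.count : Measure α))
    (y : Fin n → PiLp p (fun _ : Fin d => ℝ)) (s : ℝ) (hs : 0 < s)
    (hy : ∀ i j, ‖y i - y j‖ = s * ‖x i - x j‖) {k0 k1 k2 : Fin n} {w : α → ℝ}
    (h0 : x k0 = T p 0) (h1 : x k1 = T p w) (h2 : x k2 = T p (-w)) (c : Fin d) :
    y k1 c - y k0 c = y k0 c - y k2 c := by
  have hq : 1 < p.toReal := by
    have := (ENNReal.toReal_lt_toReal (by simp) hptop).2 hp1
    simpa using this
  have hq0 : 0 < p.toReal := by linarith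
  have e1 := dist_transfer p hptop x y s hs hy h1 h0
  have e2 := dist_transfer p hptop x y s hs hy h0 h2
  have e3 := dist_transfer p hptop x y s hs hy h1 h2
  have key := eq_of_sum_mid hq (fun c => y k1 c - y k0 c) (fun c => y k0 c - y k2 c) ?_
  · exact congrFun key c
  · simp only
    rw [e1, e2]
    have l1 : ∀ c, |(y k1 c - y k0 c + (y k0 c - y k2 c)) / 2| ^ p.toReal
        = (1 / 2) ^ p.toReal * |y k1 c - y k2 c| ^ p.toReal := by
      intro c
      have : (y k1 c - y k0 c + (y k0 c - y k2 c)) / 2 = (1 / 2) * (y k1 c - y k2 c) := by ring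
      rw [this, abs_mul, Real.mul_rpow (abs_nonneg _) (abs_nonneg _)]
      congr 2
      rw [abs_of_pos]; norm_num
    simp only [l1]
    rw [← Finset.mul_sum, e3]
    have l2 : ∀ a, |w a - (-w) a| ^ p.toReal = 2 ^ p.toReal * |w a| ^ p.toReal := by
      intro a
      have : w a - (-w) a = 2 * w a := by simp; ring
      rw [this, abs_mul, Real.mul_rpow (abs_nonneg _) (abs_nonneg _), abs_two]
    have l3 : ∀ a, |w a - (0 : α → ℝ) a| ^ p.toReal = |w a| ^ p.toReal := by
      intro a; simp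
    have l4 : ∀ a, |(0 : α → ℝ) a - (-w) a| ^ p.toReal = |w a| ^ p.toReal := by
      intro a; simp
    simp only [l2, l3, l4]
    rw [← Finset.mul_sum]
    have l5 : ((1 : ℝ) / 2) ^ p.toReal * 2 ^ p.toReal = 1 := by
      rw [← Real.mul_rpow (by norm_num) (by norm_num)]
      norm_num
    calc (1 / 2 : ℝ) ^ p.toReal * (s ^ p.toReal * (2 ^ p.toReal * ∑ a, |w a| ^ p.toReal))
        = ((1 / 2 : ℝ) ^ p.toReal * 2 ^ p.toReal) * (s ^ p.toReal * ∑ a, |w a| ^ p.toReal) := by ring
      _ = _ := by rw [l5]; ring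

/-- Disjointness of supports is preserved in both directions. -/
theorem lamperti_transfer (hp1 : 1 < p) (hptop : p ≠ ⊤) (hp2 : p ≠ 2) {α : Type} [Fintype α]
    [MeasurableSpace α] [DiscreteMeasurableSpace α] {n d : ℕ}
    (x : Fin n → Lp ℝ p (Measure.count : Measure α))
    (y : Fin n → PiLp p (fun _ : Fin d => ℝ)) (s : ℝ) (hs : 0 < s)
    (hy : ∀ i j, ‖y i - y j‖ = s * ‖x i - x j‖) {k0 k1 k2 k2' : Fin n} {w1 w2 : α → ℝ}
    (h0 : x k0 = T p 0) (h1 : x k1 = T p w1) (h2 : x k2 = T p w2) (h2' : x k2' = T p (-w2)) :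
    (∀ c, (y k1 c - y k0 c) * (y k2 c - y k0 c) = 0) ↔ ∀ a, w1 a * w2 a = 0 := by
  obtain ⟨hq, hq2⟩ := toReal_facts p hp1 hptop hp2
  have hq0 : 0 < p.toReal := by linarith
  rw [← sum_delta_eq_zero_iff hq0 hq2, ← sum_delta_eq_zero_iff hq0 hq2]
  have hmid := mid_transfer p hp1 hptop x y s hs hy h0 h2 h2'
  have e1 := dist_transfer p hptop x y s hs hy h1 h0
  have e2 := dist_transfer p hptop x y s hs hy h2 h0
  have e3 := dist_transfer p hptop x y s hs hy h1 h2
  have e4 := dist_transfer p hptop x y s hs hy h1 h2'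
  have hsum : ∑ c, delta p.toReal (y k1 c - y k0 c) (y k2 c - y k0 c)
      = s ^ p.toReal * ∑ a, delta p.toReal (w1 a) (w2 a) := by
    unfold delta
    have r1 : ∀ c, y k1 c - y k0 c + (y k2 c - y k0 c) = y k1 c - y k2' c := by
      intro c; have := hmid c; linarith
    have r2 : ∀ c, y k1 c - y k0 c - (y k2 c - y k0 c) = y k1 c - y k2 c := by
      intro c; ring
    simp only [r1, r2]
    simp only [Finset.sum_sub_distrib, Finset.sum_add_distrib, ← Finset.mul_sum]
    rw [e1, e2, e3, e4]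
    simp only [Pi.zero_apply, sub_zero, Pi.neg_apply, sub_neg_eq_add]
    ring
  rw [hsum]
  have hspos : 0 < s ^ p.toReal := Real.rpow_pos_of_pos hs _
  constructor
  · intro h
    rcases mul_eq_zero.1 h with h | h
    · exact absurd h hspos.ne'
    · exact h
  · intro h
    rw [h, mul_zero]

theorem T_ne_zero (hptop : p ≠ ⊤) {α : Type} [Fintype α] [MeasurableSpace α]
    [DiscreteMeasurableSpace α] (u : α → ℝ) (a : α) (ha : u a ≠ 0) : T p u ≠ 0 := by
  have hp1 : (1 : ℝ≥0∞) ≤ p := Fact.out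
  have hp00 : p ≠ 0 := by intro h; rw [h] at hp1; simp at hp1
  have hp0 : 0 < p.toReal := ENNReal.toReal_pos hp00 hptop
  intro h
  have h1 := T_norm_rpow p hptop u
  rw [h, norm_zero, Real.zero_rpow hp0.ne'] at h1
  have h2 : 0 < |u a| ^ p.toReal := Real.rpow_pos_of_pos (abs_pos.2 ha) _
  have h3 : |u a| ^ p.toReal ≤ ∑ b, |u b| ^ p.toReal :=
    Finset.single_le_sum (f := fun b => |u b| ^ p.toReal)
      (fun b _ => Real.rpow_nonneg (abs_nonneg _) _) (Finset.mem_univ a)
  linarith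

theorem main (hp1 : 1 < p) (hptop : p ≠ ⊤) (hp2 : p ≠ 2)
    (n : ℕ) (hn : 9 ≤ n) (d : ℕ)
    (hd : ∀ (α : Type) [MeasurableSpace α] (μ : Measure α) (x : Fin n → Lp ℝ p μ),
      Function.Injective x →
      ∃ (y : Fin n → PiLp p (fun _ : Fin d => ℝ)) (s : ℝ), 0 < s ∧
        ∀ i j, ‖y i - y j‖ = s * ‖x i - x j‖) :
    ((n - 1) / 4) ^ 2 ≤ d := by
  classical
  obtain ⟨m, hm⟩ : ∃ m, m = (n - 1) / 4 := ⟨_, rfl⟩
  rw [← hm]
  have hm2 : 2 ≤ m := by omega
  have hmn : 1 + (m + m) + (m + m) ≤ n := by omega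
  let W : Fin m ⊕ Fin m → (Fin m × Fin m → ℝ) := fun c =>
    Sum.elim (fun i a => if a.1 = i then 1 else 0) (fun j a => if a.2 = j then 1 else 0) c
  let S : Finset (Lp ℝ p (Measure.count : Measure (Fin m × Fin m))) :=
    ({T p 0} ∪ Finset.univ.image (fun c => T p (W c))) ∪ Finset.univ.image (fun c => T p (-(W c)))
  have hScard : S.card ≤ n := by
    refine le_trans (Finset.card_union_le _ _) ?_
    refine le_trans (Nat.add_le_add (Finset.card_union_le _ _) Finset.card_image_le) ?_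
    refine le_trans (Nat.add_le_add (Nat.add_le_add (le_of_eq (Finset.card_singleton _))
      Finset.card_image_le) le_rfl) ?_
    simpa using hmn
  have i0 : Fin m := ⟨0, by omega⟩
  have hv : T p (W (Sum.inl i0)) ≠ 0 := T_ne_zero p hptop _ (i0, i0) (by simp [W])
  have : Infinite (Lp ℝ p (Measure.count : Measure (Fin m × Fin m))) :=
    Infinite.of_injective (fun r : ℝ => r • T p (W (Sum.inl i0))) (smul_left_injective ℝ hv)
  obtain ⟨t, hSt, htc⟩ := Infinite.exists_superset_card_eq S n hScard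
  let e := Finset.equivFinOfCardEq htc
  let x : Fin n → Lp ℝ p (Measure.count : Measure (Fin m × Fin m)) := fun k => (e.symm k : _)
  have hxinj : Function.Injective x := Subtype.val_injective.comp e.symm.injective
  have hidx : ∀ P ∈ S, ∃ k, x k = P := fun P hP => ⟨e ⟨P, hSt hP⟩, by simp [x]⟩
  obtain ⟨y, s, hs, hy⟩ := hd (Fin m × Fin m) Measure.count x hxinj
  obtain ⟨k0, h0⟩ := hidx (T p 0) (by simp [S])
  have h1 : ∀ c, ∃ k, x k = T p (W c) := fun c => hidx _ (by
    apply Finset.mem_union_left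
    apply Finset.mem_union_right
    exact Finset.mem_image_of_mem _ (Finset.mem_univ c))
  have h2 : ∀ c, ∃ k, x k = T p (-(W c)) := fun c => hidx _ (by
    apply Finset.mem_union_right
    exact Finset.mem_image_of_mem (fun c => T p (-(W c))) (Finset.mem_univ c))
  choose ka hka using h1
  choose kb hkb using h2
  have key : ∀ c c', (∀ l, (y (ka c) l - y k0 l) * (y (ka c') l - y k0 l) = 0) ↔
      ∀ a, W c a * W c' a = 0 :=
    fun c c' => lamperti_transfer p hp1 hptop hp2 x y s hs hy h0 (hka c) (hka c') (hkb c')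
  have hex : ∀ ij : Fin m × Fin m, ∃ l,
      (y (ka (Sum.inl ij.1)) l - y k0 l) * (y (ka (Sum.inr ij.2)) l - y k0 l) ≠ 0 := by
    intro ij
    by_contra hcon
    have hcon' : ∀ l, (y (ka (Sum.inl ij.1)) l - y k0 l) * (y (ka (Sum.inr ij.2)) l - y k0 l) = 0 :=
      fun l => by_contra (fun h => hcon ⟨l, h⟩)
    have := (key (Sum.inl ij.1) (Sum.inr ij.2)).1 hcon' ij
    simp [W] at this
  choose κ hκ using hex
  have hinj : Function.Injective κ := by
    intro ij ij' h
    have a1 := hκ ij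
    have a2 := hκ ij'
    rw [← h] at a2
    apply Prod.ext
    · by_contra hne
      have hz := (key (Sum.inl ij.1) (Sum.inl ij'.1)).2 (by
        intro a
        simp only [W, Sum.elim_inl]
        by_cases h1 : a.1 = ij.1
        · have : a.1 ≠ ij'.1 := fun h2 => hne (h1.symm.trans h2)
          simp [this]
        · simp [h1]) (κ ij)
      rcases mul_eq_zero.1 hz with hz | hz
      · exact a1 (by rw [hz, zero_mul])
      · exact a2 (by rw [hz, zero_mul])
    · by_contra hne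
      have hz := (key (Sum.inr ij.2) (Sum.inr ij'.2)).2 (by
        intro a
        simp only [W, Sum.elim_inr]
        by_cases h1 : a.2 = ij.2
        · have : a.2 ≠ ij'.2 := fun h2 => hne (h1.symm.trans h2)
          simp [this]
        · simp [h1]) (κ ij)
      rcases mul_eq_zero.1 hz with hz | hz
      · exact a1 (by rw [hz, mul_zero])
      · exact a2 (by rw [hz, mul_zero])
  have := Fintype.card_le_of_injective κ hinj
  simpa [pow_two] using this

end main



/-- Fix an exponent 1 < p < ∞ with p ≠ 2 and n ≥ 9. If d is a dimension such that every n distinct points of any real L^p space can be mapped to the d-dimensional real ℓ^p space with all pairwise distances multiplied by one common factor s > 0 (an isometric embedding up to scaling), then ⌊(n − 1)/4⌋² ≤ d. -/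
theorem result
    (p : ℝ≥0∞) [Fact (1 ≤ p)] (hp1 : 1 < p) (hptop : p ≠ ⊤) (hp2 : p ≠ 2)
    (n : ℕ) (hn : 9 ≤ n) (d : ℕ)
    (hd : ∀ (α : Type) [MeasurableSpace α] (μ : Measure α) (x : Fin n → Lp ℝ p μ),
      Function.Injective x →
      ∃ (y : Fin n → PiLp p (fun _ : Fin d => ℝ)) (s : ℝ), 0 < s ∧
        ∀ i j, ‖y i - y j‖ = s * ‖x i - x j‖) :
    ((n - 1) / 4) ^ 2 ≤ d := by
  exact main p hp1 hptop hp2 n hn d hd

end Crest.Agent.S0359
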