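-- Statement S0466 (row 304), proved alone (the row is unfinished: S0464, S0465, S0467 are missing).
-- Proof: Edmonds' perfect-matching-polytope theorem (Schrijver's short proof: Krein-Milman, an extreme
-- point with positive support has a nontrivial tight odd cut or the graph has at most 4 vertices;
-- contract both shores, glue the two convex combinations), then an induction over tight odd cuts that
-- bounds the rank of the equations valid on the minimal face by 3m - 2.
-- Team formalisation coordinated by helper7 (skeleton, edmonds, dim_main); chunks by helper93 (A),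
-- helper37 (B), helper94 (C), helper28 (D), helper34 (E, glue), helper82 (F), helper62 (G0, J),
-- helper18 (G1), helper51 (G2), helper13 (K).
import Crest.Statements.S0466

set_option autoImplicit false
open Crest.Matchings
open Crest Crest.LogicCS

namespace Crest.Agent.S0466

section General

variable {V E : Type} [Fintype V] [DecidableEq V] [Fintype E] [DecidableEq E]

/-- edges with exactly one end in `T` -/
def cut (ends : E → V × V) (T : Finset V) : Finset E :=
  Finset.univ.filter fun e => ¬ ((ends e).1 ∈ T ↔ (ends e).2 ∈ T)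

/-- edges with both ends in `T` -/
def ins (ends : E → V × V) (T : Finset V) : Finset E :=
  Finset.univ.filter fun e => (ends e).1 ∈ T ∧ (ends e).2 ∈ T

/-- the graph `(W, A, ends)`: active vertices `W`, active edges `A` -/
def WF (W : Finset V) (A : Finset E) (ends : E → V × V) : Prop :=
  ∀ e ∈ A, (ends e).1 ∈ W ∧ (ends e).2 ∈ W ∧ (ends e).1 ≠ (ends e).2

def PM (W : Finset V) (A : Finset E) (ends : E → V × V) (M : Finset E) : Prop :=
  M ⊆ A ∧ ∀ w ∈ W, (M ∩ cut ends {w}).card = 1

def ind (M : Finset E) : E → ℝ := fun e => if e ∈ M then 1 else 0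

def P (W : Finset V) (A : Finset E) (ends : E → V × V) : Set (E → ℝ) :=
  convexHull ℝ (ind '' {M | PM W A ends M})

def Q (W : Finset V) (A : Finset E) (ends : E → V × V) : Set (E → ℝ) :=
  {x | (∀ e, 0 ≤ x e) ∧ (∀ e, e ∉ A → x e = 0) ∧ (∀ w ∈ W, ∑ e ∈ cut ends {w}, x e = 1) ∧
    ∀ T, T ⊆ W → Odd T.card → 1 ≤ ∑ e ∈ cut ends T, x e}

/-- contraction of `S` to the vertex `s` -/
def con (S : Finset V) (s : V) (ends : E → V × V) : E → V × V :=
  fun e => (if (ends e).1 ∈ S then s else (ends e).1, if (ends e).2 ∈ S then s else (ends e).2)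

def conW (W S : Finset V) (s : V) : Finset V := insert s (W \ S)

def conA (A : Finset E) (S : Finset V) (ends : E → V × V) : Finset E :=
  A.filter fun e => ¬ ((ends e).1 ∈ S ∧ (ends e).2 ∈ S)

def res (A : Finset E) (x : E → ℝ) : E → ℝ := fun e => if e ∈ A then x e else 0

/-! ### Chunk A : basic cut identities -/

theorem cut_compl {W : Finset V} {A : Finset E} {ends : E → V × V} (hWF : WF W A ends)
    (y : E → ℝ) (hy : ∀ e, e ∉ A → y e = 0) (T : Finset V) :
    ∑ e ∈ cut ends (W \ T), y e = ∑ e ∈ cut ends T, y e := by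
  unfold cut
  rw [Finset.sum_filter, Finset.sum_filter]
  apply Finset.sum_congr rfl
  intro e _
  by_cases he : e ∈ A
  · obtain ⟨h1, h2, _⟩ := hWF e he
    simp only [Finset.mem_sdiff, h1, h2, true_and]
    by_cases a : (ends e).1 ∈ T <;> by_cases b : (ends e).2 ∈ T <;> simp [a, b]
  · simp [hy e he]

theorem A_aux_sum (T : Finset V) (a b : V) (hab : a ≠ b) (c : ℝ) :
    ∑ w ∈ T, (if ¬ (a ∈ ({w} : Finset V) ↔ b ∈ ({w} : Finset V)) then c else 0)
      = (if a ∈ T then c else 0) + (if b ∈ T then c else 0) := by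
  have h : ∀ w : V, (if ¬ (a ∈ ({w} : Finset V) ↔ b ∈ ({w} : Finset V)) then c else 0)
      = (if a = w then c else 0) + (if b = w then c else 0) := by
    intro w
    simp only [Finset.mem_singleton]
    by_cases h1 : a = w
    · have h2 : b ≠ w := fun h2 => hab (h1.trans h2.symm)
      simp [h1, h2]
    · by_cases h2 : b = w
      · simp [h1, h2]
      · simp [h1, h2]
  simp only [h]
  rw [Finset.sum_add_distrib, Finset.sum_ite_eq, Finset.sum_ite_eq]

theorem handshake {W : Finset V} {A : Finset E} {ends : E → V × V} (hWF : WF W A ends)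
    (y : E → ℝ) (hy : ∀ e, e ∉ A → y e = 0) (T : Finset V) :
    ∑ w ∈ T, ∑ e ∈ cut ends {w}, y e = 2 * ∑ e ∈ ins ends T, y e + ∑ e ∈ cut ends T, y e := by
  unfold cut ins
  simp only [Finset.sum_filter]
  rw [Finset.sum_comm, Finset.mul_sum, ← Finset.sum_add_distrib]
  apply Finset.sum_congr rfl
  intro e _
  by_cases he : e ∈ A
  · obtain ⟨_, _, hne⟩ := hWF e he
    rw [A_aux_sum T _ _ hne]
    by_cases a : (ends e).1 ∈ T <;> by_cases b : (ends e).2 ∈ T <;> simp [a, b] <;> ring
  · simp [hy e he]


/-! ### Chunk C1 -/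

/-! ### Chunk C (helper94): C1 + C2 in ONE block; place it at the position of C1 (before chunk B); depends on nothing but the defs -/

theorem Q_convex (W : Finset V) (A : Finset E) (ends : E → V × V) : Convex ℝ (Q W A ends) := by
  intro x hx y hy a b ha hb hab
  obtain ⟨hx1, hx2, hx3, hx4⟩ := hx
  obtain ⟨hy1, hy2, hy3, hy4⟩ := hy
  have hsum : ∀ s : Finset E,
      ∑ e ∈ s, (a • x + b • y) e = a * ∑ e ∈ s, x e + b * ∑ e ∈ s, y e := by
    intro s
    simp only [Pi.add_apply, Pi.smul_apply, smul_eq_mul, Finset.sum_add_distrib, Finset.mul_sum]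
  refine ⟨fun e => ?_, fun e he => ?_, fun w hw => ?_, fun T hT hodd => ?_⟩
  · simp only [Pi.add_apply, Pi.smul_apply, smul_eq_mul]
    have h1 := hx1 e
    have h2 := hy1 e
    positivity
  · simp only [Pi.add_apply, Pi.smul_apply, smul_eq_mul, hx2 e he, hy2 e he]
    ring
  · rw [hsum, hx3 w hw, hy3 w hw]
    linarith
  · rw [hsum]
    have h1 := hx4 T hT hodd
    have h2 := hy4 T hT hodd
    nlinarith

theorem C_isClosed_Q (W : Finset V) (A : Finset E) (ends : E → V × V) :
    IsClosed (Q W A ends) := by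
  have h1 : IsClosed {x : E → ℝ | ∀ e, 0 ≤ x e} := by
    simp only [Set.ofPred_forall]
    exact isClosed_iInter fun e => isClosed_le continuous_const (continuous_apply e)
  have h2 : IsClosed {x : E → ℝ | ∀ e, e ∉ A → x e = 0} := by
    simp only [Set.ofPred_forall]
    exact isClosed_iInter fun e => isClosed_iInter fun _ =>
      isClosed_eq (continuous_apply e) continuous_const
  have h3 : IsClosed {x : E → ℝ | ∀ w ∈ W, ∑ e ∈ cut ends {w}, x e = 1} := by
    simp only [Set.ofPred_forall]
    exact isClosed_iInter fun w => isClosed_iInter fun _ =>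
      isClosed_eq (continuous_finsetSum _ fun e _ => continuous_apply e) continuous_const
  have h4 : IsClosed {x : E → ℝ | ∀ T, T ⊆ W → Odd T.card → 1 ≤ ∑ e ∈ cut ends T, x e} := by
    simp only [Set.ofPred_forall]
    exact isClosed_iInter fun T => isClosed_iInter fun _ => isClosed_iInter fun _ =>
      isClosed_le continuous_const (continuous_finsetSum _ fun e _ => continuous_apply e)
  exact h1.inter (h2.inter (h3.inter h4))

theorem C_le_one {W : Finset V} {A : Finset E} {ends : E → V × V} (hWF : WF W A ends)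
    {x : E → ℝ} (hx : x ∈ Q W A ends) (e : E) : x e ≤ 1 := by
  by_cases heA : e ∈ A
  · obtain ⟨h1, _, h3⟩ := hWF e heA
    have hmem : e ∈ cut ends {(ends e).1} := by
      simp only [cut, Finset.mem_filter, Finset.mem_univ, true_and, Finset.mem_singleton]
      intro h
      exact h3 (h.mp trivial).symm
    have hle : x e ≤ ∑ e' ∈ cut ends {(ends e).1}, x e' :=
      Finset.single_le_sum (f := fun e' => x e') (fun e' _ => hx.1 e') hmem
    rw [hx.2.2.1 _ h1] at hle
    exact hle
  · rw [hx.2.1 e heA]
    exact zero_le_one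

theorem Q_compact {W : Finset V} {A : Finset E} {ends : E → V × V} (hWF : WF W A ends) :
    IsCompact (Q W A ends) := by
  refine (isCompact_Icc (a := (0 : E → ℝ)) (b := 1)).of_isClosed_subset
    (C_isClosed_Q W A ends) ?_
  intro x hx
  exact ⟨fun e => hx.1 e, fun e => C_le_one hWF hx e⟩

theorem Q_even {W : Finset V} {A : Finset E} {ends : E → V × V} (hWF : WF W A ends)
    {x : E → ℝ} (hx : x ∈ Q W A ends) : Even W.card := by
  by_contra hne
  have hodd : Odd W.card := Nat.not_even_iff_odd.mp hne
  have h := hx.2.2.2 W (Finset.Subset.refl _) hodd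
  have h0 : ∑ e ∈ cut ends W, x e = 0 := by
    apply Finset.sum_eq_zero
    intro e he
    apply hx.2.1
    intro heA
    obtain ⟨h1, h2, _⟩ := hWF e heA
    simp only [cut, Finset.mem_filter, Finset.mem_univ, true_and] at he
    exact he (iff_of_true h1 h2)
  linarith

/-! ### Chunk B : `P ⊆ Q` -/

theorem B_sum_ind (M F : Finset E) : ∑ e ∈ F, ind M e = ((M ∩ F).card : ℝ) := by
  unfold ind
  rw [Finset.sum_ite_mem]
  simp [Finset.inter_comm]

theorem P_subset_Q {W : Finset V} {A : Finset E} {ends : E → V × V} (hWF : WF W A ends) :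
    P W A ends ⊆ Q W A ends := by
  apply convexHull_min _ (Q_convex W A ends)
  rintro _ ⟨M, hM, rfl⟩
  obtain ⟨hMA, hMW⟩ := hM
  have hy : ∀ e, e ∉ A → ind M e = 0 := by
    intro e he
    have : e ∉ M := fun h => he (hMA h)
    simp [ind, this]
  refine ⟨fun e => by unfold ind; split_ifs <;> norm_num, hy, ?_, ?_⟩
  · intro w hw
    rw [B_sum_ind, hMW w hw]; norm_num
  · intro T hT hodd
    have h := handshake hWF (ind M) hy T
    have h1 : ∑ w ∈ T, ∑ e ∈ cut ends {w}, ind M e = (T.card : ℝ) := by
      rw [Finset.sum_congr rfl (fun w hw => by rw [B_sum_ind, hMW w (hT hw)])]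
      simp
    rw [h1, B_sum_ind, B_sum_ind] at h
    rw [B_sum_ind]
    have h2 : T.card = 2 * (M ∩ ins ends T).card + (M ∩ cut ends T).card := by exact_mod_cast h
    have h3 : 1 ≤ (M ∩ cut ends T).card := by
      rcases hodd with ⟨k, hk⟩; omega
    exact_mod_cast h3

/-! ### Chunk C2 : `Q` is compact; `W` even -/



/-! ### Chunk D : contraction -/

theorem con_WF {W : Finset V} {A : Finset E} {ends : E → V × V} (hWF : WF W A ends)
    {S : Finset V} {s : V} (hs : s ∈ S) :
    WF (conW W S s) (conA A S ends) (con S s ends) := by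
  intro e he
  have he' := Finset.mem_filter.mp he
  obtain ⟨h1, h2, h3⟩ := hWF e he'.1
  have hn := he'.2
  by_cases a1 : (ends e).1 ∈ S <;> by_cases a2 : (ends e).2 ∈ S
  · exact absurd ⟨a1, a2⟩ hn
  · refine ⟨?_, ?_, ?_⟩
    · simp [con, conW, a1]
    · simp [con, conW, a2, h2]
    · simp only [con, a1, a2, if_true, if_false]
      intro h
      exact a2 (h ▸ hs)
  · refine ⟨?_, ?_, ?_⟩
    · simp [con, conW, a1, h1]
    · simp [con, conW, a2]
    · simp only [con, a1, a2, if_true, if_false]
      intro h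
      exact a1 (h ▸ hs)
  · refine ⟨?_, ?_, ?_⟩
    · simp [con, conW, a1, h1]
    · simp [con, conW, a2, h2]
    · simp only [con, a1, a2, if_false]
      exact h3

theorem card_conW {W S : Finset V} {s : V} (hS : S ⊆ W) (hs : s ∈ S) :
    (conW W S s).card + S.card = W.card + 1 := by
  have h1 : s ∉ W \ S := by simp [hs]
  have h2 : (W \ S).card + S.card = W.card := Finset.card_sdiff_add_card_eq_card hS
  unfold conW
  rw [Finset.card_insert_of_notMem h1]
  omega

/-- general description of a cut of the contracted graph -/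
theorem D_cut_con (ends : E → V × V) (S : Finset V) (s : V) (T : Finset V) :
    cut (con S s ends) T =
      cut ends (Finset.univ.filter fun v => (if v ∈ S then s else v) ∈ T) := by
  ext e
  unfold cut
  rw [Finset.mem_filter, Finset.mem_filter]
  simp only [con, Finset.mem_filter, Finset.mem_univ, true_and]

/-- star of an uncontracted vertex -/
theorem cut_con_of_notMem (ends : E → V × V) {S : Finset V} {s w : V} (hs : s ∈ S) (hw : w ∉ S) :
    cut (con S s ends) {w} = cut ends {w} := by
  rw [D_cut_con]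
  congr 1
  ext v
  simp only [Finset.mem_filter, Finset.mem_univ, true_and, Finset.mem_singleton]
  by_cases hv : v ∈ S
  · simp only [hv, if_true]
    constructor
    · intro h
      exact absurd (h ▸ hs) hw
    · intro h
      exact absurd (h ▸ hv) hw
  · simp only [hv, if_false]

/-- star of the contracted vertex -/
theorem cut_con_self (ends : E → V × V) {S : Finset V} {s : V} (hs : s ∈ S) :
    cut (con S s ends) {s} = cut ends S := by
  rw [D_cut_con]
  congr 1
  ext v
  simp only [Finset.mem_filter, Finset.mem_univ, true_and, Finset.mem_singleton]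
  by_cases hv : v ∈ S
  · simp only [hv, if_true]
  · simp only [hv, if_false, iff_false]
    intro h
    exact hv (h ▸ hs)

/-- on a cut of the contracted graph the restriction changes nothing -/
theorem D_sum_res (A : Finset E) (ends : E → V × V) (S : Finset V) (s : V) (T : Finset V)
    {x : E → ℝ} (hx0 : ∀ e, e ∉ A → x e = 0) :
    ∑ e ∈ cut (con S s ends) T, res (conA A S ends) x e = ∑ e ∈ cut (con S s ends) T, x e := by
  refine Finset.sum_congr rfl fun e he => ?_
  unfold res
  split_ifs with h
  · rfl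
  · by_cases hA : e ∈ A
    · exfalso
      have hb : (ends e).1 ∈ S ∧ (ends e).2 ∈ S := by
        by_contra hb
        exact h (Finset.mem_filter.mpr ⟨hA, hb⟩)
      have := (Finset.mem_filter.mp he).2
      simp [con, hb.1, hb.2] at this
    · exact (hx0 e hA).symm

theorem con_Q {W : Finset V} {A : Finset E} {ends : E → V × V} (hWF : WF W A ends)
    {S : Finset V} {s : V} (hS : S ⊆ W) (hs : s ∈ S) (hodd : Odd S.card)
    {x : E → ℝ} (hx : x ∈ Q W A ends) (htight : ∑ e ∈ cut ends S, x e = 1) :
    res (conA A S ends) x ∈ Q (conW W S s) (conA A S ends) (con S s ends) := by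
  obtain ⟨hx1, hx2, hx3, hx4⟩ := hx
  refine ⟨?_, ?_, ?_, ?_⟩
  · intro e
    unfold res
    split_ifs
    · exact hx1 e
    · exact le_rfl
  · intro e he
    simp [res, he]
  · intro w hw
    rw [D_sum_res A ends S s {w} hx2]
    rcases Finset.mem_insert.mp hw with rfl | hw
    · rw [cut_con_self ends hs]
      exact htight
    · have hw' := Finset.mem_sdiff.mp hw
      rw [cut_con_of_notMem ends hs hw'.2]
      exact hx3 w hw'.1
  · intro T hT hTodd
    rw [D_sum_res A ends S s T hx2, D_cut_con]
    by_cases hsT : s ∈ T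
    · have hset : (Finset.univ.filter fun v => (if v ∈ S then s else v) ∈ T) = (T.erase s) ∪ S := by
        ext v
        simp only [Finset.mem_filter, Finset.mem_univ, true_and, Finset.mem_union,
          Finset.mem_erase]
        by_cases hv : v ∈ S
        · simp [hv, hsT]
        · simp only [hv, if_false, or_false]
          constructor
          · intro h
            exact ⟨fun h' => hv (h' ▸ hs), h⟩
          · intro h
            exact h.2
      rw [hset]
      have hdisj : Disjoint (T.erase s) S := by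
        rw [Finset.disjoint_left]
        intro v hv hvS
        have hv' := Finset.mem_erase.mp hv
        rcases Finset.mem_insert.mp (hT hv'.2) with h | h
        · exact hv'.1 h
        · exact (Finset.mem_sdiff.mp h).2 hvS
      apply hx4
      · intro v hv
        rcases Finset.mem_union.mp hv with hv | hv
        · have hv' := Finset.mem_erase.mp hv
          rcases Finset.mem_insert.mp (hT hv'.2) with h | h
          · exact absurd h hv'.1
          · exact (Finset.mem_sdiff.mp h).1
        · exact hS hv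
      · rw [Finset.card_union_of_disjoint hdisj, Finset.card_erase_of_mem hsT]
        obtain ⟨a, ha⟩ := hTodd
        obtain ⟨b, hb⟩ := hodd
        exact ⟨a + b, by omega⟩
    · have hset : (Finset.univ.filter fun v => (if v ∈ S then s else v) ∈ T) = T := by
        ext v
        simp only [Finset.mem_filter, Finset.mem_univ, true_and]
        by_cases hv : v ∈ S
        · simp only [hv, if_true, hsT, false_iff]
          intro hvT
          rcases Finset.mem_insert.mp (hT hvT) with h | h
          · exact hsT (h ▸ hvT)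
          · exact (Finset.mem_sdiff.mp h).2 hv
        · simp only [hv, if_false]
      rw [hset]
      apply hx4 T _ hTodd
      intro v hv
      rcases Finset.mem_insert.mp (hT hv) with h | h
      · exact absurd (h ▸ hv) hsT
      · exact (Finset.mem_sdiff.mp h).1





/-! ### Chunk E : gluing -/

theorem E_repr (MM : Set (Finset E)) {y : E → ℝ} (hy : y ∈ convexHull ℝ (ind '' MM)) :
    ∃ w : Finset E → ℝ, (∀ M, 0 ≤ w M) ∧ (∀ M, M ∉ MM → w M = 0) ∧ ∑ M, w M = 1 ∧
      y = ∑ M, w M • ind M := by
  classical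
  have hconv : Convex ℝ {y : E → ℝ | ∃ w : Finset E → ℝ, (∀ M, 0 ≤ w M) ∧
      (∀ M, M ∉ MM → w M = 0) ∧ ∑ M, w M = 1 ∧ y = ∑ M, w M • ind M} := by
    rintro y1 ⟨w1, h10, h1z, h1s, rfl⟩ y2 ⟨w2, h20, h2z, h2s, rfl⟩ a b ha hb hab
    refine ⟨fun M => a * w1 M + b * w2 M, fun M => ?_, fun M hM => ?_, ?_, ?_⟩
    · exact add_nonneg (mul_nonneg ha (h10 M)) (mul_nonneg hb (h20 M))
    · simp [h1z M hM, h2z M hM]
    · rw [Finset.sum_add_distrib, ← Finset.mul_sum, ← Finset.mul_sum, h1s, h2s]
      simpa using hab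
    · simp only [add_smul, Finset.sum_add_distrib, Finset.smul_sum, mul_smul]
  refine convexHull_min ?_ hconv hy
  rintro _ ⟨M, hM, rfl⟩
  refine ⟨fun M' => if M' = M then 1 else 0, fun M' => ?_, fun M' hM' => ?_, ?_, ?_⟩
  · dsimp only
    split_ifs <;> norm_num
  · have : M' ≠ M := fun h => hM' (h ▸ hM)
    simp [this]
  · simp
  · simp [ite_smul]

theorem E_pair (MM1 MM2 MM : Set (Finset E)) (e : E)
    (hU : ∀ M ∈ MM1, ∀ N ∈ MM2, ind M + ind N - ind {e} ∈ convexHull ℝ (ind '' MM))
    {u v : E → ℝ} (hu : u ∈ convexHull ℝ (ind '' MM1)) (hv : v ∈ convexHull ℝ (ind '' MM2)) :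
    u + v - ind {e} ∈ convexHull ℝ (ind '' MM) := by
  have step1 : ∀ M ∈ MM1, ind M + v - ind {e} ∈ convexHull ℝ (ind '' MM) := by
    intro M hM
    have hc := (convex_convexHull ℝ (ind '' MM)).translate_preimage_right (ind M - ind {e})
    have := convexHull_min (s := ind '' MM2) (by
      rintro _ ⟨N, hN, rfl⟩
      show (ind M - ind {e}) + ind N ∈ convexHull ℝ (ind '' MM)
      have h := hU M hM N hN
      have h' : ind M + ind N - ind {e} = (ind M - ind {e}) + ind N := by abel
      rwa [h'] at h) hc hv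
    have h2 : (ind M - ind {e}) + v ∈ convexHull ℝ (ind '' MM) := this
    have h' : ind M + v - ind {e} = (ind M - ind {e}) + v := by abel
    rwa [h']
  have hc := (convex_convexHull ℝ (ind '' MM)).translate_preimage_right (v - ind {e})
  have := convexHull_min (s := ind '' MM1) (by
    rintro _ ⟨M, hM, rfl⟩
    show (v - ind {e}) + ind M ∈ convexHull ℝ (ind '' MM)
    have h := step1 M hM
    have h' : ind M + v - ind {e} = (v - ind {e}) + ind M := by abel
    rwa [h'] at h) hc hu
  have h2 : (v - ind {e}) + u ∈ convexHull ℝ (ind '' MM) := this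
  have h' : u + v - ind {e} = (v - ind {e}) + u := by abel
  rwa [h']

theorem E_split (C : Finset E) (MM : Set (Finset E)) (h1 : ∀ M ∈ MM, (M ∩ C).card = 1)
    {y : E → ℝ} (hy : y ∈ convexHull ℝ (ind '' MM)) :
    (∀ e, 0 ≤ y e) ∧ ∑ e ∈ C, y e = 1 ∧
    ∃ u : E → (E → ℝ), ∑ e ∈ C, y e • u e = y ∧
      ∀ e ∈ C, y e ≠ 0 → u e ∈ convexHull ℝ (ind '' {M | M ∈ MM ∧ e ∈ M}) := by
  classical
  obtain ⟨w, h0, hz, hs, hye⟩ := E_repr MM hy
  have hyv : ∀ e, y e = ∑ M, if e ∈ M then w M else 0 := by
    intro e
    rw [hye]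
    simp [Finset.sum_apply, ind]
  have hite0 : ∀ e M, 0 ≤ (if e ∈ M then w M else 0) := by
    intro e M
    split_ifs
    · exact h0 M
    · exact le_rfl
  have hcard : ∀ M, ∑ e ∈ C, (if e ∈ M then w M else 0) = w M := by
    intro M
    by_cases hM : M ∈ MM
    · rw [Finset.sum_ite_mem, Finset.sum_const, Finset.inter_comm, h1 M hM, one_smul]
    · simp [hz M hM]
  have hnn : ∀ e, 0 ≤ y e := by
    intro e
    rw [hyv e]
    exact Finset.sum_nonneg fun M _ => hite0 e M
  have hsum : ∑ e ∈ C, y e = 1 := by
    simp_rw [hyv]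
    rw [Finset.sum_comm]
    simp_rw [hcard]
    exact hs
  refine ⟨hnn, hsum, fun e => (y e)⁻¹ • ∑ M, (if e ∈ M then w M else 0) • ind M, ?_, ?_⟩
  · have hpiece : ∀ e, y e • ((y e)⁻¹ • ∑ M, (if e ∈ M then w M else 0) • ind M)
        = ∑ M, (if e ∈ M then w M else 0) • ind M := by
      intro e
      by_cases hy0 : y e = 0
      · have hall : ∀ M ∈ (Finset.univ : Finset (Finset E)), (if e ∈ M then w M else 0) = 0 := by
          have := hyv e
          rw [hy0] at this
          exact (Finset.sum_eq_zero_iff_of_nonneg (fun M _ => hite0 e M)).1 this.symm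
        rw [hy0, zero_smul]
        symm
        apply Finset.sum_eq_zero
        intro M hM
        rw [hall M hM, zero_smul]
      · rw [smul_smul, mul_inv_cancel₀ hy0, one_smul]
    simp_rw [hpiece]
    rw [Finset.sum_comm]
    simp_rw [← Finset.sum_smul, hcard]
    exact hye.symm
  · intro e _ hy0
    have hpos : 0 < y e := lt_of_le_of_ne (hnn e) (Ne.symm hy0)
    have hf1 : ∑ M ∈ Finset.univ.filter (fun M => M ∈ MM ∧ e ∈ M), w M = y e := by
      rw [hyv e, Finset.sum_filter]
      apply Finset.sum_congr rfl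
      intro M _
      by_cases hM : M ∈ MM
      · simp [hM]
      · simp [hM, hz M hM]
    have hf2 : ∑ M ∈ Finset.univ.filter (fun M => M ∈ MM ∧ e ∈ M), w M • ind M
        = ∑ M, (if e ∈ M then w M else 0) • ind M := by
      rw [Finset.sum_filter]
      apply Finset.sum_congr rfl
      intro M _
      by_cases hM : M ∈ MM
      · by_cases he : e ∈ M <;> simp [hM, he]
      · simp [hM, hz M hM]
    have := Finset.centerMass_mem_convexHull (R := ℝ)
      (Finset.univ.filter (fun M => M ∈ MM ∧ e ∈ M)) (w := w) (fun M _ => h0 M)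
      (by rw [hf1]; exact hpos) (z := ind) (s := ind '' {M | M ∈ MM ∧ e ∈ M})
      (fun M hM => ⟨M, by simpa using hM, rfl⟩)
    rw [Finset.centerMass, hf1, hf2] at this
    exact this

theorem E_ind_union {M N : Finset E} {e : E} (h : M ∩ N = {e}) :
    ind M + ind N - ind {e} = ind (M ∪ N) := by
  funext f
  have hf : f ∈ M ∧ f ∈ N ↔ f = e := by
    rw [← Finset.mem_inter, h, Finset.mem_singleton]
  by_cases h1 : f ∈ M <;> by_cases h2 : f ∈ N <;> by_cases h3 : f = e <;>
    simp_all [ind]

theorem E_abs (C : Finset E) (MM1 MM2 MM : Set (Finset E))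
    (h1 : ∀ M ∈ MM1, (M ∩ C).card = 1) (h2 : ∀ N ∈ MM2, (N ∩ C).card = 1)
    (hU : ∀ M ∈ MM1, ∀ N ∈ MM2, ∀ e ∈ C, e ∈ M → e ∈ N → M ∪ N ∈ MM ∧ M ∩ N = {e})
    {y1 y2 : E → ℝ} (hy1 : y1 ∈ convexHull ℝ (ind '' MM1))
    (hy2 : y2 ∈ convexHull ℝ (ind '' MM2)) (hC : ∀ e ∈ C, y1 e = y2 e) :
    y1 + y2 - res C y1 ∈ convexHull ℝ (ind '' MM) := by
  classical
  obtain ⟨hn1, hs1, u1, hu1, hm1⟩ := E_split C MM1 h1 hy1
  obtain ⟨_, _, u2, hu2, hm2⟩ := E_split C MM2 h2 hy2
  have hres : res C y1 = ∑ e ∈ C, y1 e • ind {e} := by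
    funext f
    simp only [res, Finset.sum_apply, Pi.smul_apply, ind, Finset.mem_singleton, smul_eq_mul,
      mul_ite, mul_one, mul_zero]
    rw [Finset.sum_ite_eq]
  have hu2' : ∑ e ∈ C, y1 e • u2 e = y2 := by
    rw [← hu2]
    exact Finset.sum_congr rfl fun e he => by rw [hC e he]
  have hexp : y1 + y2 - res C y1 = ∑ e ∈ C.filter (fun e => y1 e ≠ 0),
      y1 e • (u1 e + u2 e - ind {e}) := by
    rw [Finset.sum_filter_of_ne (fun e _ h => by
      intro h0
      exact h (by rw [h0, zero_smul]))]
    simp only [smul_sub, smul_add, Finset.sum_sub_distrib, Finset.sum_add_distrib]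
    rw [hu1, hu2', ← hres]
  rw [hexp]
  refine (convex_convexHull ℝ (ind '' MM)).sum_mem (fun e _ => hn1 e) ?_ ?_
  · rw [Finset.sum_filter_of_ne (fun e _ h => h)]
    exact hs1
  · intro e he
    obtain ⟨heC, he0⟩ := Finset.mem_filter.1 he
    refine E_pair _ _ MM e ?_ (hm1 e heC he0) (hm2 e heC (by rw [← hC e heC]; exact he0))
    rintro M ⟨hM, heM⟩ N ⟨hN, heN⟩
    obtain ⟨hmem, hint⟩ := hU M hM N hN e heC heM heN
    rw [E_ind_union hint]
    exact subset_convexHull ℝ _ ⟨_, hmem, rfl⟩

theorem E_mem_cut (ends : E → V × V) (T : Finset V) (f : E) :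
    f ∈ cut ends T ↔ ¬ ((ends f).1 ∈ T ↔ (ends f).2 ∈ T) := by
  simp [cut]

theorem E_mem_conA (A : Finset E) (S : Finset V) (ends : E → V × V) (f : E) :
    f ∈ conA A S ends ↔ f ∈ A ∧ ¬ ((ends f).1 ∈ S ∧ (ends f).2 ∈ S) := by
  simp [conA]

theorem E_cut_sdiff {W : Finset V} {A : Finset E} {ends : E → V × V} (hWF : WF W A ends)
    (S : Finset V) {f : E} (hf : f ∈ A) : f ∈ cut ends (W \ S) ↔ f ∈ cut ends S := by
  obtain ⟨ha, hb, _⟩ := hWF f hf
  rw [E_mem_cut, E_mem_cut]
  simp only [Finset.mem_sdiff, ha, hb, true_and]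
  tauto

theorem E_side {W : Finset V} {A : Finset E} {ends : E → V × V} (hWF : WF W A ends)
    {S : Finset V} {s : V} (hs : s ∈ S) {M N : Finset E} {e : E}
    (hM : PM (conW W S s) (conA A S ends) (con S s ends) M)
    (hN : N ⊆ conA A (W \ S) ends) (hNe : ∀ f ∈ N, f ∈ cut ends S → f = e) (heM : e ∈ M) :
    ∀ w ∈ W \ S, ((M ∪ N) ∩ cut ends {w}).card = 1 := by
  intro w hw
  have hw' := Finset.mem_sdiff.1 hw
  have h1 := hM.2 w (Finset.mem_insert_of_mem hw)
  rw [cut_con_of_notMem ends hs hw'.2] at h1
  have hEq : (M ∪ N) ∩ cut ends {w} = M ∩ cut ends {w} := by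
    ext f
    simp only [Finset.mem_inter, Finset.mem_union]
    constructor
    · rintro ⟨hf | hf, hc⟩
      · exact ⟨hf, hc⟩
      · have hfA := (E_mem_conA _ _ _ _).1 (hN hf)
        obtain ⟨ha, hb, _⟩ := hWF f hfA.1
        have hcS : f ∈ cut ends S := by
          rw [E_mem_cut] at hc ⊢
          have h2 := hfA.2
          simp only [Finset.mem_sdiff, ha, hb, true_and, Finset.mem_singleton] at h2 hc
          by_cases c1 : (ends f).1 = w
          · have : (ends f).1 ∉ S := by rw [c1]; exact hw'.2
            tauto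
          · have c2 : (ends f).2 = w := by tauto
            have : (ends f).2 ∉ S := by rw [c2]; exact hw'.2
            tauto
        have hfe := hNe f hf hcS
        subst hfe
        exact ⟨heM, hc⟩
    · rintro ⟨hf, hc⟩
      exact ⟨Or.inl hf, hc⟩
  rw [hEq]
  exact h1

theorem glue {W : Finset V} {A : Finset E} {ends : E → V × V} (hWF : WF W A ends)
    {S : Finset V} {s t : V} (hS : S ⊆ W) (hs : s ∈ S) (ht : t ∈ W \ S)
    {x : E → ℝ} (hx : ∀ e, e ∉ A → x e = 0)
    (h1 : res (conA A S ends) x ∈ P (conW W S s) (conA A S ends) (con S s ends))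
    (h2 : res (conA A (W \ S) ends) x ∈
      P (conW W (W \ S) t) (conA A (W \ S) ends) (con (W \ S) t ends)) :
    x ∈ P W A ends := by
  classical
  have hSS : W \ (W \ S) = S := Finset.sdiff_sdiff_eq_self hS
  have hc1 : ∀ M ∈ {M | PM (conW W S s) (conA A S ends) (con S s ends) M},
      (M ∩ cut ends S).card = 1 := by
    intro M hM
    have := hM.2 s (Finset.mem_insert_self _ _)
    rwa [cut_con_self ends hs] at this
  have hc2 : ∀ N ∈ {N | PM (conW W (W \ S) t) (conA A (W \ S) ends) (con (W \ S) t ends) N},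
      (N ∩ cut ends S).card = 1 := by
    intro N hN
    have := hN.2 t (Finset.mem_insert_self _ _)
    rw [cut_con_self ends ht] at this
    have hEq : N ∩ cut ends S = N ∩ cut ends (W \ S) := by
      ext f
      simp only [Finset.mem_inter]
      constructor
      · rintro ⟨hf, hc⟩
        exact ⟨hf, (E_cut_sdiff hWF S ((E_mem_conA _ _ _ _).1 (hN.1 hf)).1).2 hc⟩
      · rintro ⟨hf, hc⟩
        exact ⟨hf, (E_cut_sdiff hWF S ((E_mem_conA _ _ _ _).1 (hN.1 hf)).1).1 hc⟩
    rw [hEq]
    exact this
  have huniq : ∀ (M : Finset E) (e : E), (M ∩ cut ends S).card = 1 → e ∈ M → e ∈ cut ends S →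
      ∀ f ∈ M, f ∈ cut ends S → f = e := by
    intro M e hcard heM heC f hf hfC
    obtain ⟨a, ha⟩ := Finset.card_eq_one.1 hcard
    have h1 : e ∈ M ∩ cut ends S := Finset.mem_inter.2 ⟨heM, heC⟩
    have h2 : f ∈ M ∩ cut ends S := Finset.mem_inter.2 ⟨hf, hfC⟩
    rw [ha, Finset.mem_singleton] at h1 h2
    rw [h1, h2]
  have key := E_abs (cut ends S) _ _ {M | PM W A ends M} hc1 hc2 (by
    intro M hM N hN e heC heM heN
    have hMA : ∀ f ∈ M, f ∈ A := fun f hf => ((E_mem_conA _ _ _ _).1 (hM.1 hf)).1
    have hNA : ∀ f ∈ N, f ∈ A := fun f hf => ((E_mem_conA _ _ _ _).1 (hN.1 hf)).1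
    have uM := huniq M e (hc1 M hM) heM heC
    have uN := huniq N e (hc2 N hN) heN heC
    refine ⟨⟨?_, ?_⟩, ?_⟩
    · intro f hf
      rcases Finset.mem_union.1 hf with hf | hf
      · exact hMA f hf
      · exact hNA f hf
    · intro w hw
      by_cases hwS : w ∈ S
      · have := E_side hWF ht (M := N) (N := M) (e := e) hN (by rw [hSS]; exact hM.1)
          (fun f hf hc => uM f hf ((E_cut_sdiff hWF S (hMA f hf)).1 hc)) heN w
          (by rw [hSS]; exact hwS)
        rwa [Finset.union_comm] at this
      · exact E_side hWF hs hM hN.1 uN heM w (Finset.mem_sdiff.2 ⟨hw, hwS⟩)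
    · ext f
      rw [Finset.mem_inter, Finset.mem_singleton]
      constructor
      · rintro ⟨hfM, hfN⟩
        apply uM f hfM
        have a1 := ((E_mem_conA _ _ _ _).1 (hM.1 hfM)).2
        have a2 := ((E_mem_conA _ _ _ _).1 (hN.1 hfN)).2
        obtain ⟨ha, hb, _⟩ := hWF f (hMA f hfM)
        rw [E_mem_cut]
        simp only [Finset.mem_sdiff, ha, hb, true_and] at a2
        tauto
      · rintro rfl
        exact ⟨heM, heN⟩) h1 h2 (by
    intro e he
    rw [E_mem_cut] at he
    by_cases heA : e ∈ A
    · obtain ⟨ha, hb, _⟩ := hWF e heA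
      have m1 : e ∈ conA A S ends := (E_mem_conA _ _ _ _).2 ⟨heA, by tauto⟩
      have m2 : e ∈ conA A (W \ S) ends := (E_mem_conA _ _ _ _).2 ⟨heA, by
        simp only [Finset.mem_sdiff, ha, hb, true_and]
        tauto⟩
      simp [res, m1, m2]
    · simp [res, hx e heA])
  have hfin : x = res (conA A S ends) x + res (conA A (W \ S) ends) x
      - res (cut ends S) (res (conA A S ends) x) := by
    funext f
    by_cases hfA : f ∈ A
    · obtain ⟨ha, hb, _⟩ := hWF f hfA
      by_cases c1 : (ends f).1 ∈ S <;> by_cases c2 : (ends f).2 ∈ S <;>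
        simp [res, E_mem_conA, E_mem_cut, hfA, ha, hb, c1, c2]
    · simp [res, hx f hfA]
  rw [hfin]
  exact key

/-! ### Chunk F : two-sided directions in `Q` when no nontrivial odd cut is tight -/

theorem dir_Q {W : Finset V} {A : Finset E} {ends : E → V × V} (hWF : WF W A ends)
    {x : E → ℝ} (hx : x ∈ Q W A ends) (hpos : ∀ e ∈ A, 0 < x e)
    (hnt : ∀ T, T ⊆ W → Odd T.card → 3 ≤ T.card → T.card + 3 ≤ W.card →
      1 < ∑ e ∈ cut ends T, x e)
    (h : E → ℝ) (hA : ∀ e, e ∉ A → h e = 0) (hstar : ∀ w ∈ W, ∑ e ∈ cut ends {w}, h e = 0) :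
    ∃ ε : ℝ, 0 < ε ∧ ∀ t : ℝ, |t| < ε → x + t • h ∈ Q W A ends := by
  classical
  obtain ⟨hx0, hxA, hxs, hxT⟩ := hx
  have hx' : x ∈ Q W A ends := ⟨hx0, hxA, hxs, hxT⟩
  have heven : Even W.card := Q_even hWF hx'
  have hsum : ∀ (t : ℝ) (F : Finset E),
      ∑ e ∈ F, (x + t • h) e = ∑ e ∈ F, x e + t * ∑ e ∈ F, h e := by
    intro t F
    simp [Finset.sum_add_distrib, Finset.mul_sum]
  have hoff : ∀ (t : ℝ) e, e ∉ A → (x + t • h) e = 0 := by
    intro t e he
    simp [hxA e he, hA e he]
  have hst : ∀ (t : ℝ), ∀ w ∈ W, ∑ e ∈ cut ends {w}, (x + t • h) e = 1 := by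
    intro t w hw
    rw [hsum, hxs w hw, hstar w hw]; ring
  have ev1 : ∀ᶠ t : ℝ in nhds 0, ∀ e, 0 ≤ (x + t • h) e := by
    rw [Filter.eventually_all]
    intro e
    by_cases he : e ∈ A
    · have hc : Continuous fun t : ℝ => (x + t • h) e := by
        simp only [Pi.add_apply, Pi.smul_apply, smul_eq_mul]; fun_prop
      have h0 : (0:ℝ) < (x + (0:ℝ) • h) e := by simpa using hpos e he
      filter_upwards [(hc.tendsto 0).eventually (lt_mem_nhds h0)] with t ht
      exact ht.le
    · exact Filter.Eventually.of_forall (fun t => (hoff t e he).ge)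
  have ev2 : ∀ᶠ t : ℝ in nhds 0, ∀ T : Finset V, T ⊆ W → Odd T.card →
      1 ≤ ∑ e ∈ cut ends T, (x + t • h) e := by
    rw [Filter.eventually_all]
    intro T
    by_cases hTW : T ⊆ W
    swap
    · exact Filter.Eventually.of_forall (fun t h1 => absurd h1 hTW)
    by_cases hodd : Odd T.card
    swap
    · exact Filter.Eventually.of_forall (fun t _ h2 => absurd h2 hodd)
    by_cases h3 : 3 ≤ T.card
    · by_cases h4 : T.card + 3 ≤ W.card
      · have hc : Continuous fun t : ℝ => ∑ e ∈ cut ends T, (x + t • h) e := by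
          simp only [hsum]; fun_prop
        have h0 : (1:ℝ) < ∑ e ∈ cut ends T, (x + (0:ℝ) • h) e := by
          simpa using hnt T hTW hodd h3 h4
        filter_upwards [(hc.tendsto 0).eventually (lt_mem_nhds h0)] with t ht _ _
        exact ht.le
      · refine Filter.Eventually.of_forall (fun t _ _ => ?_)
        have hle : T.card ≤ W.card := Finset.card_le_card hTW
        have hcard : (W \ T).card = 1 := by
          rw [Finset.card_sdiff_of_subset hTW]
          obtain ⟨a, ha⟩ := heven
          obtain ⟨b, hb⟩ := hodd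
          omega
        obtain ⟨w, hw⟩ := Finset.card_eq_one.mp hcard
        have hwW : w ∈ W := by
          have : w ∈ W \ T := by rw [hw]; simp
          exact (Finset.mem_sdiff.mp this).1
        rw [← cut_compl hWF _ (hoff t) T, hw, hst t w hwW]
    · refine Filter.Eventually.of_forall (fun t _ _ => ?_)
      have hcard : T.card = 1 := by
        obtain ⟨b, hb⟩ := hodd
        omega
      obtain ⟨w, hw⟩ := Finset.card_eq_one.mp hcard
      have hwW : w ∈ W := hTW (by rw [hw]; simp)
      rw [hw, hst t w hwW]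
  obtain ⟨ε, hε, hball⟩ := Metric.eventually_nhds_iff.mp (ev1.and ev2)
  refine ⟨ε, hε, fun t ht => ?_⟩
  have hb := hball (y := t) (by simpa [Real.dist_eq] using ht)
  exact ⟨hb.1, hoff t, hst t, hb.2⟩

/-! ### Chunk G : base cases -/

/-! ### Chunk G0J (helper62): `card_le_of_inj` and `finrank_orth`.
MERGE NOTE: this whole block (helpers `G0J_extA*`, `card_le_of_inj`, `finrank_orth`) goes at the place of the
`card_le_of_inj` stub; DELETE the later `finrank_orth` stub (it depends on nothing else of the file). -/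

/-- extension by zero of a function on `A`, as a linear map -/
def G0J_extA (A : Finset E) : (A → ℝ) →ₗ[ℝ] (E → ℝ) where
  toFun g := fun e => if h : e ∈ A then g ⟨e, h⟩ else 0
  map_add' g₁ g₂ := by
    funext e
    by_cases h : e ∈ A <;> simp [h]
  map_smul' r g := by
    funext e
    by_cases h : e ∈ A <;> simp [h]

omit [Fintype E] in
theorem G0J_extA_apply_mem (A : Finset E) (g : A → ℝ) (e : A) : G0J_extA A g e = g e := by
  have h : (e : E) ∈ A := e.2
  simp [G0J_extA, h]

omit [Fintype E] in
theorem G0J_extA_apply_notMem (A : Finset E) (g : A → ℝ) {e : E} (h : e ∉ A) : G0J_extA A g e = 0 := by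
  simp [G0J_extA, h]

omit [Fintype E] in
theorem G0J_extA_injective (A : Finset E) : Function.Injective (G0J_extA A) := by
  intro g₁ g₂ h
  funext e
  have := congrFun h e
  rwa [G0J_extA_apply_mem, G0J_extA_apply_mem] at this

theorem card_le_of_inj {W : Finset V} {A : Finset E} {ends : E → V × V}
    (hinj : ∀ h : E → ℝ, (∀ e, e ∉ A → h e = 0) → (∀ w ∈ W, ∑ e ∈ cut ends {w}, h e = 0) → h = 0) :
    A.card ≤ W.card := by
  classical
  let L : (A → ℝ) →ₗ[ℝ] (W → ℝ) :=
    { toFun := fun g w => ∑ e ∈ cut ends {(w : V)}, G0J_extA A g e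
      map_add' := by
        intro g₁ g₂
        funext w
        simp [Finset.sum_add_distrib]
      map_smul' := by
        intro r g
        funext w
        simp [Finset.mul_sum] }
  have hL : Function.Injective L := by
    rw [← LinearMap.ker_eq_bot, LinearMap.ker_eq_bot']
    intro g hg
    have h0 : G0J_extA A g = 0 := by
      apply hinj
      · intro e he
        exact G0J_extA_apply_notMem A g he
      · intro w hw
        have := congrFun hg ⟨w, hw⟩
        simpa [L] using this
    apply G0J_extA_injective A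
    rw [h0, map_zero]
  have := LinearMap.finrank_le_finrank_of_injective hL
  simpa using this

theorem finrank_orth (A : Finset E) (C : Submodule ℝ (E → ℝ)) (U : Submodule ℝ (E → ℝ))
    (hU : ∀ h : E → ℝ, (∀ e, e ∉ A → h e = 0) → (∀ c ∈ C, ∑ e, c e * h e = 0) → h ∈ U) :
    A.card ≤ Module.finrank ℝ U + Module.finrank ℝ C := by
  classical
  let Φ : (A → ℝ) →ₗ[ℝ] Module.Dual ℝ C :=
    { toFun := fun g =>
        { toFun := fun c => ∑ e, (c : E → ℝ) e * G0J_extA A g e
          map_add' := by
            intro c₁ c₂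
            simp [add_mul, Finset.sum_add_distrib]
          map_smul' := by
            intro r c
            simp [Finset.mul_sum, mul_assoc] }
      map_add' := by
        intro g₁ g₂
        ext c
        simp [mul_add, Finset.sum_add_distrib]
      map_smul' := by
        intro r g
        ext c
        simp [Finset.mul_sum, mul_left_comm] }
  have hker : ∀ g ∈ LinearMap.ker Φ, G0J_extA A g ∈ U := by
    intro g hg
    apply hU
    · intro e he
      exact G0J_extA_apply_notMem A g he
    · intro c hc
      have := LinearMap.congr_fun (LinearMap.mem_ker.mp hg) ⟨c, hc⟩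
      simpa [Φ] using this
  let Ψ : LinearMap.ker Φ →ₗ[ℝ] U :=
    ((G0J_extA A).domRestrict (LinearMap.ker Φ)).codRestrict U (fun g => hker g.1 g.2)
  have hΨ : Function.Injective Ψ := by
    intro g₁ g₂ h
    apply Subtype.ext
    apply G0J_extA_injective A
    have := congrArg Subtype.val h
    exact this
  have h1 : Module.finrank ℝ (LinearMap.ker Φ) ≤ Module.finrank ℝ U :=
    LinearMap.finrank_le_finrank_of_injective hΨ
  have h2 : Module.finrank ℝ (LinearMap.range Φ) ≤ Module.finrank ℝ C := by
    calc Module.finrank ℝ (LinearMap.range Φ) ≤ Module.finrank ℝ (Module.Dual ℝ C) :=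
          Submodule.finrank_le _
      _ = Module.finrank ℝ C := Subspace.dual_finrank_eq
  have h3 := LinearMap.finrank_range_add_finrank_ker Φ
  have h4 : Module.finrank ℝ (A → ℝ) = A.card := by simp
  omega

theorem G1_mem_cut_singleton (ends : E → V × V) (e : E) (w : V)
    (hne : (ends e).1 ≠ (ends e).2) :
    e ∈ cut ends {w} ↔ ((ends e).1 = w ∨ (ends e).2 = w) := by
  simp only [cut, Finset.mem_filter, Finset.mem_univ, true_and, Finset.mem_singleton]
  constructor
  · intro h
    by_contra hcon
    rw [not_or] at hcon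
    exact h ⟨fun h1 => absurd h1 hcon.1, fun h2 => absurd h2 hcon.2⟩
  · rintro (h | h) hiff
    · exact hne (h.trans (hiff.1 h).symm)
    · exact hne ((hiff.2 h).trans h.symm)

theorem G1_sum_ind (M s : Finset E) : ∑ e ∈ s, ind M e = ((M ∩ s).card : ℝ) := by
  unfold ind
  rw [Finset.sum_ite_mem, Finset.inter_comm]
  simp

theorem G1_of_PM {W : Finset V} {A : Finset E} {ends : E → V × V}
    {x : E → ℝ} (hx : x ∈ Q W A ends)
    (hinj : ∀ h : E → ℝ, (∀ e, e ∉ A → h e = 0) → (∀ w ∈ W, ∑ e ∈ cut ends {w}, h e = 0) → h = 0)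
    {M : Finset E} (hM : PM W A ends M) : x ∈ P W A ends := by
  have h0 : x - ind M = 0 := by
    apply hinj
    · intro e he
      have h1 : e ∉ M := fun h => he (hM.1 h)
      simp [ind, hx.2.1 e he, h1]
    · intro w hw
      simp only [Pi.sub_apply, Finset.sum_sub_distrib]
      rw [hx.2.2.1 w hw, G1_sum_ind, hM.2 w hw]
      simp
  have hxM : x = ind M := sub_eq_zero.1 h0
  rw [hxM]
  exact subset_convexHull ℝ _ ⟨M, hM, rfl⟩

theorem base_small {W : Finset V} {A : Finset E} {ends : E → V × V} (hWF : WF W A ends)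
    {x : E → ℝ} (hx : x ∈ Q W A ends) (hpos : ∀ e ∈ A, 0 < x e) (hcard : W.card ≤ 4)
    (hinj : ∀ h : E → ℝ, (∀ e, e ∉ A → h e = 0) → (∀ w ∈ W, ∑ e ∈ cut ends {w}, h e = 0) → h = 0) :
    x ∈ P W A ends := by
  classical
  have heven := Q_even hWF hx
  suffices h : ∃ M, PM W A ends M by
    obtain ⟨M, hM⟩ := h
    exact G1_of_PM hx hinj hM
  rcases Finset.eq_empty_or_nonempty W with hW | ⟨a, ha⟩
  · exact ⟨∅, Finset.empty_subset _, by simp [hW]⟩
  obtain ⟨e, he, hxe⟩ : ∃ e ∈ cut ends {a}, x e ≠ 0 := by
    apply Finset.exists_ne_zero_of_sum_ne_zero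
    rw [hx.2.2.1 a ha]
    exact one_ne_zero
  have heA : e ∈ A := by
    by_contra hcon
    exact hxe (hx.2.1 e hcon)
  obtain ⟨he1, he2, hne⟩ := hWF e heA
  set T : Finset V := {(ends e).1, (ends e).2} with hT
  have hTcard : T.card = 2 := Finset.card_pair hne
  have hTW : T ⊆ W := by
    intro v hv
    simp only [hT, Finset.mem_insert, Finset.mem_singleton] at hv
    rcases hv with rfl | rfl <;> assumption
  have hcases : W.card = 2 ∨ W.card = 4 := by
    have h2 : 2 ≤ W.card := hTcard ▸ Finset.card_le_card hTW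
    obtain ⟨k, hk⟩ := heven
    omega
  have hecut : ∀ w ∈ T, e ∈ cut ends {w} := by
    intro w hw
    rw [G1_mem_cut_singleton ends e w hne]
    simp only [hT, Finset.mem_insert, Finset.mem_singleton] at hw
    rcases hw with rfl | rfl
    · exact Or.inl rfl
    · exact Or.inr rfl
  have hecut' : ∀ w, w ∉ T → e ∉ cut ends {w} := by
    intro w hw
    rw [G1_mem_cut_singleton ends e w hne]
    simp only [hT, Finset.mem_insert, Finset.mem_singleton, not_or] at hw
    rintro (h | h)
    · exact hw.1 h.symm
    · exact hw.2 h.symm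
  rcases hcases with h2 | h4
  · have hWT : T = W := Finset.eq_of_subset_of_card_le hTW (by omega)
    refine ⟨{e}, by simpa using heA, fun w hw => ?_⟩
    have hmem : e ∈ cut ends {w} := hecut w (hWT ▸ hw)
    rw [Finset.singleton_inter_of_mem hmem]
    simp
  · have hs1 := handshake hWF x hx.2.1 T
    have hs2 := handshake hWF x hx.2.1 (W \ T)
    have hc := cut_compl hWF x hx.2.1 T
    have hT'card : (W \ T).card = 2 := by
      rw [Finset.card_sdiff_of_subset hTW]
      omega
    have sum1 : ∑ w ∈ T, ∑ e ∈ cut ends {w}, x e = 2 := by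
      rw [Finset.sum_congr rfl (fun w hw => hx.2.2.1 w (hTW hw))]
      simp [hTcard]
    have sum2 : ∑ w ∈ W \ T, ∑ e ∈ cut ends {w}, x e = 2 := by
      rw [Finset.sum_congr rfl (fun w hw => hx.2.2.1 w (Finset.sdiff_subset hw))]
      simp [hT'card]
    have hins : ∑ e ∈ ins ends (W \ T), x e = ∑ e ∈ ins ends T, x e := by linarith
    have heins : e ∈ ins ends T := by
      simp [ins, hT]
    have hpos1 : 0 < ∑ e ∈ ins ends T, x e :=
      lt_of_lt_of_le (hpos e heA) (Finset.single_le_sum (fun i _ => hx.1 i) heins)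
    obtain ⟨f, hf, hxf⟩ : ∃ f ∈ ins ends (W \ T), x f ≠ 0 := by
      apply Finset.exists_ne_zero_of_sum_ne_zero
      rw [hins]
      exact hpos1.ne'
    have hfA : f ∈ A := by
      by_contra hcon
      exact hxf (hx.2.1 f hcon)
    obtain ⟨-, -, hfne⟩ := hWF f hfA
    have hf' : (ends f).1 ∈ W \ T ∧ (ends f).2 ∈ W \ T := by
      simpa [ins] using hf
    have hT' : ({(ends f).1, (ends f).2} : Finset V) = W \ T := by
      apply Finset.eq_of_subset_of_card_le
      · intro v hv
        simp only [Finset.mem_insert, Finset.mem_singleton] at hv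
        rcases hv with rfl | rfl
        · exact hf'.1
        · exact hf'.2
      · rw [hT'card, Finset.card_pair hfne]
    have hfcut : ∀ w ∈ W \ T, f ∈ cut ends {w} := by
      intro w hw
      rw [G1_mem_cut_singleton ends f w hfne]
      rw [← hT'] at hw
      simp only [Finset.mem_insert, Finset.mem_singleton] at hw
      rcases hw with rfl | rfl
      · exact Or.inl rfl
      · exact Or.inr rfl
    have hfcut' : ∀ w ∈ T, f ∉ cut ends {w} := by
      intro w hw
      rw [G1_mem_cut_singleton ends f w hfne]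
      rintro (h | h)
      · exact (Finset.mem_sdiff.1 hf'.1).2 (h ▸ hw)
      · exact (Finset.mem_sdiff.1 hf'.2).2 (h ▸ hw)
    refine ⟨{e, f}, ?_, fun w hw => ?_⟩
    · intro g hg
      simp only [Finset.mem_insert, Finset.mem_singleton] at hg
      rcases hg with rfl | rfl <;> assumption
    · by_cases hwT : w ∈ T
      · have hEq : ({e, f} : Finset E) ∩ cut ends {w} = {e} := by
          ext g
          simp only [Finset.mem_inter, Finset.mem_insert, Finset.mem_singleton]
          constructor
          · rintro ⟨rfl | rfl, hg⟩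
            · rfl
            · exact absurd hg (hfcut' w hwT)
          · rintro rfl
            exact ⟨Or.inl rfl, hecut w hwT⟩
        rw [hEq]
        simp
      · have hEq : ({e, f} : Finset E) ∩ cut ends {w} = {f} := by
          ext g
          simp only [Finset.mem_inter, Finset.mem_insert, Finset.mem_singleton]
          constructor
          · rintro ⟨rfl | rfl, hg⟩
            · exact absurd hg (hecut' w hwT)
            · rfl
          · rintro rfl
            exact ⟨Or.inr rfl, hfcut w (Finset.mem_sdiff.2 ⟨hw, hwT⟩)⟩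
        rw [hEq]
        simp

theorem G2_exists_low {W : Finset V} {A : Finset E} {ends : E → V × V} (hWF : WF W A ends)
    (hW : 0 < W.card) (hAW : A.card ≤ W.card) :
    ∃ v ∈ W, (A ∩ cut ends {v}).card ≤ 2 := by
  by_contra hcon
  push Not at hcon
  have hs := handshake hWF (ind A) (fun e he => by simp [ind, he]) W
  have h1 : ∀ w ∈ W, ∑ e ∈ cut ends {w}, ind A e = ((A ∩ cut ends {w}).card : ℝ) := by
    intro w _
    unfold ind
    rw [Finset.sum_ite_mem, Finset.sum_const, nsmul_eq_mul, mul_one, Finset.inter_comm]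
  have h2 : ∑ e ∈ ins ends W, ind A e = (A.card : ℝ) := by
    unfold ind
    rw [Finset.sum_ite_mem, Finset.sum_const, nsmul_eq_mul, mul_one]
    congr 2
    ext e
    simp only [Finset.mem_inter, ins, Finset.mem_filter, Finset.mem_univ, true_and]
    constructor
    · exact fun h => h.2
    · exact fun h => ⟨⟨(hWF e h).1, (hWF e h).2.1⟩, h⟩
  have h3 : ∑ e ∈ cut ends W, ind A e = 0 := by
    apply Finset.sum_eq_zero
    intro e he
    unfold ind
    rw [if_neg]
    intro heA
    simp only [cut, Finset.mem_filter, Finset.mem_univ, true_and] at he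
    exact he ⟨fun _ => (hWF e heA).2.1, fun _ => (hWF e heA).1⟩
  rw [Finset.sum_congr rfl h1, h2, h3] at hs
  have h4 : (∑ w ∈ W, (3 : ℝ)) ≤ ∑ w ∈ W, ((A ∩ cut ends {w}).card : ℝ) := by
    apply Finset.sum_le_sum
    intro w hw
    have := hcon w hw
    exact_mod_cast this
  rw [Finset.sum_const, nsmul_eq_mul] at h4
  have h5 : (A.card : ℝ) ≤ (W.card : ℝ) := by exact_mod_cast hAW
  have h6 : (0 : ℝ) < (W.card : ℝ) := by exact_mod_cast hW
  linarith

theorem base_large {W : Finset V} {A : Finset E} {ends : E → V × V} (hWF : WF W A ends)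
    {x : E → ℝ} (hx : x ∈ Q W A ends) (hpos : ∀ e ∈ A, 0 < x e) (hcard : 6 ≤ W.card)
    (hinj : ∀ h : E → ℝ, (∀ e, e ∉ A → h e = 0) → (∀ w ∈ W, ∑ e ∈ cut ends {w}, h e = 0) → h = 0) :
    ∃ T, T ⊆ W ∧ T.card = 3 ∧ ∑ e ∈ cut ends T, x e = 1 := by
  obtain ⟨hx0, hxA, hxs, hxo⟩ := hx
  obtain ⟨v, hvW, hv2⟩ := G2_exists_low hWF (by omega) (card_le_of_inj hinj)
  -- the closed neighbourhood of `v`
  set N : Finset V := (A ∩ cut ends {v}).image
    (fun e => if (ends e).1 = v then (ends e).2 else (ends e).1) with hN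
  have hNcard : N.card ≤ 2 := le_trans Finset.card_image_le hv2
  have hNW : N ⊆ W := by
    intro u hu
    rw [hN, Finset.mem_image] at hu
    obtain ⟨e, he, rfl⟩ := hu
    have heA := (Finset.mem_inter.mp he).1
    split_ifs
    · exact (hWF e heA).2.1
    · exact (hWF e heA).1
  have hT0 : insert v N ⊆ W := Finset.insert_subset hvW hNW
  have hT0c : (insert v N).card ≤ 3 := le_trans (Finset.card_insert_le v N) (by omega)
  obtain ⟨T, hT0T, hTW, hT3⟩ := Finset.exists_subsuperset_card_eq hT0 hT0c (by omega)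
  refine ⟨T, hTW, hT3, ?_⟩
  have hs := handshake hWF x hxA T
  have h1 : ∑ w ∈ T, ∑ e ∈ cut ends {w}, x e = 3 := by
    rw [Finset.sum_congr rfl (fun w hw => hxs w (hTW hw)), Finset.sum_const, hT3]
    norm_num
  have h2 : (1 : ℝ) ≤ ∑ e ∈ ins ends T, x e := by
    rw [← hxs v hvW]
    rw [← Finset.sum_filter_of_ne (s := cut ends {v}) (p := fun e => e ∈ A)
      (fun e _ hne => by by_contra h; exact hne (hxA e h))]
    apply Finset.sum_le_sum_of_subset_of_nonneg
    · intro e he
      rw [Finset.mem_filter] at he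
      obtain ⟨hec, heA⟩ := he
      have hmem : (if (ends e).1 = v then (ends e).2 else (ends e).1) ∈ N := by
        rw [hN]
        exact Finset.mem_image_of_mem _ (Finset.mem_inter.mpr ⟨heA, hec⟩)
      have hvT : v ∈ T := hT0T (Finset.mem_insert_self v N)
      have hmemT := hT0T (Finset.mem_insert_of_mem hmem)
      simp only [cut, Finset.mem_filter, Finset.mem_univ, true_and, Finset.mem_singleton] at hec
      simp only [ins, Finset.mem_filter, Finset.mem_univ, true_and]
      by_cases h1 : (ends e).1 = v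
      · rw [if_pos h1] at hmemT
        exact ⟨h1 ▸ hvT, hmemT⟩
      · rw [if_neg h1] at hmemT
        have h2 : (ends e).2 = v := by
          by_contra h2
          exact hec ⟨fun h => absurd h h1, fun h => absurd h h2⟩
        exact ⟨hmemT, h2 ▸ hvT⟩
    · intro e _ _
      exact hx0 e
  have h3 : 1 ≤ ∑ e ∈ cut ends T, x e := hxo T hTW (by rw [hT3]; decide)
  linarith

/-! ### Chunk H : Edmonds' theorem -/

omit [Fintype V] in
theorem H_P_mono {W : Finset V} {A A' : Finset E} {ends : E → V × V} (h : A' ⊆ A) :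
    P W A' ends ⊆ P W A ends := by
  apply convexHull_mono
  apply Set.image_mono
  intro M hM
  exact ⟨hM.1.trans h, hM.2⟩

theorem edmonds (n : ℕ) : ∀ (W : Finset V) (A : Finset E) (ends : E → V × V), W.card ≤ n →
    WF W A ends → Q W A ends ⊆ P W A ends := by
  induction n using Nat.strong_induction_on with
  | _ n ih =>
  intro W A ends hn hWF
  have hPclosed : IsClosed (P W A ends) :=
    Set.Finite.isClosed_convexHull ℝ (Set.toFinite _)
  have hext : (Q W A ends).extremePoints ℝ ⊆ P W A ends := by
    intro x hx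
    rw [mem_extremePoints] at hx
    obtain ⟨hxQ, hxe⟩ := hx
    set A' : Finset E := A.filter (fun e => 0 < x e) with hA'
    have hsub : A' ⊆ A := Finset.filter_subset _ _
    have hWF' : WF W A' ends := fun e he => hWF e (hsub he)
    have hsupp : ∀ e, e ∉ A' → x e = 0 := by
      intro e he
      by_cases heA : e ∈ A
      · have : ¬ 0 < x e := fun h => he (Finset.mem_filter.2 ⟨heA, h⟩)
        exact le_antisymm (not_lt.1 this) (hxQ.1 e)
      · exact hxQ.2.1 e heA
    have hxQ' : x ∈ Q W A' ends := ⟨hxQ.1, hsupp, hxQ.2.2.1, hxQ.2.2.2⟩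
    have hpos : ∀ e ∈ A', 0 < x e := fun e he => (Finset.mem_filter.1 he).2
    have hQmono : Q W A' ends ⊆ Q W A ends := by
      intro y hy
      exact ⟨hy.1, fun e he => hy.2.1 e (fun h => he (hsub h)), hy.2.2.1, hy.2.2.2⟩
    have heven : Even W.card := Q_even hWF hxQ
    apply H_P_mono hsub
    by_cases hT : ∃ T, T ⊆ W ∧ Odd T.card ∧ 3 ≤ T.card ∧ T.card + 3 ≤ W.card ∧
        ∑ e ∈ cut ends T, x e = 1
    · obtain ⟨S, hS, hodd, h3, h3', htight⟩ := hT
      have hSne : S.Nonempty := Finset.card_pos.1 (by omega)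
      obtain ⟨s, hs⟩ := hSne
      have hcardS' : (W \ S).card = W.card - S.card := Finset.card_sdiff_of_subset hS
      have hS'ne : (W \ S).Nonempty := Finset.card_pos.1 (by omega)
      obtain ⟨t, ht⟩ := hS'ne
      have hodd' : Odd (W \ S).card := by
        rw [hcardS']
        obtain ⟨a, ha⟩ := heven
        obtain ⟨b, hb⟩ := hodd
        exact ⟨a - b - 1, by omega⟩
      have htight' : ∑ e ∈ cut ends (W \ S), x e = 1 := by
        rw [cut_compl hWF' x hsupp S]; exact htight
      have h1 := con_Q hWF' hS hs hodd hxQ' htight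
      have h2 := con_Q hWF' Finset.sdiff_subset ht hodd' hxQ' htight'
      have c1 := card_conW hS hs
      have c2 := card_conW (Finset.sdiff_subset : W \ S ⊆ W) ht
      have p1 := ih (conW W S s).card (by omega) _ _ _ le_rfl (con_WF hWF' hs) h1
      have p2 := ih (conW W (W \ S) t).card (by omega) _ _ _ le_rfl (con_WF hWF' ht) h2
      exact glue hWF' hS hs ht hsupp p1 p2
    · have hnt : ∀ T, T ⊆ W → Odd T.card → 3 ≤ T.card → T.card + 3 ≤ W.card →
          1 < ∑ e ∈ cut ends T, x e := by
        intro T hTW hTo h3 h3'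
        have hge := hxQ.2.2.2 T hTW hTo
        rcases lt_or_eq_of_le hge with h | h
        · exact h
        · exact absurd ⟨T, hTW, hTo, h3, h3', h.symm⟩ hT
      have hinj : ∀ h : E → ℝ, (∀ e, e ∉ A' → h e = 0) →
          (∀ w ∈ W, ∑ e ∈ cut ends {w}, h e = 0) → h = 0 := by
        intro h hA hstar
        obtain ⟨ε, hε, hdir⟩ := dir_Q hWF' hxQ' hpos hnt h hA hstar
        have hp : x + (ε / 2) • h ∈ Q W A ends :=
          hQmono (hdir (ε / 2) (by rw [abs_of_pos (by linarith)]; linarith))
        have hm : x + (-(ε / 2)) • h ∈ Q W A ends :=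
          hQmono (hdir (-(ε / 2)) (by rw [abs_neg, abs_of_pos (by linarith)]; linarith))
        have hseg : x ∈ openSegment ℝ (x + (ε / 2) • h) (x + (-(ε / 2)) • h) := by
          refine ⟨1 / 2, 1 / 2, by norm_num, by norm_num, by norm_num, ?_⟩
          ext e
          simp only [Pi.add_apply, Pi.smul_apply, smul_eq_mul]
          ring
        have := (hxe _ hp _ hm hseg).1
        ext e
        have he := congrFun this e
        simp only [Pi.add_apply, Pi.smul_apply, smul_eq_mul] at he
        have h2 : ε / 2 * h e = 0 := by linarith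
        rcases mul_eq_zero.1 h2 with h3 | h3
        · linarith
        · simpa using h3
      by_cases hc : W.card ≤ 4
      · exact base_small hWF' hxQ' hpos hc hinj
      · have h6 : 6 ≤ W.card := by
          obtain ⟨a, ha⟩ := heven
          omega
        obtain ⟨T, hTW, hT3, hTt⟩ := base_large hWF' hxQ' hpos h6 hinj
        exact absurd ⟨T, hTW, by rw [hT3]; decide, by omega, by omega, hTt⟩ hT
  calc Q W A ends = closure (convexHull ℝ ((Q W A ends).extremePoints ℝ)) :=
        (closure_convexHull_extremePoints (Q_compact hWF) (Q_convex W A ends)).symm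
    _ ⊆ closure (P W A ends) := closure_mono (convexHull_min hext (convex_convexHull ℝ _))
    _ = P W A ends := hPclosed.closure_eq

/-! ### Chunk I : the dimension induction -/

omit [Fintype V] [DecidableEq V] [Fintype E] in
theorem I_res_ind {A1 A F1 F : Finset E} (h : ∀ e, (e ∈ A1 ∧ e ∈ F1) ↔ (e ∈ A ∧ e ∈ F)) :
    res A1 (ind F1) = res A (ind F) := by
  funext e
  have he := h e
  unfold res ind
  by_cases h1 : e ∈ A1 <;> by_cases h2 : e ∈ F1 <;> by_cases h3 : e ∈ A <;> by_cases h4 : e ∈ F <;>
    simp_all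

omit [Fintype V] [DecidableEq V] [Fintype E] in
theorem I_res_add (A1 : Finset E) (x h : E → ℝ) (t : ℝ) :
    res A1 (x + t • h) = res A1 x + t • res A1 h := by
  funext e
  unfold res
  by_cases h1 : e ∈ A1 <;> simp [h1]

theorem I_mem_cut {ends : E → V × V} {T : Finset V} {e : E} :
    e ∈ cut ends T ↔ ¬ ((ends e).1 ∈ T ↔ (ends e).2 ∈ T) := by
  simp [cut]

theorem dim_main (n : ℕ) : ∀ (W : Finset V) (A : Finset E) (ends : E → V × V) (x : E → ℝ) (m : ℕ),
    m ≤ n → 1 ≤ m → W.card = 2 * m → WF W A ends → x ∈ Q W A ends → (∀ e ∈ A, 0 < x e) →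
    ∃ C : Submodule ℝ (E → ℝ), Module.finrank ℝ C + 2 ≤ 3 * m ∧
      (∀ c ∈ C, ∀ e, e ∉ A → c e = 0) ∧
      (∀ w ∈ W, res A (ind (cut ends {w})) ∈ C) ∧
      ∀ h : E → ℝ, (∀ e, e ∉ A → h e = 0) → (∀ c ∈ C, ∑ e, c e * h e = 0) →
        ∃ ε : ℝ, 0 < ε ∧ ∀ t : ℝ, |t| < ε → x + t • h ∈ P W A ends := by
  induction n with
  | zero => intro W A ends x m hmn hm; omega
  | succ n ih =>
  intro W A ends x m hmn hm hW hWF hx hpos
  have hsupp : ∀ e, e ∉ A → x e = 0 := hx.2.1
  by_cases hT : ∃ T, T ⊆ W ∧ Odd T.card ∧ 3 ≤ T.card ∧ T.card + 3 ≤ W.card ∧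
      ∑ e ∈ cut ends T, x e = 1
  · obtain ⟨S, hS, hodd, h3, h3', htight⟩ := hT
    have hSne : S.Nonempty := Finset.card_pos.1 (by omega)
    obtain ⟨s, hs⟩ := hSne
    have hcardS' : (W \ S).card = W.card - S.card := Finset.card_sdiff_of_subset hS
    have hS'ne : (W \ S).Nonempty := Finset.card_pos.1 (by omega)
    obtain ⟨t, ht⟩ := hS'ne
    obtain ⟨a, ha⟩ := hodd
    have hodd : Odd S.card := ⟨a, ha⟩
    have hodd' : Odd (W \ S).card := by
      rw [hcardS']
      exact ⟨m - a - 1, by omega⟩
    have htight' : ∑ e ∈ cut ends (W \ S), x e = 1 := by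
      rw [cut_compl hWF x hsupp S]; exact htight
    have h1 := con_Q hWF hS hs hodd hx htight
    have h2 := con_Q hWF Finset.sdiff_subset ht hodd' hx htight'
    have c1 := card_conW hS hs
    have c2 := card_conW (Finset.sdiff_subset : W \ S ⊆ W) ht
    have hA1 : conA A S ends ⊆ A := Finset.filter_subset _ _
    have hA2 : conA A (W \ S) ends ⊆ A := Finset.filter_subset _ _
    have pos1 : ∀ e ∈ conA A S ends, 0 < res (conA A S ends) x e := by
      intro e he
      simp only [res, he, if_true]
      exact hpos e (hA1 he)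
    have pos2 : ∀ e ∈ conA A (W \ S) ends, 0 < res (conA A (W \ S) ends) x e := by
      intro e he
      simp only [res, he, if_true]
      exact hpos e (hA2 he)
    obtain ⟨C1, hC1dim, hC1supp, hC1star, hC1dir⟩ :=
      ih _ _ _ _ (m - a) (by omega) (by omega) (by omega) (con_WF hWF hs) h1 pos1
    obtain ⟨C2, hC2dim, hC2supp, hC2star, hC2dir⟩ :=
      ih _ _ _ _ (a + 1) (by omega) (by omega) (by omega) (con_WF hWF ht) h2 pos2
    -- the common vector
    have hz1 : res A (ind (cut ends S)) ∈ C1 := by
      have := hC1star s (Finset.mem_insert_self _ _)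
      rw [cut_con_self ends hs] at this
      rwa [I_res_ind (A := A) (F := cut ends S)] at this
      intro e
      constructor
      · rintro ⟨h1, h2⟩; exact ⟨hA1 h1, h2⟩
      · rintro ⟨h1, h2⟩
        refine ⟨Finset.mem_filter.2 ⟨h1, ?_⟩, h2⟩
        rw [I_mem_cut] at h2
        tauto
    have hz2 : res A (ind (cut ends S)) ∈ C2 := by
      have := hC2star t (Finset.mem_insert_self _ _)
      rw [cut_con_self ends ht] at this
      rwa [I_res_ind (A := A) (F := cut ends S)] at this
      intro e
      constructor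
      · rintro ⟨h1, h2⟩
        refine ⟨hA2 h1, ?_⟩
        obtain ⟨w1, w2, -⟩ := hWF e (hA2 h1)
        rw [I_mem_cut] at h2 ⊢
        simp only [Finset.mem_sdiff, w1, w2, true_and] at h2
        tauto
      · rintro ⟨h1, h2⟩
        obtain ⟨w1, w2, -⟩ := hWF e h1
        rw [I_mem_cut] at h2
        refine ⟨Finset.mem_filter.2 ⟨h1, ?_⟩, ?_⟩
        · simp only [Finset.mem_sdiff, w1, w2, true_and]
          tauto
        · rw [I_mem_cut]
          simp only [Finset.mem_sdiff, w1, w2, true_and]
          tauto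
    have hz0 : res A (ind (cut ends S)) ≠ 0 := by
      have hne : ∑ e ∈ cut ends S, x e ≠ 0 := by rw [htight]; norm_num
      obtain ⟨e, he, hxe⟩ := Finset.exists_ne_zero_of_sum_ne_zero hne
      have heA : e ∈ A := by
        by_contra hcon
        exact hxe (hsupp e hcon)
      intro h0
      have := congrFun h0 e
      simp [res, ind, heA, he] at this
    have hinf : 1 ≤ Module.finrank ℝ (C1 ⊓ C2 : Submodule ℝ (E → ℝ)) := by
      rw [Submodule.one_le_finrank_iff, Submodule.ne_bot_iff]
      exact ⟨_, ⟨hz1, hz2⟩, hz0⟩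
    have hsum := Submodule.finrank_sup_add_finrank_inf_eq C1 C2
    refine ⟨C1 ⊔ C2, by omega, ?_, ?_, ?_⟩
    · intro c hc e he
      obtain ⟨c1', hc1, c2', hc2, rfl⟩ := Submodule.mem_sup.1 hc
      have e1 := hC1supp c1' hc1 e (fun h => he (hA1 h))
      have e2 := hC2supp c2' hc2 e (fun h => he (hA2 h))
      simp [e1, e2]
    · intro w hw
      by_cases hwS : w ∈ S
      · have hw' : w ∉ W \ S := by simp [hwS]
        have hmem : w ∈ conW W (W \ S) t := by
          simp only [conW, Finset.mem_insert, Finset.mem_sdiff]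
          right; exact ⟨hw, by tauto⟩
        have := hC2star w hmem
        rw [cut_con_of_notMem ends ht hw'] at this
        rw [I_res_ind (A := A) (F := cut ends {w})] at this
        · exact Submodule.mem_sup_right this
        intro e
        constructor
        · rintro ⟨h1, h2⟩; exact ⟨hA2 h1, h2⟩
        · rintro ⟨h1, h2⟩
          refine ⟨Finset.mem_filter.2 ⟨h1, ?_⟩, h2⟩
          rw [I_mem_cut] at h2
          simp only [Finset.mem_singleton] at h2
          simp only [Finset.mem_sdiff]
          rintro ⟨⟨-, g1⟩, ⟨-, g2⟩⟩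
          by_cases q1 : (ends e).1 = w
          · exact g1 (q1 ▸ hwS)
          · by_cases q2 : (ends e).2 = w
            · exact g2 (q2 ▸ hwS)
            · tauto
      · have hmem : w ∈ conW W S s := by
          simp only [conW, Finset.mem_insert, Finset.mem_sdiff]
          right; exact ⟨hw, hwS⟩
        have := hC1star w hmem
        rw [cut_con_of_notMem ends hs hwS] at this
        rw [I_res_ind (A := A) (F := cut ends {w})] at this
        · exact Submodule.mem_sup_left this
        intro e
        constructor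
        · rintro ⟨h1, h2⟩; exact ⟨hA1 h1, h2⟩
        · rintro ⟨h1, h2⟩
          refine ⟨Finset.mem_filter.2 ⟨h1, ?_⟩, h2⟩
          rw [I_mem_cut] at h2
          simp only [Finset.mem_singleton] at h2
          rintro ⟨g1, g2⟩
          by_cases q1 : (ends e).1 = w
          · exact hwS (q1 ▸ g1)
          · by_cases q2 : (ends e).2 = w
            · exact hwS (q2 ▸ g2)
            · tauto
    · intro h hA horth
      have key : ∀ (A' : Finset E) (C' : Submodule ℝ (E → ℝ)), C' ≤ C1 ⊔ C2 →
          (∀ c ∈ C', ∀ e, e ∉ A' → c e = 0) → ∀ c ∈ C', ∑ e, c e * res A' h e = 0 := by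
        intro A' C' hle hsup c hc
        rw [← horth c (hle hc)]
        apply Finset.sum_congr rfl
        intro e _
        by_cases he : e ∈ A'
        · simp [res, he]
        · simp [res, he, hsup c hc e he]
      obtain ⟨ε1, hε1, hd1⟩ := hC1dir (res (conA A S ends) h)
        (fun e he => by simp [res, he]) (key _ C1 le_sup_left hC1supp)
      obtain ⟨ε2, hε2, hd2⟩ := hC2dir (res (conA A (W \ S) ends) h)
        (fun e he => by simp [res, he]) (key _ C2 le_sup_right hC2supp)
      refine ⟨min ε1 ε2, lt_min hε1 hε2, ?_⟩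
      intro r hr
      have r1 := hd1 r (lt_of_lt_of_le hr (min_le_left _ _))
      have r2 := hd2 r (lt_of_lt_of_le hr (min_le_right _ _))
      rw [← I_res_add] at r1 r2
      refine glue hWF hS hs ht ?_ r1 r2
      intro e he
      simp [hsupp e he, hA e he]
  · have hnt : ∀ T, T ⊆ W → Odd T.card → 3 ≤ T.card → T.card + 3 ≤ W.card →
        1 < ∑ e ∈ cut ends T, x e := by
      intro T hTW hTo h3 h3'
      have hge := hx.2.2.2 T hTW hTo
      rcases lt_or_eq_of_le hge with h | h
      · exact h
      · exact absurd ⟨T, hTW, hTo, h3, h3', h.symm⟩ hT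
    set f : V → (E → ℝ) := fun w => res A (ind (cut ends {w})) with hf
    refine ⟨Submodule.span ℝ ((W.image f : Finset (E → ℝ)) : Set (E → ℝ)), ?_, ?_, ?_, ?_⟩
    · have hle : Module.finrank ℝ (Submodule.span ℝ ((W.image f : Finset (E → ℝ)) : Set (E → ℝ))) ≤
          (W.image f).card := finrank_span_finset_le_card (R := ℝ) (W.image f)
      have hle2 : (W.image f).card ≤ W.card := Finset.card_image_le
      by_cases hm2 : 2 ≤ m
      · omega
      · have hm1 : m = 1 := by omega
        subst hm1
        obtain ⟨a, b, hab, rfl⟩ := Finset.card_eq_two.1 hW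
        have hfab : f a = f b := by
          apply I_res_ind
          intro e
          constructor
          · rintro ⟨h1, h2⟩
            refine ⟨h1, ?_⟩
            obtain ⟨w1, w2, w3⟩ := hWF e h1
            rw [I_mem_cut] at h2 ⊢
            simp only [Finset.mem_insert, Finset.mem_singleton] at w1 w2 h2 ⊢
            have hba : ¬ b = a := fun h => hab h.symm
            rcases w1 with w1 | w1 <;> rcases w2 with w2 | w2 <;> simp_all
          · rintro ⟨h1, h2⟩
            refine ⟨h1, ?_⟩
            obtain ⟨w1, w2, w3⟩ := hWF e h1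
            rw [I_mem_cut] at h2 ⊢
            simp only [Finset.mem_insert, Finset.mem_singleton] at w1 w2 h2 ⊢
            have hba : ¬ b = a := fun h => hab h.symm
            rcases w1 with w1 | w1 <;> rcases w2 with w2 | w2 <;> simp_all
        have : (({a, b} : Finset V).image f).card ≤ 1 := by
          rw [Finset.image_insert, Finset.image_singleton, hfab]
          simp
        omega
    · intro c hc
      induction hc using Submodule.span_induction with
      | mem c hc =>
        intro e he
        simp only [Finset.coe_image, Set.mem_image, Finset.mem_coe] at hc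
        obtain ⟨w, -, rfl⟩ := hc
        simp [hf, res, he]
      | zero => intro e _; rfl
      | add c d _ _ hc hd => intro e he; simp [hc e he, hd e he]
      | smul r c _ hc => intro e he; simp [hc e he]
    · intro w hw
      apply Submodule.subset_span
      exact Finset.mem_coe.2 (Finset.mem_image_of_mem f hw)
    · intro h hA horth
      have hstar : ∀ w ∈ W, ∑ e ∈ cut ends {w}, h e = 0 := by
        intro w hw
        have := horth (f w) (Submodule.subset_span (Finset.mem_coe.2 (Finset.mem_image_of_mem f hw)))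
        rw [← this, ← Finset.sum_filter_add_sum_filter_not Finset.univ (fun e => e ∈ cut ends {w})]
        have z : ∑ e ∈ Finset.univ.filter (fun e => ¬ e ∈ cut ends {w}), f w e * h e = 0 := by
          apply Finset.sum_eq_zero
          intro e he
          have := (Finset.mem_filter.1 he).2
          simp [hf, res, ind, this]
        rw [z, add_zero]
        have : Finset.univ.filter (fun e => e ∈ cut ends {w}) = cut ends {w} := by
          ext e; simp
        rw [this]
        apply Finset.sum_congr rfl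
        intro e he
        by_cases heA : e ∈ A
        · simp [hf, res, ind, heA, he]
        · simp [hA e heA]
      obtain ⟨ε, hε, hd⟩ := dir_Q hWF hx hpos hnt h hA hstar
      exact ⟨ε, hε, fun r hr => edmonds _ W A ends le_rfl hWF (hd r hr)⟩

/-! ### Chunk J : linear algebra -/


end General

/-! ### Chunk K : transfer to the frozen statement -/

theorem K_inter {v k : ℕ} (ends : Fin k → Fin v × Fin v) (hends : ∀ e, (ends e).1 ≠ (ends e).2)
    (M : Finset (Fin k)) (w : Fin v) :
    M ∩ cut ends {w} = M.filter fun e => (ends e).1 = w ∨ (ends e).2 = w := by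
  ext e
  simp only [cut, Finset.mem_inter, Finset.mem_filter, Finset.mem_univ, true_and,
    Finset.mem_singleton]
  have hne := hends e
  constructor
  · rintro ⟨h1, h2⟩
    refine ⟨h1, ?_⟩
    by_contra hcon
    rw [not_or] at hcon
    exact h2 ⟨fun h => absurd h hcon.1, fun h => absurd h hcon.2⟩
  · rintro ⟨h1, h2⟩
    refine ⟨h1, fun hiff => ?_⟩
    rcases h2 with h | h
    · exact hne (h.trans (hiff.1 h).symm)
    · exact hne ((hiff.2 h).trans h.symm)

/-- In a loopless multigraph on 2m ≥ 2 vertices (parallel edges distinguished), let x be a point of the perfect-matching polytope, the convex hull of the zero-one vectors of perfect matchings in the edge space. Then the number of edges e with x_e > 0, minus the dimension of the minimal face of the polytope containing x (the dimension of the span of the directions h with x + t·h in the polytope for all real t small in absolute value), is at most 3m − 2. -/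
theorem result (m : ℕ) (hm : 1 ≤ m) (k : ℕ)
    (ends : Fin k → Fin (2 * m) × Fin (2 * m)) (hends : ∀ e, (ends e).1 ≠ (ends e).2)
    (x : Fin k → ℝ) (hx : x ∈ pmPolytope ends) :
    ((Finset.univ.filter fun e => 0 < x e).card : ℤ) - (pmFaceDim ends x : ℤ) ≤ 3 * (m : ℤ) - 2 := by
  have hWFu : WF (Finset.univ : Finset (Fin (2 * m))) (Finset.univ : Finset (Fin k)) ends :=
    fun e _ => ⟨Finset.mem_univ _, Finset.mem_univ _, hends e⟩
  have hWF : WF (Finset.univ : Finset (Fin (2 * m))) (Finset.univ.filter fun e => 0 < x e) ends :=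
    fun e _ => ⟨Finset.mem_univ _, Finset.mem_univ _, hends e⟩
  have hP1 : pmPolytope ends ⊆ P Finset.univ Finset.univ ends := by
    apply convexHull_mono
    rintro _ ⟨M, hM, rfl⟩
    refine ⟨M, ⟨Finset.subset_univ _, fun w _ => ?_⟩, rfl⟩
    rw [K_inter ends hends]
    exact hM w
  have hP2 : P Finset.univ (Finset.univ.filter fun e => 0 < x e) ends ⊆ pmPolytope ends := by
    apply convexHull_mono
    rintro _ ⟨M, hM, rfl⟩
    refine ⟨M, fun w => ?_, rfl⟩
    rw [← K_inter ends hends]
    exact hM.2 w (Finset.mem_univ _)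
  have hxQu : x ∈ Q Finset.univ Finset.univ ends := P_subset_Q hWFu (hP1 hx)
  have hxQ : x ∈ Q Finset.univ (Finset.univ.filter fun e => 0 < x e) ends := by
    obtain ⟨h0, _, h2, h3⟩ := hxQu
    refine ⟨h0, fun e he => ?_, h2, h3⟩
    have hnot : ¬ 0 < x e := fun hpos => he (Finset.mem_filter.2 ⟨Finset.mem_univ _, hpos⟩)
    exact le_antisymm (not_lt.1 hnot) (h0 e)
  have hpos : ∀ e ∈ (Finset.univ.filter fun e => 0 < x e), 0 < x e :=
    fun e he => (Finset.mem_filter.1 he).2
  have hcard : (Finset.univ : Finset (Fin (2 * m))).card = 2 * m := by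
    rw [Finset.card_univ, Fintype.card_fin]
  obtain ⟨C, hC, _, _, hdir⟩ :=
    dim_main m Finset.univ (Finset.univ.filter fun e => 0 < x e) ends x m le_rfl hm hcard
      hWF hxQ hpos
  have hU := finrank_orth (Finset.univ.filter fun e => 0 < x e) C
    (Submodule.span ℝ (pmDirections ends x)) (fun h h1 h2 => by
      obtain ⟨ε, hε, ht⟩ := hdir h h1 h2
      exact Submodule.subset_span ⟨ε, hε, fun t htt => hP2 (ht t htt)⟩)
  have hdim : pmFaceDim ends x = Module.finrank ℝ (Submodule.span ℝ (pmDirections ends x)) := rfl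
  rw [hdim]
  omega

end Crest.Agent.S0466
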