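-- Statement S0505 (row 327, second statement): explicit homogeneous depth-five circuit for IMM.
-- Standalone proof (helper99).  Blocks of t = ⌈√n⌉ matrices, the sequence of matrices being padded
-- by identity matrices; the 0/1 entries of the padding are absorbed in the coefficients of the
-- middle sum gates, so that the circuit stays syntactically homogeneous.
import Crest.Statements.S0505

set_option autoImplicit false
universe u
open Crest Crest.LogicCS

namespace Crest.Agent.S0505

open Finset Crest.ArithCircuit MvPolynomial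

/-- path expansion of an entry of a product of `m+1` matrices -/
theorem path_expand {A : Type*} [CommSemiring A] {n : ℕ} :
    ∀ (m : ℕ) (M : Fin (m + 1) → Matrix (Fin n) (Fin n) A) (a b : Fin n),
      (List.ofFn M).prod a b =
        ∑ d : Fin m → Fin n, ∏ u : Fin (m + 1),
          M u ((Fin.cons a (Fin.snoc d b : Fin (m + 1) → Fin n) : Fin (m + 2) → Fin n) u.castSucc)
            ((Fin.snoc d b : Fin (m + 1) → Fin n) u) := by
  intro m
  induction m with
  | zero =>
    intro M a b
    have h0 : ∀ d : Fin 0 → Fin n, (Fin.snoc d b : Fin (0 + 1) → Fin n) 0 = b := fun d =>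
      Fin.snoc_last (α := fun _ => Fin n) b d
    simp [List.ofFn_succ, h0]
  | succ m ih =>
    intro M a b
    rw [List.ofFn_succ, List.prod_cons, Matrix.mul_apply]
    rw [← (Fin.consEquiv (fun _ : Fin (m + 1) => Fin n)).sum_comp, Fintype.sum_prod_type]
    refine Finset.sum_congr rfl fun x _ => ?_
    rw [ih, Finset.mul_sum]
    refine Finset.sum_congr rfl fun d _ => ?_
    have hc : (Fin.snoc ((Fin.consEquiv fun _ : Fin (m + 1) => Fin n) (x, d)) b :
        Fin (m + 1 + 1) → Fin n) = Fin.cons x (Fin.snoc d b : Fin (m + 1) → Fin n) := by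
      rw [Fin.cons_snoc_eq_snoc_cons]
      rfl
    rw [hc]
    symm
    rw [Fin.prod_univ_succ]
    congr 1

section transport

variable {K ι L B P S R L' B' P' S' R' : Type*} [CommSemiring K]

/-- relabel the gates of a circuit along bijections -/
def transport (C : SPSPS K ι L B P S R) (eL : L ≃ L') (eB : B ≃ B') (eP : P ≃ P') (eS : S ≃ S')
    (eR : R ≃ R') : SPSPS K ι L' B' P' S' R' where
  leaf l := C.leaf (eL.symm l)
  inB b := (C.inB (eB.symm b)).map eL.toEmbedding
  coefB b l := C.coefB (eB.symm b) (eL.symm l)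
  inP p := (C.inP (eP.symm p)).map eB
  inS s := (C.inS (eS.symm s)).map eP.toEmbedding
  coefS s p := C.coefS (eS.symm s) (eP.symm p)
  inR r := (C.inR (eR.symm r)).map eS
  inOut := C.inOut.map eR.toEmbedding
  coefOut r := C.coefOut (eR.symm r)

variable (C : SPSPS K ι L B P S R) (eL : L ≃ L') (eB : B ≃ B') (eP : P ≃ P') (eS : S ≃ S')
    (eR : R ≃ R')

theorem t_leafVal (l : L) : (transport C eL eB eP eS eR).leafVal (eL l) = C.leafVal l := by
  simp [transport, SPSPS.leafVal]

theorem t_valB (b : B) : (transport C eL eB eP eS eR).valB (eB b) = C.valB b := by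
  unfold SPSPS.valB
  have : (transport C eL eB eP eS eR).inB (eB b) = (C.inB b).map eL.toEmbedding := by
    simp [transport]
  rw [this, Finset.sum_map]
  refine Finset.sum_congr rfl fun l _ => ?_
  have h2 := t_leafVal C eL eB eP eS eR l
  simp only [Equiv.coe_toEmbedding]
  rw [h2]
  simp [transport]

theorem t_valP (p : P) : (transport C eL eB eP eS eR).valP (eP p) = C.valP p := by
  unfold SPSPS.valP
  have : (transport C eL eB eP eS eR).inP (eP p) = (C.inP p).map eB := by
    simp [transport]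
  rw [this, Multiset.map_map]
  congr 1
  refine Multiset.map_congr rfl fun b _ => ?_
  exact t_valB C eL eB eP eS eR b

theorem t_valS (s : S) : (transport C eL eB eP eS eR).valS (eS s) = C.valS s := by
  unfold SPSPS.valS
  have : (transport C eL eB eP eS eR).inS (eS s) = (C.inS s).map eP.toEmbedding := by
    simp [transport]
  rw [this, Finset.sum_map]
  refine Finset.sum_congr rfl fun l _ => ?_
  have h2 := t_valP C eL eB eP eS eR l
  simp only [Equiv.coe_toEmbedding]
  rw [h2]
  simp [transport]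

theorem t_valR (r : R) : (transport C eL eB eP eS eR).valR (eR r) = C.valR r := by
  unfold SPSPS.valR
  have : (transport C eL eB eP eS eR).inR (eR r) = (C.inR r).map eS := by
    simp [transport]
  rw [this, Multiset.map_map]
  congr 1
  refine Multiset.map_congr rfl fun b _ => ?_
  exact t_valS C eL eB eP eS eR b

theorem t_output : (transport C eL eB eP eS eR).output = C.output := by
  unfold SPSPS.output
  have : (transport C eL eB eP eS eR).inOut = C.inOut.map eR.toEmbedding := rfl
  rw [this, Finset.sum_map]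
  refine Finset.sum_congr rfl fun l _ => ?_
  have h2 := t_valR C eL eB eP eS eR l
  simp only [Equiv.coe_toEmbedding]
  rw [h2]
  simp [transport]

theorem t_leafDeg (l : L) : (transport C eL eB eP eS eR).leafDeg (eL l) = C.leafDeg l := by
  simp [transport, SPSPS.leafDeg]

theorem t_degB (b : B) : (transport C eL eB eP eS eR).degB (eB b) = C.degB b := by
  unfold SPSPS.degB
  have : (transport C eL eB eP eS eR).inB (eB b) = (C.inB b).map eL.toEmbedding := by
    simp [transport]
  rw [this, Finset.sup_map]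
  refine Finset.sup_congr rfl fun l _ => ?_
  exact t_leafDeg C eL eB eP eS eR l

theorem t_degP (p : P) : (transport C eL eB eP eS eR).degP (eP p) = C.degP p := by
  unfold SPSPS.degP
  have : (transport C eL eB eP eS eR).inP (eP p) = (C.inP p).map eB := by
    simp [transport]
  rw [this, Multiset.map_map]
  congr 1
  refine Multiset.map_congr rfl fun b _ => ?_
  exact t_degB C eL eB eP eS eR b

theorem t_degS (s : S) : (transport C eL eB eP eS eR).degS (eS s) = C.degS s := by
  unfold SPSPS.degS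
  have : (transport C eL eB eP eS eR).inS (eS s) = (C.inS s).map eP.toEmbedding := by
    simp [transport]
  rw [this, Finset.sup_map]
  refine Finset.sup_congr rfl fun l _ => ?_
  exact t_degP C eL eB eP eS eR l

theorem t_degR (r : R) : (transport C eL eB eP eS eR).degR (eR r) = C.degR r := by
  unfold SPSPS.degR
  have : (transport C eL eB eP eS eR).inR (eR r) = (C.inR r).map eS := by
    simp [transport]
  rw [this, Multiset.map_map]
  congr 1
  refine Multiset.map_congr rfl fun b _ => ?_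
  exact t_degS C eL eB eP eS eR b

theorem t_degOut : (transport C eL eB eP eS eR).degOut = C.degOut := by
  unfold SPSPS.degOut
  have : (transport C eL eB eP eS eR).inOut = C.inOut.map eR.toEmbedding := rfl
  rw [this, Finset.sup_map]
  refine Finset.sup_congr rfl fun l _ => ?_
  exact t_degR C eL eB eP eS eR l

theorem t_hom (h : C.IsHomogeneous) : (transport C eL eB eP eS eR).IsHomogeneous := by
  obtain ⟨h1, h2, h3⟩ := h
  refine ⟨?_, ?_, ?_⟩
  · intro b l hl
    obtain ⟨b, rfl⟩ := eB.surjective b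
    have : (transport C eL eB eP eS eR).inB (eB b) = (C.inB b).map eL.toEmbedding := by
      simp [transport]
    rw [this, Finset.mem_map] at hl
    obtain ⟨l, hl, rfl⟩ := hl
    simp only [Equiv.coe_toEmbedding]
    rw [t_leafDeg, t_degB]
    exact h1 b l hl
  · intro b l hl
    obtain ⟨b, rfl⟩ := eS.surjective b
    have : (transport C eL eB eP eS eR).inS (eS b) = (C.inS b).map eP.toEmbedding := by
      simp [transport]
    rw [this, Finset.mem_map] at hl
    obtain ⟨l, hl, rfl⟩ := hl
    simp only [Equiv.coe_toEmbedding]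
    rw [t_degP, t_degS]
    exact h2 b l hl
  · intro l hl
    have : (transport C eL eB eP eS eR).inOut = C.inOut.map eR.toEmbedding := rfl
    rw [this, Finset.mem_map] at hl
    obtain ⟨l, hl, rfl⟩ := hl
    simp only [Equiv.coe_toEmbedding]
    rw [t_degR, t_degOut]
    exact h3 l hl

end transport

section circuit

variable (K : Type u) [Field K] (n : ℕ) (hn : 0 < n) (t' r' : ℕ)

/-- clip a natural number to an index of a matrix -/
def kap (k : ℕ) : Fin n := if h : k < n then ⟨k, h⟩ else ⟨0, hn⟩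

/-- the first index seen by step `u` of a path -/
def pre {m : ℕ} (a b : Fin n) (d : Fin m → Fin n) (u : Fin (m + 1)) : Fin n :=
  (Fin.cons a (Fin.snoc d b : Fin (m + 1) → Fin n) : Fin (m + 2) → Fin n) u.castSucc

/-- the second index seen by step `u` of a path -/
def post {m : ℕ} (b : Fin n) (d : Fin m → Fin n) (u : Fin (m + 1)) : Fin n :=
  (Fin.snoc d b : Fin (m + 1) → Fin n) u

/-- the padded sequence of matrices -/
noncomputable def Mt (k : ℕ) : Matrix (Fin n) (Fin n) (MvPolynomial (Fin n × Fin n × Fin n) K) :=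
  if k < n then varMatrix K n (kap n hn k) else 1

/-- the circuit -/
noncomputable def circ : SPSPS K (Fin n × Fin n × Fin n) (Fin n × Fin n × Fin n)
    (Fin n × Fin n × Fin n) (Fin (r' + 1) × Fin n × Fin n × (Fin t' → Fin n))
    (Fin (r' + 1) × Fin n × Fin n) (Fin r' → Fin n) where
  leaf l := Sum.inl l
  inB b := {b}
  coefB _ _ := 1
  inP p := ((univ : Finset (Fin (t' + 1))).filter
      (fun u => p.1.val * (t' + 1) + u.val < n)).val.map
      (fun u => (kap n hn (p.1.val * (t' + 1) + u.val), pre n p.2.1 p.2.2.1 p.2.2.2 u,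
        post n p.2.2.1 p.2.2.2 u))
  inS s := univ.map ⟨fun d => (s.1, s.2.1, s.2.2, d), fun d d' h => by
    simpa using h⟩
  coefS _ p := ∏ u : Fin (t' + 1), if p.1.val * (t' + 1) + u.val < n then 1 else
      (if pre n p.2.1 p.2.2.1 p.2.2.2 u = post n p.2.2.1 p.2.2.2 u then 1 else 0)
  inR e := (univ : Finset (Fin (r' + 1))).val.map
      (fun j => (j, pre n ⟨0, hn⟩ ⟨0, hn⟩ e j, post n ⟨0, hn⟩ e j))
  inOut := univ
  coefOut _ := 1

theorem valB_circ (b : Fin n × Fin n × Fin n) : (circ K n hn t' r').valB b = X b := by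
  simp [SPSPS.valB, SPSPS.leafVal, circ]

theorem valP_circ (p : Fin (r' + 1) × Fin n × Fin n × (Fin t' → Fin n)) :
    (circ K n hn t' r').valP p = ∏ u ∈ (univ : Finset (Fin (t' + 1))).filter
      (fun u => p.1.val * (t' + 1) + u.val < n),
      X (kap n hn (p.1.val * (t' + 1) + u.val), pre n p.2.1 p.2.2.1 p.2.2.2 u,
        post n p.2.2.1 p.2.2.2 u) := by
  unfold SPSPS.valP
  have : (circ K n hn t' r').inP p = ((univ : Finset (Fin (t' + 1))).filter
      (fun u => p.1.val * (t' + 1) + u.val < n)).val.map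
      (fun u => (kap n hn (p.1.val * (t' + 1) + u.val), pre n p.2.1 p.2.2.1 p.2.2.2 u,
        post n p.2.2.1 p.2.2.2 u)) := rfl
  rw [this, Multiset.map_map]
  unfold Finset.prod
  congr 1
  refine Multiset.map_congr rfl fun u _ => ?_
  exact valB_circ K n hn t' r' _

theorem coef_valP (s : Fin (r' + 1) × Fin n × Fin n)
    (p : Fin (r' + 1) × Fin n × Fin n × (Fin t' → Fin n)) :
    (circ K n hn t' r').coefS s p • (circ K n hn t' r').valP p =
      ∏ u : Fin (t' + 1), Mt K n hn (p.1.val * (t' + 1) + u.val)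
        (pre n p.2.1 p.2.2.1 p.2.2.2 u) (post n p.2.2.1 p.2.2.2 u) := by
  rw [valP_circ, Finset.prod_filter, MvPolynomial.smul_eq_C_mul]
  have : (circ K n hn t' r').coefS s p = ∏ u : Fin (t' + 1),
      if p.1.val * (t' + 1) + u.val < n then 1 else
      (if pre n p.2.1 p.2.2.1 p.2.2.2 u = post n p.2.2.1 p.2.2.2 u then 1 else 0) := rfl
  rw [this, map_prod, ← Finset.prod_mul_distrib]
  refine Finset.prod_congr rfl fun u _ => ?_
  unfold Mt
  by_cases h : p.1.val * (t' + 1) + u.val < n
  · simp [h, varMatrix]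
  · simp only [h, if_false, mul_one, Matrix.one_apply]
    split_ifs <;> simp

theorem valS_circ (s : Fin (r' + 1) × Fin n × Fin n) :
    (circ K n hn t' r').valS s =
      (List.ofFn fun u : Fin (t' + 1) => Mt K n hn (s.1.val * (t' + 1) + u.val)).prod s.2.1 s.2.2 := by
  rw [path_expand]
  unfold SPSPS.valS
  have : (circ K n hn t' r').inS s = univ.map ⟨fun d => (s.1, s.2.1, s.2.2, d), fun d d' h => by
    simpa using h⟩ := rfl
  rw [this, Finset.sum_map]
  refine Finset.sum_congr rfl fun d _ => ?_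
  rw [coef_valP]
  rfl

theorem valR_circ (e : Fin r' → Fin n) :
    (circ K n hn t' r').valR e = ∏ j : Fin (r' + 1),
      (List.ofFn fun u : Fin (t' + 1) => Mt K n hn (j.val * (t' + 1) + u.val)).prod
        (pre n ⟨0, hn⟩ ⟨0, hn⟩ e j) (post n ⟨0, hn⟩ e j) := by
  unfold SPSPS.valR
  have : (circ K n hn t' r').inR e = (univ : Finset (Fin (r' + 1))).val.map
      (fun j => (j, pre n ⟨0, hn⟩ ⟨0, hn⟩ e j, post n ⟨0, hn⟩ e j)) := rfl
  rw [this, Multiset.map_map]
  unfold Finset.prod
  congr 1
  refine Multiset.map_congr rfl fun u _ => ?_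
  exact valS_circ K n hn t' r' _

theorem output_circ :
    (circ K n hn t' r').output = (List.ofFn fun j : Fin (r' + 1) =>
      (List.ofFn fun u : Fin (t' + 1) => Mt K n hn (j.val * (t' + 1) + u.val)).prod).prod
        ⟨0, hn⟩ ⟨0, hn⟩ := by
  rw [path_expand]
  unfold SPSPS.output
  have : (circ K n hn t' r').inOut = univ := rfl
  rw [this]
  refine Finset.sum_congr rfl fun e _ => ?_
  rw [valR_circ]
  have : (circ K n hn t' r').coefOut e = 1 := rfl
  rw [this, one_smul]
  rfl

theorem prod_pad (N : ℕ) (hN : n ≤ N) :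
    (List.ofFn fun k : Fin N => Mt K n hn k.val).prod = (List.ofFn (varMatrix K n)).prod := by
  induction N, hN using Nat.le_induction with
  | base =>
    congr 1
    congr 1
    funext k
    simp [Mt, kap, k.isLt]
  | succ N hN ih =>
    rw [List.ofFn_succ', List.concat_eq_append, List.prod_append]
    simp only [Fin.val_castSucc, Fin.val_last, List.prod_cons, List.prod_nil, mul_one]
    rw [ih]
    have : Mt K n hn N = 1 := by
      unfold Mt
      rw [if_neg (by omega)]
    rw [this, mul_one]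

theorem prod_blocks (t r : ℕ) (h : n ≤ r * t) :
    (List.ofFn fun j : Fin r =>
      (List.ofFn fun u : Fin t => Mt K n hn (j.val * t + u.val)).prod).prod =
      (List.ofFn (varMatrix K n)).prod := by
  rw [← prod_pad K n hn (r * t) h, List.ofFn_mul, List.prod_flatten, List.map_ofFn]
  rfl

theorem imm_eq : imm K n = (List.ofFn (varMatrix K n)).prod ⟨0, hn⟩ ⟨0, hn⟩ := by
  cases n with
  | zero => omega
  | succ n => rfl

theorem sup_const {α : Type*} {f : α → ℕ} {s : Finset α} {D : ℕ} (h : ∀ q ∈ s, f q = D)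
    {p : α} (hp : p ∈ s) : s.sup f = D := by
  apply le_antisymm
  · exact Finset.sup_le fun q hq => (h q hq).le
  · rw [← h p hp]
    exact Finset.le_sup hp

theorem degB_circ (b : Fin n × Fin n × Fin n) : (circ K n hn t' r').degB b = 1 := by
  simp [SPSPS.degB, SPSPS.leafDeg, circ]

theorem degP_circ (p : Fin (r' + 1) × Fin n × Fin n × (Fin t' → Fin n)) :
    (circ K n hn t' r').degP p = ((univ : Finset (Fin (t' + 1))).filter
      (fun u => p.1.val * (t' + 1) + u.val < n)).card := by
  unfold SPSPS.degP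
  have : (circ K n hn t' r').inP p = ((univ : Finset (Fin (t' + 1))).filter
      (fun u => p.1.val * (t' + 1) + u.val < n)).val.map
      (fun u => (kap n hn (p.1.val * (t' + 1) + u.val), pre n p.2.1 p.2.2.1 p.2.2.2 u,
        post n p.2.2.1 p.2.2.2 u)) := rfl
  rw [this, Multiset.map_map]
  have h2 : ((circ K n hn t' r').degB ∘ fun u : Fin (t' + 1) =>
      (kap n hn (p.1.val * (t' + 1) + u.val), pre n p.2.1 p.2.2.1 p.2.2.2 u,
        post n p.2.2.1 p.2.2.2 u)) = fun _ => 1 := by
    funext u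
    exact degB_circ K n hn t' r' _
  rw [h2]
  simp only [Multiset.map_const', Multiset.sum_replicate, smul_eq_mul, mul_one]
  rfl

theorem degS_circ (s : Fin (r' + 1) × Fin n × Fin n) :
    (circ K n hn t' r').degS s = ((univ : Finset (Fin (t' + 1))).filter
      (fun u => s.1.val * (t' + 1) + u.val < n)).card := by
  unfold SPSPS.degS
  have hin : (circ K n hn t' r').inS s = univ.map ⟨fun d => (s.1, s.2.1, s.2.2, d),
    fun d d' h => by simpa using h⟩ := rfl
  refine sup_const (p := (s.1, s.2.1, s.2.2, fun _ => ⟨0, hn⟩)) ?_ ?_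
  · intro q hq
    rw [hin, Finset.mem_map] at hq
    obtain ⟨d, _, rfl⟩ := hq
    rw [degP_circ]
    rfl
  · rw [hin, Finset.mem_map]
    exact ⟨fun _ => ⟨0, hn⟩, Finset.mem_univ _, rfl⟩

theorem degR_circ (e : Fin r' → Fin n) :
    (circ K n hn t' r').degR e = ∑ j : Fin (r' + 1), ((univ : Finset (Fin (t' + 1))).filter
      (fun u => j.val * (t' + 1) + u.val < n)).card := by
  unfold SPSPS.degR
  have : (circ K n hn t' r').inR e = (univ : Finset (Fin (r' + 1))).val.map
      (fun j => (j, pre n ⟨0, hn⟩ ⟨0, hn⟩ e j, post n ⟨0, hn⟩ e j)) := rfl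
  rw [this, Multiset.map_map]
  unfold Finset.sum
  congr 1
  refine Multiset.map_congr rfl fun u _ => ?_
  exact degS_circ K n hn t' r' _

theorem hom_circ : (circ K n hn t' r').IsHomogeneous := by
  refine ⟨?_, ?_, ?_⟩
  · intro b l hl
    have : (circ K n hn t' r').inB b = {b} := rfl
    rw [this, Finset.mem_singleton] at hl
    subst hl
    rw [degB_circ]
    rfl
  · intro s p hp
    have hin : (circ K n hn t' r').inS s = univ.map ⟨fun d => (s.1, s.2.1, s.2.2, d),
      fun d d' h => by simpa using h⟩ := rfl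
    rw [hin, Finset.mem_map] at hp
    obtain ⟨d, _, rfl⟩ := hp
    rw [degP_circ, degS_circ]
    rfl
  · intro e he
    unfold SPSPS.degOut
    rw [sup_const (fun q _ => degR_circ K n hn t' r' q) he, degR_circ]

theorem size_circ : (circ K n hn t' r').size =
    2 * n ^ 3 + (r' + 1) * n ^ 2 + (r' + 1) * n ^ (t' + 1 + 1) + n ^ r' + 1 := by
  unfold SPSPS.size
  simp only [Fintype.card_prod, Fintype.card_fin, Fintype.card_fun]
  ring

end circuit

theorem size_bound (n t r : ℕ) (hn : 2 ≤ n) (ht : t = ⌈Real.sqrt n⌉₊) (hr : r = ⌈(n : ℝ) / t⌉₊) :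
    ((2 * n ^ 3 + r * n ^ 2 + r * n ^ (t + 1) + n ^ (r - 1) + 1 : ℕ) : ℝ) ≤
      (n : ℝ) ^ (Real.sqrt n + 4) := by
  have hn0 : (0 : ℝ) < n := by positivity
  have hn1 : (1 : ℝ) ≤ n := by exact_mod_cast (by omega : 1 ≤ n)
  have hs1 : 1 ≤ Real.sqrt n := by
    rw [Real.one_le_sqrt]; exact hn1
  set Y : ℝ := (n : ℝ) ^ Real.sqrt n with hY
  have hYn : (n : ℝ) ≤ Y := by
    calc (n : ℝ) = (n : ℝ) ^ (1 : ℝ) := (Real.rpow_one _).symm
      _ ≤ Y := Real.rpow_le_rpow_of_exponent_le hn1 hs1
  have hgoal : (n : ℝ) ^ (Real.sqrt n + 4) = Y * (n : ℝ) ^ 4 := by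
    rw [Real.rpow_add hn0]
    congr 1
    exact_mod_cast Real.rpow_natCast (n : ℝ) 4
  rw [hgoal]
  rcases Nat.eq_or_lt_of_le hn with h2 | h3
  · subst h2
    have ht2 : t = 2 := by
      rw [ht, Nat.ceil_eq_iff (by norm_num)]
      constructor
      · have : (1 : ℝ) < Real.sqrt 2 := by
          rw [Real.lt_sqrt (by norm_num)]; norm_num
        simpa using this
      · have : Real.sqrt 2 ≤ 2 := by
          rw [Real.sqrt_le_left (by norm_num)]; norm_num
        exact_mod_cast this
    subst ht2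
    have hr1 : r = 1 := by
      rw [hr]; norm_num
    subst hr1
    push_cast at hYn ⊢
    nlinarith
  · have hn3 : (3 : ℝ) ≤ n := by exact_mod_cast h3
    have ht1 : (t : ℝ) < Real.sqrt n + 1 := by
      rw [ht]; exact Nat.ceil_lt_add_one (Real.sqrt_nonneg _)
    have ht2 : Real.sqrt n ≤ t := by
      rw [ht]; exact Nat.le_ceil _
    have ht0 : (1 : ℝ) ≤ t := le_trans hs1 ht2
    have hdiv : (n : ℝ) / t ≤ Real.sqrt n := by
      rw [div_le_iff₀ (by linarith)]
      calc (n : ℝ) = Real.sqrt n * Real.sqrt n := (Real.mul_self_sqrt hn0.le).symm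
        _ ≤ Real.sqrt n * t := by gcongr
    have hrn : r ≤ n := by
      rw [hr, Nat.ceil_le]
      exact div_le_self hn0.le ht0
    have hrn' : (r : ℝ) ≤ n := by exact_mod_cast hrn
    have hr1 : (r : ℝ) < Real.sqrt n + 1 := by
      have : (r : ℝ) < (n : ℝ) / t + 1 := by
        rw [hr]; exact Nat.ceil_lt_add_one (by positivity)
      linarith
    have hA : ((n : ℝ) ^ (t + 1)) ≤ Y * (n : ℝ) ^ 2 := by
      have : Y * (n : ℝ) ^ 2 = (n : ℝ) ^ (Real.sqrt n + 2) := by
        rw [Real.rpow_add hn0]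
        congr 1
        exact_mod_cast (Real.rpow_natCast (n : ℝ) 2).symm
      rw [this, ← Real.rpow_natCast]
      apply Real.rpow_le_rpow_of_exponent_le hn1
      push_cast
      linarith
    have hB : ((n : ℝ) ^ (r - 1)) ≤ Y := by
      rw [← Real.rpow_natCast]
      apply Real.rpow_le_rpow_of_exponent_le hn1
      have : ((r - 1 : ℕ) : ℝ) ≤ (r : ℝ) - 1 ∨ r = 0 := by
        rcases Nat.eq_zero_or_pos r with h | h
        · right; exact h
        · left
          rw [Nat.cast_sub h]; simp
      rcases this with h | h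
      · linarith
      · subst h
        simp
    have hY3 : (3 : ℝ) ≤ Y := le_trans hn3 hYn
    push_cast
    have h1 : (r : ℝ) * (n : ℝ) ^ 2 ≤ (n : ℝ) * (n : ℝ) ^ 2 := by gcongr
    have h2 : (r : ℝ) * (n : ℝ) ^ (t + 1) ≤ (n : ℝ) * (Y * (n : ℝ) ^ 2) := by gcongr
    have hc : (27 : ℝ) ≤ (n : ℝ) ^ 3 := by
      calc (27 : ℝ) = 3 ^ 3 := by norm_num
        _ ≤ (n : ℝ) ^ 3 := by gcongr
    have h3' : Y * (n : ℝ) ^ 4 = (n : ℝ) ^ 3 * Y * n := by ring
    have h4 : (n : ℝ) ^ 3 * Y * 3 ≤ (n : ℝ) ^ 3 * Y * n := by gcongr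
    have h5 : (n : ℝ) ^ 3 * 3 ≤ (n : ℝ) ^ 3 * Y := by gcongr
    have h6 : 27 * Y ≤ (n : ℝ) ^ 3 * Y := by gcongr
    nlinarith

/-- For every field K and every n ≥ 2 there is a syntactically homogeneous depth-five sum-product circuit over K in the n³ matrix-entry variables (shared gates, unrestricted fan-in and bottom support) whose output is the top-left entry of the ordered product of the n variable matrices of order n and whose number of vertices, leaves included, is at most 2n³ + r·n² + r·n^(t+1) + n^(r−1) + 1 with t = ⌈√n⌉, r = ⌈n/t⌉, and also at most n^(√n + 4). Layers are indexed by initial segments of ℕ. -/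
theorem result (K : Type u) [Field K] (n : ℕ)
    (hn : 2 ≤ n) :
    ∃ (l b p s r : ℕ)
      (C : Crest.ArithCircuit.SPSPS K (Fin n × Fin n × Fin n) (Fin l) (Fin b) (Fin p) (Fin s) (Fin r)),
      C.IsHomogeneous ∧ C.output = Crest.ArithCircuit.imm K n ∧
        C.size ≤ 2 * n ^ 3 + ⌈(n : ℝ) / ⌈Real.sqrt n⌉₊⌉₊ * n ^ 2 +
          ⌈(n : ℝ) / ⌈Real.sqrt n⌉₊⌉₊ * n ^ (⌈Real.sqrt n⌉₊ + 1) +
          n ^ (⌈(n : ℝ) / ⌈Real.sqrt n⌉₊⌉₊ - 1) + 1 ∧
        (C.size : ℝ) ≤ (n : ℝ) ^ (Real.sqrt n + 4) := by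
  have hn0 : 0 < n := by omega
  have hnR : (0 : ℝ) < n := by exact_mod_cast hn0
  have hb := size_bound n _ _ hn rfl rfl
  have htpos : 0 < ⌈Real.sqrt n⌉₊ := Nat.ceil_pos.2 (Real.sqrt_pos.2 hnR)
  have htR : (0 : ℝ) < (⌈Real.sqrt n⌉₊ : ℝ) := by exact_mod_cast htpos
  have hrpos : 0 < ⌈(n : ℝ) / ⌈Real.sqrt n⌉₊⌉₊ := Nat.ceil_pos.2 (div_pos hnR htR)
  have hcover : n ≤ ⌈(n : ℝ) / ⌈Real.sqrt n⌉₊⌉₊ * ⌈Real.sqrt n⌉₊ := by
    have h1 : (n : ℝ) / ⌈Real.sqrt n⌉₊ ≤ (⌈(n : ℝ) / ⌈Real.sqrt n⌉₊⌉₊ : ℝ) := Nat.le_ceil _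
    rw [div_le_iff₀ htR] at h1
    exact_mod_cast h1
  generalize ⌈(n : ℝ) / ⌈Real.sqrt n⌉₊⌉₊ = r at hb hrpos hcover ⊢
  generalize ⌈Real.sqrt n⌉₊ = t at hb htpos hcover ⊢
  obtain ⟨t', rfl⟩ : ∃ t', t = t' + 1 := ⟨t - 1, by omega⟩
  obtain ⟨r', rfl⟩ : ∃ r', r = r' + 1 := ⟨r - 1, by omega⟩
  have hsz : ∀ C : SPSPS K (Fin n × Fin n × Fin n)
      (Fin (Fintype.card (Fin n × Fin n × Fin n))) (Fin (Fintype.card (Fin n × Fin n × Fin n)))
      (Fin (Fintype.card (Fin (r' + 1) × Fin n × Fin n × (Fin t' → Fin n))))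
      (Fin (Fintype.card (Fin (r' + 1) × Fin n × Fin n))) (Fin (Fintype.card (Fin r' → Fin n))),
      C.size = 2 * n ^ 3 + (r' + 1) * n ^ 2 + (r' + 1) * n ^ (t' + 1 + 1) + n ^ (r' + 1 - 1) + 1 := by
    intro C
    unfold SPSPS.size
    simp only [Fintype.card_prod, Fintype.card_fin, Fintype.card_fun, Nat.add_sub_cancel]
    ring
  refine ⟨_, _, _, _, _, transport (circ K n hn0 t' r') (Fintype.equivFin _) (Fintype.equivFin _)
    (Fintype.equivFin _) (Fintype.equivFin _) (Fintype.equivFin _), ?_, ?_, ?_, ?_⟩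
  · exact t_hom _ _ _ _ _ _ (hom_circ K n hn0 t' r')
  · rw [t_output, output_circ, prod_blocks K n hn0 (t' + 1) (r' + 1) hcover, imm_eq K n hn0]
  · rw [hsz]
  · rw [hsz]
    exact hb

end Crest.Agent.S0505
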