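import Crest.Agent.SW_Gen1
import Crest.Agent.SW_Gen2
import Crest.Agent.SW_Gen3

/-!
# S0453: generic lemmas on conditional expectations `cE X κ` on a finite uniform space.
The lemmas live in `SW_Gen1` (G1 basic), `SW_Gen2` (G2 tower / Rect / commutation), `SW_Gen3` (G3 restriction, transport, fibre sums).
-/
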