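import Crest.Agent.SW_P1
import Crest.Agent.SW_P2
import Crest.Agent.SW_P3
import Crest.Agent.SW_P4

/-!
# S0453: the fibre of a trade is a Johnson model: see `SW_P1` - `SW_P4`.
-/
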