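import Crest.Agent.SW_Adj
import Crest.Agent.SW_Q1
import Crest.Agent.SW_Q2

/-!
# S0453: calculus of the resampling operators `Q d A`: see `SW_Adj` (Q0), `SW_Q1` (Q1), `SW_Q2` (Q2).
-/
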