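import Crest.Agent.TU_Matrix
import Crest.Agent.TU_GoodBasis

/-! Row 173: Theorem U in coordinates (assembly of Theorem A = `goodBasis` and Theorem B = `TU_matrix`). -/

set_option autoImplicit false

namespace Crest.Agent.TU

open Matrix

variable {k D : Type} [Field k] [AddCommGroup D] [Module k D]

theorem TU_coord (p : ℕ) [Fact p.Prime] [CharP k p] (n : ℕ) [FiniteDimensional k D]
    {γ : ℕ → D →ₗ[k] D} (hγ : IsDPL γ) (hN : ∀ c, p ^ (n + 1) ≤ c → γ c = 0) :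
    ∃ (r : ℕ) (μ : Fin r → ℕ) (_ : ∀ i, μ i < p ^ (n + 1)) (b : Module.Basis (BB k μ).I k D)
      (Φ Ψ : Matrix (Fin (p ^ n - 1 + 1) × (BB k μ).I) (Fin (p ^ n - 1 + 1) × (BB k μ).I) k),
      Φ * Ψ = 1 ∧ Ψ * Φ = 1 ∧
      ∀ c, Φ * tensorG (nablaG k (p ^ n - 1)) (BB k μ).G c =
        tensorG (nablaG k (p ^ n - 1)) (fun a => LinearMap.toMatrix b b (γ a)) c * Φ := by
  obtain ⟨r, μ, hμ, b, tri⟩ := goodBasis p hγ (p ^ (n + 1)) hN
  have hGd : IsDP (fun a => LinearMap.toMatrix b b (γ a)) := by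
    constructor
    · simp only [hγ.zero]
      exact LinearMap.toMatrix_id b
    · intro a c
      rw [← LinearMap.toMatrix_comp, hγ.mul, map_smul]
  obtain ⟨Φ, Ψ, h1, h2, h3⟩ := TU_matrix p n μ hμ _ hGd tri
  exact ⟨r, μ, hμ, b, Φ, Ψ, h1, h2, h3⟩

end Crest.Agent.TU
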